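import Vale.Agent.P237.Petty.Cor.Grid.N6.LowCert

/-!
# P237: a cell in dimension 6, subdivisions
-/

namespace Vale.Agent.P237.Petty.Cor.Grid.N6.Low

def covers0 : cell.Covers table row0.1 :=
  ⟨(.cut .d 0 (.cut .v 16777216 (.cut .v 8388608 (.cut .v 4194304 (.void 4 ⟨0, 0, 100000, 0, 0, 0, 0, 0, 0, ⟨0, 0⟩, 0⟩ 0 0) (.pos 5 .mm ⟨0, 0, 0, 0, 0, 142599, 0, 0, 0, ⟨0, 0⟩, 0⟩ 0 0)) (.cut .d (-8388608) (.pos 3 .mm ⟨0, 0, 0, 0, 0, 0, 0, 0, 0, ⟨0, 0⟩, 0⟩ 0 0) (.cut .v 12582912 (.pos 6 .mm ⟨0, 0, 0, 0, 0, 0, 0, 0, 0, ⟨0, 0⟩, 0⟩ 0 0) (.cut .d (-4194304) (.pos 7 .mm ⟨0, 0, 0, 0, 0, 0, 0, 0, 0, ⟨0, 0⟩, 0⟩ 0 0) (.cut .v 14680064 (.cut .d (-2097152) (.pos 8 .mm ⟨0, 0, 0, 0, 0,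 0, 0, 0, 0, ⟨0, 0⟩, 0⟩ 0 0) (.pos 8 .mm ⟨0, 0, 0, 0, 544405, 0, 0, 0, 0, ⟨0, 0⟩, 0⟩ 0 0)) (.cut .d (-2097152) (.pos 9 .mm ⟨0, 0, 0, 0, 0, 0, 0, 0, 0, ⟨0, 0⟩, 0⟩ 0 0) (.cut .d (-1048576) (.pos 9 .mm ⟨0, 0, 0, 0, 0, 0, 0, 0, 0, ⟨0, 0⟩, 0⟩ 0 0) (.cut .v 15728640 (.pos 12 .mm ⟨0, 0, 0, 0, 759751, 0, 0, 0, 0, ⟨0, 0⟩, 0⟩ 0 0) (.pos 13 .mm ⟨0, 0, 0, 0, 0, 0, 0, 0, 0, ⟨0, 0⟩, 0⟩ 0 0))))))))) (.cut .v 25165824 (.cut .v 20971520 (.cut .v 18874368 (.cut .v 17825792 (.pos 21 .mp ⟨0, 0, 0, 0, 0, 0, 0, 0, 0, ⟨0, 0⟩, 0⟩ 0 0) (.pos 22 .mp ⟨350257, 0, 0, 0, 0, 0, 0, 0, 0, ⟨0, 0⟩, 0⟩ 0 0)) (.pos 20 .mp ⟨379437, 0, 0, 0, 0, 0, 0, 0, 0, ⟨0, 0⟩, 0⟩ 0 0)) (.void 18 ⟨100000, 0, 0, 0,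 0, 0, 0, 0, 0, ⟨0, 0⟩, 0⟩ 0 0)) (.void 16 ⟨0, 0, 0, 0, 0, 0, 100000, 0, 0, ⟨0, 0⟩, 0⟩ 0 0))) (.cut .v 16777216 (.cut .v 8388608 (.cut .v 4194304 (.void 4 ⟨0, 0, 100000, 0, 0, 0, 0, 0, 0, ⟨0, 0⟩, 0⟩ 0 0) (.pos 5 .pm ⟨0, 0, 0, 0, 1255765, 0, 0, 0, 0, ⟨0, 0⟩, 0⟩ 0 0)) (.pos 3 .pm ⟨0, 0, 0, 0, 747303, 0, 0, 0, 0, ⟨0, 0⟩, 0⟩ 0 0)) (.cut .v 25165824 (.cut .v 20971520 (.cut .d 2174708 (.cut .v 18874368 (.cut .d 1087354 (.cut .v 17825792 (.cut .l 2125114 (.cut .d 543677 (.cut .v 17301504 (.pos 23 .pp ⟨0, 0, 0, 0, 0, 0, 0, 0, 0, ⟨0, 0⟩, 0⟩ 0 0) (.pos 24 .pp ⟨0, 0, 0, 0, 0, 0, 22121, 0, 0, ⟨0, 0⟩, 0⟩ 0 0)) (.cut .v 17301504 (.pos 23 .pp ⟨0, 0, 0, 0, 0, 0, 0, 0, 237016,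 ⟨0, 0⟩, 16906779⟩ 0 0) (.pos 24 .pp ⟨165624, 0, 0, 0, 0, 0, 0, 588382, 0, ⟨(-1), 16610761⟩, 0⟩ 0 28))) (.pos 21 .pp ⟨0, 0, 0, 0, 0, 0, 0, 0, 0, ⟨0, 0⟩, 0⟩ 0 0)) (.pos 22 .pp ⟨345277, 0, 0, 0, 0, 0, 0, 0, 0, ⟨0, 0⟩, 0⟩ 0 0)) (.cut .v 17825792 (.pos 21 .pp ⟨197565, 0, 0, 0, 0, 0, 0, 0, 481132, ⟨0, 0⟩, 17033431⟩ 0 0) (.pos 22 .pp ⟨298629, 0, 0, 0, 0, 0, 0, 0, 170233, ⟨0, 0⟩, 17542451⟩ 0 0))) (.pos 20 .pp ⟨379437, 0, 0, 0, 0, 0, 0, 0, 0, ⟨0, 0⟩, 0⟩ 0 0)) (.cut .v 18874368 (.pos 19 .pp ⟨359668, 0, 0, 0, 2047033, 0, 0, 0, 0, ⟨0, 0⟩, 0⟩ 0 0) (.cut .d 3262062 (.pos 20 .pp ⟨399037, 0, 0, 0, 0, 0, 0, 0, 0, ⟨0, 0⟩, 0⟩ 0 0) (.pos 20 .pp ⟨410798, 0, 0, 0, 0, 0, 0, 0, 0, ⟨0,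 0⟩, 0⟩ 0 0)))) (.pos 18 .pp ⟨4057297, 0, 0, 0, 0, 0, 0, 673678, 0, ⟨(-1), 16546528⟩, 0⟩ 0 33)) (.void 16 ⟨0, 0, 0, 0, 0, 0, 100000, 0, 0, ⟨0, 0⟩, 0⟩ 0 0)))),
    by decide +kernel⟩

def covers1 : cell.Covers table row1.1 :=
  ⟨(.cut .d 0 (.cut .v 16777216 (.cut .v 8388608 (.cut .v 4194304 (.void 4 ⟨0, 0, 100000, 0, 0, 0, 0, 0, 0, ⟨0, 0⟩, 0⟩ 0 0) (.pos 5 .mm ⟨0, 0, 0, 0, 0, 831705, 0, 0, 0, ⟨0, 0⟩, 0⟩ 0 0)) (.cut .d (-8388608) (.pos 3 .mm ⟨0, 0, 0, 0, 0, 190031, 0, 0, 0, ⟨0, 0⟩, 0⟩ 0 0) (.cut .v 12582912 (.pos 6 .mm ⟨0, 0, 0, 0, 0, 213784, 0, 0, 0, ⟨0, 0⟩, 0⟩ 0 0) (.cut .d (-4194304) (.pos 7 .mm ⟨0, 0, 0, 0, 0, 237538, 0, 0, 0, ⟨0, 0⟩, 0⟩ 0 0) (.cut .v 14680064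 (.cut .d (-2097152) (.pos 8 .mm ⟨0, 0, 0, 0, 0, 78037, 0, 0, 0, ⟨0, 0⟩, 0⟩ 0 0) (.pos 8 .mm ⟨0, 0, 0, 0, 1473783, 343362, 0, 0, 0, ⟨0, 0⟩, 0⟩ 0 0)) (.cut .d (-2097152) (.pos 9 .mm ⟨0, 0, 0, 0, 0, 0, 0, 0, 0, ⟨0, 0⟩, 0⟩ 0 0) (.cut .d (-1048576) (.pos 9 .mm ⟨0, 0, 0, 0, 0, 0, 0, 0, 0, ⟨0, 0⟩, 0⟩ 0 0) (.cut .v 15728640 (.pos 12 .mm ⟨0, 0, 0, 0, 0, 0, 0, 0, 0, ⟨0, 0⟩, 0⟩ 0 0) (.pos 13 .mm ⟨0, 0, 0, 0, 0, 0, 0, 0, 0, ⟨0, 0⟩, 0⟩ 0 0))))))))) (.cut .v 25165824 (.cut .v 20971520 (.cut .v 18874368 (.pos 19 .mp ⟨319747, 0, 0, 0, 0, 0, 0, 0, 0, ⟨0, 0⟩, 0⟩ 0 0) (.pos 20 .mp ⟨367338, 0, 0, 0, 0, 0, 0, 0, 0, ⟨0, 0⟩, 0⟩ 0 0)) (.void 18 ⟨100000, 0, 0, 0, 0, 0, 0, 0, 0, ⟨0, 0⟩,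 0⟩ 0 0)) (.void 16 ⟨100000, 0, 0, 0, 0, 0, 0, 0, 0, ⟨0, 0⟩, 0⟩ 0 0))) (.cut .v 16777216 (.cut .v 8388608 (.void 2 ⟨0, 0, 0, 0, 100000, 0, 0, 0, 0, ⟨0, 0⟩, 0⟩ 0 0) (.cut .v 12582912 (.void 6 ⟨0, 0, 0, 0, 100000, 0, 0, 0, 0, ⟨0, 0⟩, 0⟩ 0 0) (.pos 7 .pm ⟨0, 0, 0, 0, 0, 0, 0, 0, 565054, ⟨0, 0⟩, 15612959⟩ 0 0))) (.cut .v 25165824 (.cut .v 20971520 (.cut .d 2500054 (.cut .v 18874368 (.cut .d 1250027 (.cut .v 17825792 (.cut .l 2125114 (.cut .d 625013 (.cut .v 17301504 (.pos 23 .pp ⟨0, 0, 0, 0, 0, 0, 0, 0, 0, ⟨0, 0⟩, 0⟩ 0 0) (.pos 24 .pp ⟨52836, 0, 0, 0, 0, 0, 0, 0, 0, ⟨0, 0⟩, 0⟩ 0 0)) (.cut .v 17301504 (.pos 23 .pp ⟨0, 0, 0, 0, 0, 0, 0, 251306, 0, ⟨80548, 15840469⟩,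 0⟩ 26 50) (.pos 24 .pp ⟨0, 0, 0, 0, 0, 0, 0, 825900, 239447, ⟨80548, 15840469⟩, 17164973⟩ 26 50))) (.pos 21 .pp ⟨0, 0, 0, 0, 0, 0, 0, 0, 0, ⟨0, 0⟩, 0⟩ 0 0)) (.pos 22 .pp ⟨339088, 0, 0, 0, 0, 0, 0, 0, 0, ⟨0, 0⟩, 0⟩ 0 0)) (.cut .v 17825792 (.pos 21 .pp ⟨0, 0, 0, 0, 0, 0, 0, 0, 1078632, ⟨0, 0⟩, 17033431⟩ 0 0) (.pos 22 .pp ⟨32359, 0, 0, 0, 0, 0, 0, 0, 1090250, ⟨0, 0⟩, 17542451⟩ 0 0))) (.pos 20 .pp ⟨367338, 0, 0, 0, 0, 0, 0, 0, 0, ⟨0, 0⟩, 0⟩ 0 0)) (.cut .d 3750081 (.cut .v 18874368 (.pos 19 .pp ⟨0, 0, 0, 0, 624378, 0, 0, 0, 1227873, ⟨0, 0⟩, 17278579⟩ 0 0) (.pos 20 .pp ⟨0, 0, 0, 0, 0, 0, 0, 80936, 1132813, ⟨115161, 15582134⟩, 18269873⟩ 29 57)) (.pos 17 .pp ⟨0, 0, 0,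 0, 0, 0, 0, 2605916, 1280303, ⟨136664, 15444859⟩, 17739746⟩ 31 60))) (.cut .d 2500054 (.pos 18 .pp ⟨425722, 0, 0, 0, 0, 0, 0, 0, 0, ⟨0, 0⟩, 0⟩ 0 0) (.cut .d 3750081 (.pos 18 .pp ⟨425722, 0, 0, 0, 0, 0, 0, 0, 0, ⟨0, 0⟩, 0⟩ 0 0) (.pos 18 .pp ⟨2354934, 0, 0, 0, 0, 0, 0, 4864869, 179397, ⟨136664, 15444859⟩, 19632256⟩ 31 60)))) (.void 16 ⟨100000, 0, 0, 0, 0, 0, 0, 0, 0, ⟨0, 0⟩, 0⟩ 0 0)))),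
    by decide +kernel⟩

def covers2 : cell.Covers table row2.1 :=
  ⟨(.cut .d 0 (.cut .v 16777216 (.cut .v 8388608 (.void 2 ⟨0, 0, 0, 0, 50000, 50000, 0, 0, 0, ⟨0, 0⟩, 0⟩ 0 0) (.cut .d (-8388608) (.void 3 ⟨0, 0, 0, 0, 0, 100000, 0, 0, 0, ⟨0, 0⟩, 0⟩ 0 0) (.cut .v 12582912 (.pos 6 .mm ⟨0, 0, 0, 0, 0, 339257, 0, 0, 0, ⟨0, 0⟩, 0⟩ 0 0) (.cut .d (-4194304) (.pos 7 .mm ⟨0, 0, 0, 0, 0, 277566, 0, 0, 0, ⟨0, 0⟩, 0⟩ 0 0) (.cut .v 14680064 (.pos 8 .mm ⟨0, 0, 0, 0, 0, 287380, 0, 0, 0, ⟨0, 0⟩, 0⟩ 0 0) (.cut .d (-2097152) (.pos 9 .mm ⟨0, 0, 0, 0, 0, 266764, 0, 0, 0, ⟨0, 0⟩, 0⟩ 0 0) (.cut .v 15728640 (.pos 12 .mm ⟨0, 0, 0, 0, 0, 272827, 0, 0, 0, ⟨0, 0⟩, 0⟩ 0 0) (.cut .d (-1048576)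 (.pos 13 .mm ⟨0, 0, 0, 0, 0, 278890, 0, 0, 0, ⟨0, 0⟩, 0⟩ 0 0) (.pos 13 .mm ⟨0, 0, 0, 0, 0, 0, 0, 0, 0, ⟨0, 0⟩, 0⟩ 0 0))))))))) (.cut .v 25165824 (.cut .v 20971520 (.pos 17 .mp ⟨284766, 0, 0, 0, 0, 0, 0, 0, 0, ⟨0, 0⟩, 0⟩ 0 0) (.void 18 ⟨100000, 0, 0, 0, 0, 0, 0, 0, 0, ⟨0, 0⟩, 0⟩ 0 0)) (.void 16 ⟨100000, 0, 0, 0, 0, 0, 0, 0, 0, ⟨0, 0⟩, 0⟩ 0 0))) (.cut .v 16777216 (.cut .v 8388608 (.void 2 ⟨0, 0, 0, 0, 100000, 0, 0, 0, 0, ⟨0, 0⟩, 0⟩ 0 0) (.cut .v 12582912 (.void 6 ⟨0, 0, 0, 0, 100000, 0, 0, 0, 0, ⟨0, 0⟩, 0⟩ 0 0) (.cut .v 14680064 (.void 8 ⟨0, 0, 0, 0, 100000, 0, 0, 0, 0, ⟨0, 0⟩, 0⟩ 0 0) (.cut .d 2778144 (.cut .d 1389072 (.cut .d 694536 (.cut .v 15728640 (.pos 12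 .pm ⟨0, 0, 0, 0, 0, 0, 0, 0, 0, ⟨0, 0⟩, 0⟩ 0 0) (.pos 13 .pm ⟨0, 0, 0, 0, 0, 0, 0, 0, 0, ⟨0, 0⟩, 0⟩ 0 0)) (.pos 9 .pm ⟨0, 0, 0, 0, 0, 0, 0, 0, 0, ⟨0, 0⟩, 0⟩ 0 0)) (.pos 9 .pm ⟨0, 0, 0, 0, 0, 0, 0, 0, 432023, ⟨0, 0⟩, 16226390⟩ 0 0)) (.void 9 ⟨0, 0, 0, 0, 100000, 0, 0, 0, 0, ⟨0, 0⟩, 0⟩ 0 0))))) (.cut .v 25165824 (.cut .v 20971520 (.cut .d 2778144 (.cut .v 18874368 (.cut .d 1389072 (.cut .v 17825792 (.cut .l 2125114 (.cut .d 694536 (.cut .v 17301504 (.pos 23 .pp ⟨0, 0, 0, 0, 0, 0, 0, 0, 0, ⟨0, 0⟩, 0⟩ 0 0) (.pos 24 .pp ⟨0, 0, 0, 0, 0, 0, 0, 460094, 0, ⟨240258, 14995131⟩, 0⟩ 46 61)) (.cut .v 17301504 (.pos 23 .pp ⟨0, 0, 0, 0, 0, 0, 0, 196952, 0, ⟨260014, 14896720⟩,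 0⟩ 47 63) (.pos 24 .pp ⟨0, 0, 0, 0, 0, 0, 0, 506383, 0, ⟨260014, 14896720⟩, 0⟩ 47 63))) (.pos 21 .pp ⟨0, 0, 0, 0, 0, 0, 0, 0, 0, ⟨0, 0⟩, 0⟩ 0 0)) (.pos 22 .pp ⟨315046, 0, 0, 0, 0, 0, 0, 0, 0, ⟨0, 0⟩, 0⟩ 0 0)) (.cut .v 17825792 (.pos 21 .pp ⟨0, 0, 0, 0, 0, 0, 0, 0, 420269, ⟨0, 0⟩, 17033431⟩ 0 0) (.pos 22 .pp ⟨0, 0, 0, 0, 0, 0, 0, 13861, 488590, ⟨309353, 14657077⟩, 17542451⟩ 49 68))) (.pos 20 .pp ⟨541272, 0, 0, 0, 0, 0, 0, 0, 0, ⟨0, 0⟩, 0⟩ 0 0)) (.cut .v 18874368 (.pos 19 .pp ⟨0, 0, 0, 0, 0, 0, 0, 0, 526939, ⟨0, 0⟩, 17278579⟩ 0 0) (.pos 20 .pp ⟨0, 0, 0, 0, 0, 0, 0, 0, 925265, ⟨0, 0⟩, 18269873⟩ 0 0))) (.cut .d 2778144 (.pos 18 .pp ⟨682834, 0, 0, 0, 0, 0, 0, 0, 0,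 ⟨0, 0⟩, 0⟩ 0 0) (.pos 18 .pp ⟨0, 0, 0, 0, 0, 0, 0, 2643732, 0, ⟨424089, 14140917⟩, 0⟩ 53 78))) (.void 16 ⟨100000, 0, 0, 0, 0, 0, 0, 0, 0, ⟨0, 0⟩, 0⟩ 0 0)))),
    by decide +kernel⟩

def covers3 : cell.Covers table row3.1 :=
  ⟨(.cut .d 0 (.cut .v 16777216 (.cut .v 8388608 (.void 2 ⟨0, 0, 0, 0, 50000, 50000, 0, 0, 0, ⟨0, 0⟩, 0⟩ 0 0) (.cut .d (-8388608) (.void 3 ⟨0, 0, 0, 0, 0, 100000, 0, 0, 0, ⟨0, 0⟩, 0⟩ 0 0) (.cut .v 12582912 (.pos 6 .mm ⟨0, 0, 0, 0, 0, 218258, 0, 0, 0, ⟨0, 0⟩, 0⟩ 0 0) (.cut .d (-4194304) (.pos 7 .mm ⟨0, 0, 0, 0, 0, 265505, 0, 0, 0, ⟨0, 0⟩, 0⟩ 0 0) (.cut .v 14680064 (.pos 8 .mm ⟨0, 0, 0, 0, 0, 254635, 0, 0, 0, ⟨0, 0⟩, 0⟩ 0 0) (.cut .d (-2097152)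 (.pos 9 .mm ⟨0, 0, 0, 0, 0, 292055, 0, 0, 0, ⟨0, 0⟩, 0⟩ 0 0) (.cut .v 15728640 (.pos 12 .mm ⟨0, 0, 0, 0, 0, 289398, 0, 0, 0, ⟨0, 0⟩, 0⟩ 0 0) (.cut .v 16252928 (.pos 29 .mm ⟨0, 0, 0, 0, 0, 277941, 0, 0, 0, ⟨0, 0⟩, 0⟩ 0 0) (.pos 30 .mm ⟨0, 0, 0, 0, 0, 0, 0, 0, 0, ⟨0, 0⟩, 0⟩ 0 0))))))))) (.cut .v 25165824 (.cut .v 20971520 (.pos 17 .mp ⟨0, 0, 0, 0, 0, 0, 0, 0, 0, ⟨0, 0⟩, 0⟩ 0 0) (.void 18 ⟨100000, 0, 0, 0, 0, 0, 0, 0, 0, ⟨0, 0⟩, 0⟩ 0 0)) (.void 16 ⟨100000, 0, 0, 0, 0, 0, 0, 0, 0, ⟨0, 0⟩, 0⟩ 0 0))) (.cut .v 16777216 (.cut .v 8388608 (.void 2 ⟨0, 0, 0, 0, 100000, 0, 0, 0, 0, ⟨0, 0⟩, 0⟩ 0 0) (.cut .v 12582912 (.void 6 ⟨0, 0, 0, 0, 100000, 0, 0, 0, 0, ⟨0, 0⟩, 0⟩ 0 0)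 (.cut .v 14680064 (.void 8 ⟨0, 0, 0, 0, 100000, 0, 0, 0, 0, ⟨0, 0⟩, 0⟩ 0 0) (.cut .d 3153170 (.cut .d 1576585 (.cut .d 788292 (.cut .v 15728640 (.pos 12 .pm ⟨0, 0, 0, 0, 0, 0, 0, 0, 0, ⟨0, 0⟩, 0⟩ 0 0) (.cut .d 394146 (.pos 13 .pm ⟨0, 0, 0, 0, 0, 0, 0, 0, 0, ⟨0, 0⟩, 0⟩ 0 0) (.pos 13 .pm ⟨0, 0, 0, 0, 0, 0, 0, 0, 0, ⟨0, 0⟩, 0⟩ 0 0))) (.pos 9 .pm ⟨0, 0, 0, 0, 0, 0, 0, 359573, 0, ⟨483961, 13963056⟩, 0⟩ 60 76)) (.pos 9 .pm ⟨0, 0, 0, 0, 0, 0, 0, 0, 360605, ⟨0, 0⟩, 16226390⟩ 0 0)) (.void 9 ⟨0, 0, 0, 0, 0, 0, 0, 0, 100000, ⟨0, 0⟩, 16226390⟩ 0 0))))) (.cut .v 25165824 (.cut .v 20971520 (.cut .d 3153170 (.cut .v 18874368 (.cut .d 1576585 (.cut .v 17825792 (.cut .d 788292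 (.cut .v 17301504 (.pos 23 .pp ⟨0, 0, 0, 0, 0, 0, 0, 0, 0, ⟨0, 0⟩, 0⟩ 0 0) (.pos 24 .pp ⟨0, 0, 0, 0, 0, 0, 0, 415106, 0, ⟨434955, 14156117⟩, 0⟩ 58 73)) (.pos 21 .pp ⟨0, 0, 0, 0, 0, 0, 0, 393147, 0, ⟨483961, 13963056⟩, 0⟩ 60 76)) (.pos 22 .pp ⟨281686, 0, 0, 0, 0, 0, 0, 0, 0, ⟨0, 0⟩, 0⟩ 0 0)) (.cut .v 17825792 (.pos 21 .pp ⟨0, 0, 0, 0, 0, 0, 0, 41443, 311980, ⟨579079, 13600202⟩, 17033431⟩ 63 82) (.pos 22 .pp ⟨0, 0, 0, 0, 0, 0, 0, 218995, 212167, ⟨579079, 13600202⟩, 17542451⟩ 63 82))) (.pos 20 .pp ⟨305153, 0, 0, 0, 0, 0, 0, 0, 0, ⟨0, 0⟩, 0⟩ 0 0)) (.cut .v 18874368 (.pos 19 .pp ⟨0, 0, 0, 0, 0, 0, 0, 0, 422115, ⟨0, 0⟩, 17278579⟩ 0 0) (.pos 20 .pp ⟨0, 0, 0, 0, 0, 0,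 0, 0, 1514567, ⟨0, 0⟩, 18269873⟩ 0 0))) (.cut .d 3153170 (.pos 18 .pp ⟨353654, 0, 0, 0, 0, 0, 0, 0, 0, ⟨0, 0⟩, 0⟩ 0 0) (.cut .d 4729755 (.pos 18 .pp ⟨0, 0, 0, 0, 0, 0, 0, 2417130, 0, ⟨724802, 13093034⟩, 0⟩ 68 89) (.pos 18 .pp ⟨0, 0, 0, 0, 0, 0, 0, 7932645, 0, ⟨893489, 12561383⟩, 0⟩ 74 95)))) (.void 16 ⟨55193, 0, 0, 0, 0, 0, 0, 44807, 0, ⟨643853, 13234086⟩, 0⟩ 58 95)))),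
    by decide +kernel⟩

def covers4 : cell.Covers table row4.1 :=
  ⟨(.cut .d 0 (.cut .v 16777216 (.cut .v 8388608 (.void 2 ⟨0, 0, 0, 0, 50000, 50000, 0, 0, 0, ⟨0, 0⟩, 0⟩ 0 0) (.cut .v 12582912 (.pos 6 .mm ⟨0, 0, 0, 0, 0, 6095295, 0, 0, 0, ⟨0, 0⟩, 0⟩ 0 0) (.cut .d (-8388608) (.void 7 ⟨0, 0, 0, 0, 0, 100000, 0, 0, 0, ⟨0, 0⟩, 0⟩ 0 0) (.cut .d (-4194304) (.pos 7 .mm ⟨0, 0, 0, 0, 0, 714260, 0, 0, 0, ⟨0, 0⟩, 0⟩ 0 0) (.cut .v 14680064 (.pos 8 .mm ⟨0, 0, 0, 0, 0, 278652, 0, 0, 0, ⟨0, 0⟩, 0⟩ 0 0) (.cut .d (-2097152) (.pos 9 .mm ⟨0, 0, 0, 0, 0, 327186, 0, 0, 0, ⟨0, 0⟩, 0⟩ 0 0) (.cut .v 15728640 (.pos 12 .mm ⟨0, 0, 0, 0, 0, 308451, 0, 0, 0, ⟨0, 0⟩, 0⟩ 0 0) (.cut .v 16252928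 (.pos 29 .mm ⟨0, 0, 0, 0, 0, 199714, 0, 0, 0, ⟨0, 0⟩, 0⟩ 0 0) (.pos 30 .mm ⟨0, 0, 0, 0, 0, 0, 0, 0, 0, ⟨0, 0⟩, 0⟩ 0 0))))))))) (.cut .v 25165824 (.cut .v 20971520 (.pos 17 .mp ⟨0, 0, 0, 0, 0, 0, 0, 0, 0, ⟨0, 0⟩, 0⟩ 0 0) (.void 18 ⟨100000, 0, 0, 0, 0, 0, 0, 0, 0, ⟨0, 0⟩, 0⟩ 0 0)) (.void 16 ⟨100000, 0, 0, 0, 0, 0, 0, 0, 0, ⟨0, 0⟩, 0⟩ 0 0))) (.cut .v 16777216 (.cut .v 8388608 (.void 2 ⟨0, 0, 0, 0, 100000, 0, 0, 0, 0, ⟨0, 0⟩, 0⟩ 0 0) (.cut .v 12582912 (.void 6 ⟨0, 0, 0, 0, 100000, 0, 0, 0, 0, ⟨0, 0⟩, 0⟩ 0 0) (.cut .v 14680064 (.pos 8 .pm ⟨0, 0, 0, 0, 0, 0, 0, 0, 316207, ⟨0, 0⟩, 15100357⟩ 0 0) (.cut .d 3614960 (.cut .d 1807480 (.cut .v 15728640 (.pos 12 .pm ⟨0, 0,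 0, 0, 0, 0, 0, 0, 0, ⟨0, 0⟩, 0⟩ 0 0) (.cut .d 903740 (.cut .v 16252928 (.pos 29 .pm ⟨0, 0, 0, 0, 0, 0, 0, 0, 0, ⟨0, 0⟩, 0⟩ 0 0) (.pos 30 .pm ⟨0, 0, 0, 0, 0, 0, 0, 0, 0, ⟨0, 0⟩, 0⟩ 0 0)) (.pos 13 .pm ⟨0, 0, 0, 0, 0, 0, 0, 317882, 0, ⟨783790, 12923361⟩, 0⟩ 72 89))) (.pos 9 .pm ⟨0, 0, 0, 0, 0, 0, 0, 0, 314639, ⟨0, 0⟩, 16226390⟩ 0 0)) (.void 9 ⟨0, 0, 0, 0, 0, 0, 0, 0, 100000, ⟨0, 0⟩, 16226390⟩ 0 0))))) (.cut .v 25165824 (.cut .v 20971520 (.cut .d 3614960 (.cut .v 18874368 (.cut .d 1807480 (.cut .v 17825792 (.cut .d 903740 (.pos 21 .pp ⟨0, 0, 0, 0, 0, 0, 0, 0, 0, ⟨0, 0⟩, 0⟩ 0 0) (.pos 21 .pp ⟨0, 0, 0, 0, 0, 0, 0, 349106, 0, ⟨783790, 12923361⟩, 0⟩ 72 89)) (.pos 22 .pp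 ⟨0, 0, 0, 0, 0, 0, 0, 381871, 0, ⟨739409, 13051020⟩, 0⟩ 69 89)) (.pos 19 .pp ⟨0, 0, 0, 0, 0, 0, 0, 0, 306976, ⟨0, 0⟩, 17278579⟩ 0 0)) (.pos 20 .pp ⟨0, 0, 0, 0, 0, 0, 0, 404334, 0, ⟨850135, 12640211⟩, 0⟩ 69 98)) (.pos 17 .pp ⟨0, 0, 0, 0, 0, 0, 0, 0, 299679, ⟨0, 0⟩, 17739746⟩ 0 0)) (.cut .d 3614960 (.pos 18 .pp ⟨0, 0, 0, 0, 0, 0, 0, 449260, 0, ⟨850135, 12640211⟩, 0⟩ 69 98) (.pos 18 .pp ⟨0, 0, 0, 0, 0, 0, 0, 6694246, 0, ⟨1363697, 11169984⟩, 0⟩ 83 115))) (.pos 16 .pp ⟨8420862, 0, 0, 0, 0, 0, 0, 23234561, 0, ⟨1070471, 11822731⟩, 0⟩ 69 115)))),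
    by decide +kernel⟩

def covers5 : cell.Covers table row5.1 :=
  ⟨(.cut .d 0 (.cut .v 16777216 (.cut .v 8388608 (.void 2 ⟨0, 0, 0, 0, 50000, 50000, 0, 0, 0, ⟨0, 0⟩, 0⟩ 0 0) (.cut .v 12582912 (.pos 6 .mm ⟨0, 0, 0, 0, 0, 4417197, 0, 0, 0, ⟨0, 0⟩, 0⟩ 0 0) (.cut .d (-8388608) (.void 7 ⟨0, 0, 0, 0, 0, 100000, 0, 0, 0, ⟨0, 0⟩, 0⟩ 0 0) (.cut .d (-4194304) (.void 7 ⟨0, 0, 0, 0, 0, 100000, 0, 0, 0, ⟨0, 0⟩, 0⟩ 0 0) (.cut .v 14680064 (.pos 8 .mm ⟨0, 0, 0, 0, 0, 311915, 0, 0, 0, ⟨0, 0⟩, 0⟩ 0 0) (.cut .d (-2097152) (.pos 9 .mm ⟨0, 0, 0, 0, 0, 337042, 0, 0, 0, ⟨0, 0⟩, 0⟩ 0 0) (.cut .v 15728640 (.pos 12 .mm ⟨0, 0, 0, 0, 0, 319725, 0, 0, 0, ⟨0, 0⟩, 0⟩ 0 0) (.cut .s 5636096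 (.pos 13 .mm ⟨0, 0, 0, 0, 0, 74403, 0, 0, 0, ⟨0, 0⟩, 0⟩ 0 0) (.pos 13 .mm ⟨0, 0, 0, 0, 0, 0, 0, 0, 0, ⟨0, 0⟩, 0⟩ 0 0))))))))) (.cut .v 25165824 (.pos 15 .mp ⟨314527, 0, 0, 0, 0, 0, 0, 0, 0, ⟨0, 0⟩, 0⟩ 0 0) (.void 16 ⟨100000, 0, 0, 0, 0, 0, 0, 0, 0, ⟨0, 0⟩, 0⟩ 0 0))) (.cut .v 16777216 (.cut .v 8388608 (.void 2 ⟨0, 0, 0, 0, 100000, 0, 0, 0, 0, ⟨0, 0⟩, 0⟩ 0 0) (.cut .v 12582912 (.void 6 ⟨0, 0, 0, 0, 100000, 0, 0, 0, 0, ⟨0, 0⟩, 0⟩ 0 0) (.cut .v 14680064 (.pos 8 .pm ⟨0, 0, 0, 0, 0, 0, 0, 0, 0, ⟨0, 0⟩, 0⟩ 0 0) (.cut .d 4285324 (.cut .d 2142662 (.cut .v 15728640 (.pos 12 .pm ⟨0, 0, 0, 0, 0, 0, 0, 0, 0, ⟨0, 0⟩, 0⟩ 0 0) (.cut .d 1071331 (.cut .d 535665 (.cut .v 16252928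 (.pos 29 .pm ⟨0, 0, 0, 0, 0, 0, 0, 0, 0, ⟨0, 0⟩, 0⟩ 0 0) (.pos 30 .pm ⟨0, 0, 0, 0, 0, 0, 0, 0, 0, ⟨0, 0⟩, 0⟩ 0 0)) (.pos 13 .pm ⟨0, 0, 0, 0, 0, 0, 0, 0, 0, ⟨0, 0⟩, 0⟩ 0 0)) (.pos 13 .pm ⟨0, 0, 0, 0, 0, 0, 0, 291197, 0, ⟨1224200, 11624218⟩, 0⟩ 85 104))) (.pos 9 .pm ⟨0, 0, 0, 0, 0, 0, 0, 0, 282344, ⟨0, 0⟩, 16226390⟩ 0 0)) (.void 9 ⟨0, 0, 0, 0, 0, 0, 0, 0, 100000, ⟨0, 0⟩, 16226390⟩ 0 0))))) (.cut .v 25165824 (.cut .v 20971520 (.cut .d 4285324 (.cut .v 18874368 (.cut .d 2142662 (.cut .d 1071331 (.pos 19 .pp ⟨0, 0, 0, 0, 0, 0, 0, 7593, 0, ⟨1038005, 12149447⟩, 0⟩ 80 98) (.cut .v 17825792 (.pos 21 .pp ⟨0, 0, 0, 0, 0, 0, 0, 299092, 0, ⟨1224200, 11624218⟩, 0⟩ 85 104) (.pos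 22 .pp ⟨0, 0, 0, 0, 0, 0, 0, 344496, 0, ⟨1224200, 11624218⟩, 0⟩ 85 104))) (.pos 19 .pp ⟨0, 0, 0, 0, 0, 0, 0, 0, 252446, ⟨0, 0⟩, 17278579⟩ 0 0)) (.pos 20 .pp ⟨0, 0, 0, 0, 0, 0, 0, 364760, 0, ⟨1315030, 11262968⟩, 0⟩ 80 116)) (.pos 17 .pp ⟨0, 0, 0, 0, 0, 0, 0, 0, 1543083, ⟨0, 0⟩, 17739746⟩ 0 0)) (.cut .d 4285324 (.pos 18 .pp ⟨0, 0, 0, 0, 0, 0, 0, 405289, 0, ⟨1315030, 11262968⟩, 0⟩ 80 116) (.pos 18 .pp ⟨0, 0, 0, 0, 0, 0, 0, 1676113, 1765088, ⟨2234836, 9066371⟩, 19632256⟩ 100 139))) (.pos 16 .pp ⟨0, 0, 0, 0, 0, 0, 0, 14346305, 0, ⟨1685033, 10078958⟩, 0⟩ 80 139)))),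
    by decide +kernel⟩

def covers6 : cell.Covers table row6.1 :=
  ⟨(.cut .d 0 (.cut .v 16777216 (.cut .v 8388608 (.void 2 ⟨0, 0, 0, 0, 50000, 50000, 0, 0, 0, ⟨0, 0⟩, 0⟩ 0 0) (.cut .v 12582912 (.pos 6 .mm ⟨0, 0, 0, 0, 0, 2947272, 0, 0, 0, ⟨0, 0⟩, 0⟩ 0 0) (.cut .d (-8388608) (.void 7 ⟨0, 0, 0, 0, 0, 100000, 0, 0, 0, ⟨0, 0⟩, 0⟩ 0 0) (.cut .v 14680064 (.pos 8 .mm ⟨0, 0, 0, 0, 0, 1203155, 0, 0, 0, ⟨0, 0⟩, 0⟩ 0 0) (.cut .d (-4194304) (.void 9 ⟨0, 0, 0, 0, 0, 100000, 0, 0, 0, ⟨0, 0⟩, 0⟩ 0 0) (.cut .v 15728640 (.pos 12 .mm ⟨0, 0, 0, 0, 0, 368411, 0, 0, 0, ⟨0, 0⟩, 0⟩ 0 0) (.cut .v 16252928 (.pos 29 .mm ⟨0, 0, 0, 0, 0, 160391, 0, 0, 0, ⟨0, 0⟩, 0⟩ 0 0) (.pos 30 .mm ⟨0,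 0, 0, 0, 0, 0, 0, 0, 0, ⟨0, 0⟩, 0⟩ 0 0)))))))) (.cut .v 25165824 (.pos 15 .mp ⟨0, 0, 0, 0, 0, 0, 0, 0, 0, ⟨0, 0⟩, 0⟩ 0 0) (.void 16 ⟨100000, 0, 0, 0, 0, 0, 0, 0, 0, ⟨0, 0⟩, 0⟩ 0 0))) (.cut .v 16777216 (.cut .v 8388608 (.void 2 ⟨0, 0, 0, 0, 100000, 0, 0, 0, 0, ⟨0, 0⟩, 0⟩ 0 0) (.cut .v 12582912 (.pos 6 .pm ⟨0, 0, 0, 0, 0, 0, 0, 0, 269030, ⟨0, 0⟩, 13128881⟩ 0 0) (.cut .v 14680064 (.pos 8 .pm ⟨0, 0, 0, 0, 0, 0, 0, 0, 0, ⟨0, 0⟩, 0⟩ 0 0) (.cut .d 5289966 (.cut .d 2644983 (.cut .v 15728640 (.pos 12 .pm ⟨0, 0, 0, 0, 0, 0, 0, 14049, 0, ⟨1672808, 10419985⟩, 0⟩ 92 121) (.cut .d 1322491 (.cut .v 16252928 (.pos 29 .pm ⟨0, 0, 0, 0, 0, 0, 0, 0, 0, ⟨0, 0⟩, 0⟩ 0 0) (.cut .d 661245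 (.pos 30 .pm ⟨0, 0, 0, 0, 0, 0, 0, 0, 0, ⟨0, 0⟩, 0⟩ 0 0) (.pos 30 .pm ⟨0, 0, 0, 0, 0, 0, 0, 0, 0, ⟨0, 0⟩, 0⟩ 0 0))) (.pos 13 .pm ⟨0, 0, 0, 0, 0, 0, 0, 233222, 0, ⟨1840330, 10065559⟩, 0⟩ 99 121))) (.pos 9 .pm ⟨0, 0, 0, 0, 0, 0, 0, 0, 252500, ⟨0, 0⟩, 16226390⟩ 0 0)) (.void 9 ⟨0, 0, 0, 0, 0, 0, 0, 0, 100000, ⟨0, 0⟩, 16226390⟩ 0 0))))) (.cut .v 25165824 (.cut .v 20971520 (.cut .d 5289966 (.cut .v 18874368 (.cut .d 2644983 (.cut .d 1322491 (.pos 19 .pp ⟨0, 0, 0, 0, 0, 0, 0, 0, 0, ⟨0, 0⟩, 0⟩ 0 0) (.pos 19 .pp ⟨0, 0, 0, 0, 0, 0, 0, 271887, 0, ⟨1840330, 10065559⟩, 0⟩ 99 121)) (.pos 19 .pp ⟨0, 0, 0, 0, 0, 0, 0, 0, 207026, ⟨0, 0⟩, 17278579⟩ 0 0)) (.pos 20 .pp ⟨0, 0, 0,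 0, 0, 0, 0, 342280, 0, ⟨1973534, 9583183⟩, 0⟩ 92 137)) (.pos 17 .pp ⟨0, 0, 0, 0, 0, 0, 0, 0, 2889722, ⟨0, 0⟩, 17739746⟩ 0 0)) (.cut .d 5289966 (.pos 18 .pp ⟨0, 0, 0, 0, 0, 0, 0, 0, 260517, ⟨0, 0⟩, 19632256⟩ 0 0) (.pos 18 .pp ⟨0, 0, 0, 0, 0, 0, 0, 0, 2268618, ⟨0, 0⟩, 19632256⟩ 0 0))) (.pos 16 .pp ⟨0, 0, 0, 0, 0, 0, 0, 16963052, 0, ⟨2590121, 7867464⟩, 0⟩ 92 170)))),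
    by decide +kernel⟩

def covers7 : cell.Covers table row7.1 :=
  ⟨(.cut .d 0 (.cut .v 16777216 (.cut .v 8388608 (.void 2 ⟨0, 0, 50000, 0, 50000, 0, 0, 0, 0, ⟨0, 0⟩, 0⟩ 0 0) (.cut .v 12582912 (.pos 6 .mm ⟨0, 0, 0, 0, 0, 1655370, 0, 0, 0, ⟨0, 0⟩, 0⟩ 0 0) (.cut .v 14680064 (.pos 8 .mm ⟨0, 0, 0, 0, 0, 718476, 0, 0, 0, ⟨0, 0⟩, 0⟩ 0 0) (.cut .v 15728640 (.cut .s 7176192 (.pos 12 .mm ⟨0, 0, 0, 0, 0, 383018, 0, 0, 0, ⟨0, 0⟩, 0⟩ 0 0) (.pos 12 .mm ⟨0, 0, 0, 0, 0, 128176, 0, 0, 0, ⟨0, 0⟩, 0⟩ 0 0)) (.pos 13 .mm ⟨0, 0, 0, 0, 0, 0, 0, 0, 0, ⟨0, 0⟩, 0⟩ 0 0))))) (.cut .v 33554432 (.cut .d (-8388608) (.void 14 ⟨0, 0, 0, 0, 0, 100000, 0, 0, 0, ⟨0, 0⟩, 0⟩ 0 0) (.cut .v 25165824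 (.pos 15 .mp ⟨0, 0, 0, 0, 0, 721457, 0, 0, 0, ⟨0, 0⟩, 0⟩ 0 0) (.void 16 ⟨100000, 0, 0, 0, 0, 0, 0, 0, 0, ⟨0, 0⟩, 0⟩ 0 0))) (.void 37 ⟨100000, 0, 0, 0, 0, 0, 0, 0, 0, ⟨0, 0⟩, 0⟩ 0 0))) (.cut .v 16777216 (.cut .v 8388608 (.void 2 ⟨0, 0, 0, 0, 100000, 0, 0, 0, 0, ⟨0, 0⟩, 0⟩ 0 0) (.cut .v 12582912 (.pos 6 .pm ⟨0, 0, 0, 0, 0, 0, 0, 0, 239874, ⟨0, 0⟩, 13128881⟩ 0 0) (.cut .v 14680064 (.pos 8 .pm ⟨0, 0, 0, 0, 0, 0, 0, 0, 0, ⟨0, 0⟩, 0⟩ 0 0) (.cut .d 6944617 (.cut .d 3472308 (.cut .v 15728640 (.cut .d 1736154 (.pos 12 .pm ⟨0, 0, 0, 0, 0, 0, 0, 0, 0, ⟨0, 0⟩, 0⟩ 0 0) (.pos 12 .pm ⟨0, 0, 0, 0, 0, 0, 0, 251687, 0, ⟨2633765, 8331653⟩, 0⟩ 114 139)) (.cut .d 1736154 (.cut .v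 16252928 (.cut .d 868077 (.pos 29 .pm ⟨0, 0, 0, 0, 0, 0, 0, 0, 0, ⟨0, 0⟩, 0⟩ 0 0) (.pos 29 .pm ⟨0, 0, 0, 0, 0, 0, 0, 0, 0, ⟨0, 0⟩, 0⟩ 0 0)) (.pos 30 .pm ⟨0, 0, 0, 0, 0, 0, 0, 0, 0, ⟨0, 0⟩, 0⟩ 0 0)) (.pos 13 .pm ⟨0, 0, 0, 0, 0, 0, 0, 202286, 0, ⟨2633765, 8331653⟩, 0⟩ 114 139))) (.pos 9 .pm ⟨0, 0, 0, 0, 0, 0, 0, 0, 220502, ⟨0, 0⟩, 16226390⟩ 0 0)) (.void 9 ⟨0, 0, 0, 0, 0, 0, 0, 0, 100000, ⟨0, 0⟩, 16226390⟩ 0 0))))) (.cut .v 33554432 (.cut .v 25165824 (.cut .d 6944617 (.cut .v 20971520 (.cut .d 3472308 (.pos 17 .pp ⟨0, 0, 0, 0, 0, 0, 0, 282267, 0, ⟨2347978, 8857994⟩, 0⟩ 104 139) (.pos 17 .pp ⟨0, 0, 0, 0, 0, 0, 0, 0, 256675, ⟨0, 0⟩, 17739746⟩ 0 0)) (.pos 18 .pp ⟨0,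 0, 0, 0, 0, 0, 0, 0, 879007, ⟨0, 0⟩, 19632256⟩ 0 0)) (.pos 15 .pp ⟨0, 0, 0, 0, 0, 0, 0, 0, 7133780, ⟨0, 0⟩, 18567042⟩ 0 0)) (.pos 16 .pp ⟨0, 0, 0, 0, 0, 0, 0, 0, 2516466, ⟨0, 0⟩, 22080058⟩ 0 0)) (.pos 37 .pp ⟨0, 3931471, 0, 0, 0, 0, 68486475, 0, 0, ⟨0, 0⟩, 0⟩ 0 0)))),
    by decide +kernel⟩

def covers8 : cell.Covers table row8.1 :=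
  ⟨(.cut .d 0 (.cut .v 16777216 (.cut .v 8388608 (.void 2 ⟨0, 0, 50000, 0, 50000, 0, 0, 0, 0, ⟨0, 0⟩, 0⟩ 0 0) (.cut .v 12582912 (.pos 6 .mm ⟨0, 0, 0, 0, 0, 546752, 0, 0, 0, ⟨0, 0⟩, 0⟩ 0 0) (.cut .v 14680064 (.pos 8 .mm ⟨0, 0, 0, 0, 0, 0, 0, 0, 0, ⟨0, 0⟩, 0⟩ 0 0) (.cut .v 15728640 (.pos 12 .mm ⟨0, 0, 0, 0, 0, 0, 0, 0, 0, ⟨0, 0⟩, 0⟩ 0 0) (.cut .d (-8388608) (.void 13 ⟨0, 0, 0, 0, 0, 100000, 0, 0, 0, ⟨0, 0⟩, 0⟩ 0 0) (.pos 13 .mm ⟨0, 0, 0, 0, 0, 300970, 0, 0, 0, ⟨0, 0⟩, 0⟩ 0 0)))))) (.cut .v 33554432 (.cut .v 25165824 (.cut .v 20971520 (.cut .d (-8388608) (.void 17 ⟨0, 0, 0, 0, 0, 100000, 0, 0, 0, ⟨0, 0⟩, 0⟩ 0 0) (.cut .d (-4194304) (.void 17 ⟨0, 0, 0, 0, 0, 100000,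 0, 0, 0, ⟨0, 0⟩, 0⟩ 0 0) (.pos 17 .mp ⟨0, 0, 0, 0, 0, 904460, 0, 0, 0, ⟨0, 0⟩, 0⟩ 0 0))) (.void 18 ⟨100000, 0, 0, 0, 0, 0, 0, 0, 0, ⟨0, 0⟩, 0⟩ 0 0)) (.void 16 ⟨100000, 0, 0, 0, 0, 0, 0, 0, 0, ⟨0, 0⟩, 0⟩ 0 0)) (.void 37 ⟨100000, 0, 0, 0, 0, 0, 0, 0, 0, ⟨0, 0⟩, 0⟩ 0 0))) (.cut .v 16777216 (.cut .v 8388608 (.void 2 ⟨0, 0, 0, 0, 100000, 0, 0, 0, 0, ⟨0, 0⟩, 0⟩ 0 0) (.cut .v 12582912 (.pos 6 .pm ⟨0, 0, 0, 0, 0, 0, 0, 0, 93489, ⟨0, 0⟩, 13128881⟩ 0 0) (.cut .v 14680064 (.pos 8 .pm ⟨0, 0, 0, 0, 0, 0, 0, 0, 161825, ⟨0, 0⟩, 15100357⟩ 0 0) (.cut .d 10285164 (.cut .d 5142582 (.cut .v 15728640 (.cut .d 2571291 (.cut .d 1285645 (.pos 12 .pm ⟨0, 0, 0, 0, 0, 0, 0, 0, 0, ⟨0, 0⟩,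 0⟩ 0 0) (.pos 12 .pm ⟨0, 0, 0, 0, 0, 0, 0, 194143, 0, ⟨2969378, 7695265⟩, 0⟩ 123 142)) (.pos 12 .pm ⟨0, 0, 0, 0, 0, 0, 0, 0, 176872, ⟨0, 0⟩, 15966684⟩ 0 0)) (.cut .d 2571291 (.cut .d 1285645 (.pos 13 .pm ⟨0, 0, 0, 0, 0, 0, 0, 0, 0, ⟨0, 0⟩, 0⟩ 0 0) (.pos 13 .pm ⟨0, 0, 0, 0, 0, 0, 0, 202257, 0, ⟨2969378, 7695265⟩, 0⟩ 123 142)) (.pos 13 .pm ⟨0, 0, 0, 0, 0, 0, 0, 202257, 0, ⟨3741581, 6233838⟩, 0⟩ 132 161))) (.void 9 ⟨0, 0, 0, 0, 0, 0, 0, 0, 100000, ⟨0, 0⟩, 16226390⟩ 0 0)) (.void 9 ⟨0, 0, 0, 0, 0, 0, 0, 0, 100000, ⟨0, 0⟩, 16226390⟩ 0 0))))) (.cut .v 33554432 (.cut .d 10285164 (.cut .v 25165824 (.cut .v 20971520 (.cut .d 5142582 (.pos 17 .pp ⟨0, 0, 0, 0, 0, 0, 0, 271308,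 0, ⟨3179921, 7126912⟩, 0⟩ 115 161) (.pos 17 .pp ⟨0, 0, 0, 0, 0, 0, 0, 0, 1248707, ⟨0, 0⟩, 17739746⟩ 0 0)) (.pos 18 .pp ⟨0, 0, 0, 0, 0, 0, 0, 0, 638401, ⟨0, 0⟩, 19632256⟩ 0 0)) (.pos 16 .pp ⟨0, 0, 0, 0, 0, 0, 0, 0, 556647, ⟨0, 0⟩, 22080058⟩ 0 0)) (.void 14 ⟨0, 74323, 0, 0, 0, 0, 0, 0, 25677, ⟨0, 0⟩, 19951585⟩ 0 0)) (.pos 37 .pp ⟨0, 8295078, 0, 0, 0, 0, 239334, 0, 0, ⟨0, 0⟩, 0⟩ 0 0)))),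
    by decide +kernel⟩

def covers9 : cell.Covers table row9.1 :=
  ⟨(.cut .d 0 (.cut .v 16777216 (.cut .v 8388608 (.void 2 ⟨0, 0, 50000, 0, 50000, 0, 0, 0, 0, ⟨0, 0⟩, 0⟩ 0 0) (.cut .v 12582912 (.pos 6 .mm ⟨0, 0, 0, 0, 0, 0, 0, 0, 0, ⟨0, 0⟩, 0⟩ 0 0) (.cut .d (-8388608) (.void 7 ⟨0, 0, 0, 0, 0, 100000, 0, 0, 0, ⟨0, 0⟩, 0⟩ 0 0) (.cut .d (-4194304) (.void 7 ⟨0, 0, 0, 0, 0, 100000, 0, 0, 0, ⟨0, 0⟩, 0⟩ 0 0) (.cut .v 14680064 (.pos 8 .mm ⟨0, 0, 0, 0, 0, 0, 0, 0, 0, ⟨0, 0⟩, 0⟩ 0 0) (.cut .d (-2097152) (.void 9 ⟨0, 0, 0, 0, 0, 100000, 0, 0, 0, ⟨0, 0⟩, 0⟩ 0 0) (.cut .v 15728640 (.pos 12 .mm ⟨0, 0, 0, 0, 0, 159834, 0, 0, 0, ⟨0, 0⟩, 0⟩ 0 0) (.cut .d (-1048576) (.pos 13 .mm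 ⟨0, 0, 0, 0, 0, 1086319, 0, 0, 0, ⟨0, 0⟩, 0⟩ 0 0) (.pos 13 .mm ⟨0, 0, 0, 0, 0, 462305, 0, 0, 0, ⟨0, 0⟩, 0⟩ 0 0))))))))) (.cut .v 33554432 (.cut .v 25165824 (.cut .v 20971520 (.cut .d (-8388608) (.void 17 ⟨0, 0, 0, 0, 0, 100000, 0, 0, 0, ⟨0, 0⟩, 0⟩ 0 0) (.cut .d (-4194304) (.void 17 ⟨0, 0, 0, 0, 0, 100000, 0, 0, 0, ⟨0, 0⟩, 0⟩ 0 0) (.cut .d (-2097152) (.void 17 ⟨0, 0, 0, 0, 0, 100000, 0, 0, 0, ⟨0, 0⟩, 0⟩ 0 0) (.cut .d (-1048576) (.pos 17 .mp ⟨0, 0, 0, 0, 0, 2879883, 0, 0, 0, ⟨0, 0⟩, 0⟩ 0 0) (.pos 17 .mp ⟨201709, 0, 0, 0, 0, 602411, 0, 0, 0, ⟨0, 0⟩, 0⟩ 0 0))))) (.void 18 ⟨100000, 0, 0, 0, 0, 0, 0, 0, 0, ⟨0, 0⟩, 0⟩ 0 0)) (.void 16 ⟨100000, 0, 0, 0, 0, 0, 0, 0, 0,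 ⟨0, 0⟩, 0⟩ 0 0)) (.void 37 ⟨100000, 0, 0, 0, 0, 0, 0, 0, 0, ⟨0, 0⟩, 0⟩ 0 0))) (.cut .v 16777216 (.cut .v 8388608 (.void 2 ⟨0, 0, 0, 0, 100000, 0, 0, 0, 0, ⟨0, 0⟩, 0⟩ 0 0) (.cut .v 12582912 (.pos 6 .pm ⟨0, 0, 0, 0, 0, 0, 0, 0, 552100, ⟨0, 0⟩, 13128881⟩ 0 0) (.cut .d 9070610 (.cut .d 4535305 (.cut .v 14680064 (.pos 8 .pm ⟨0, 0, 0, 0, 0, 0, 0, 54040, 201726, ⟨3590737, 6402030⟩, 15100357⟩ 123 167) (.cut .v 15728640 (.cut .d 2267652 (.cut .l 2125114 (.cut .l 1370139 (.cut .v 15204352 (.cut .d 1133826 (.pos 34 .pm ⟨0, 0, 0, 0, 0, 0, 0, 0, 0, ⟨0, 0⟩, 0⟩ 0 0) (.pos 34 .pm ⟨0, 0, 0, 0, 0, 0, 0, 188988, 0, ⟨3392757, 6903552⟩, 0⟩ 131 149)) (.cut .d 1133826 (.pos 35 .pm ⟨0,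 0, 0, 0, 0, 0, 0, 0, 0, ⟨0, 0⟩, 0⟩ 0 0) (.pos 35 .pm ⟨0, 0, 0, 0, 0, 0, 0, 126182, 0, ⟨3392757, 6903552⟩, 0⟩ 131 149))) (.pos 12 .pm ⟨0, 0, 0, 0, 0, 0, 0, 0, 0, ⟨0, 0⟩, 0⟩ 0 0)) (.pos 12 .pm ⟨0, 0, 0, 0, 0, 0, 0, 0, 0, ⟨0, 0⟩, 0⟩ 0 0)) (.pos 12 .pm ⟨0, 0, 0, 0, 0, 0, 0, 281029, 0, ⟨4132014, 5572288⟩, 0⟩ 139 167)) (.pos 13 .pm ⟨0, 0, 0, 0, 0, 0, 0, 178801, 0, ⟨3590737, 6402030⟩, 0⟩ 123 167))) (.pos 7 .pm ⟨0, 0, 0, 0, 0, 0, 0, 0, 2370456, ⟨0, 0⟩, 15612959⟩ 0 0)) (.void 7 ⟨0, 0, 0, 0, 0, 0, 0, 0, 100000, ⟨0, 0⟩, 15612959⟩ 0 0)))) (.cut .v 33554432 (.cut .v 25165824 (.cut .d 9070610 (.cut .d 4535305 (.pos 15 .pp ⟨0, 0, 0, 0, 0, 0, 0, 0, 0, ⟨0, 0⟩, 0⟩ 0 0) (.pos 15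 .pp ⟨0, 0, 0, 0, 0, 0, 0, 0, 893565, ⟨0, 0⟩, 18567042⟩ 0 0)) (.pos 15 .pp ⟨0, 0, 0, 0, 0, 0, 0, 0, 14376970, ⟨0, 0⟩, 18567042⟩ 0 0)) (.pos 16 .pp ⟨0, 3225132, 0, 0, 0, 0, 153651, 0, 0, ⟨0, 0⟩, 0⟩ 0 0)) (.pos 37 .pp ⟨3532525, 0, 0, 0, 0, 0, 0, 0, 0, ⟨0, 0⟩, 0⟩ 0 0)))),
    by decide +kernel⟩

def covers10 : cell.Covers table row10.1 :=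
  ⟨(.cut .d 0 (.cut .v 16777216 (.cut .v 8388608 (.void 2 ⟨0, 0, 50000, 0, 50000, 0, 0, 0, 0, ⟨0, 0⟩, 0⟩ 0 0) (.cut .d (-8388608) (.void 3 ⟨0, 0, 0, 0, 0, 100000, 0, 0, 0, ⟨0, 0⟩, 0⟩ 0 0) (.cut .v 12582912 (.pos 6 .mm ⟨0, 0, 0, 0, 0, 0, 0, 0, 0, ⟨0, 0⟩, 0⟩ 0 0) (.cut .d (-4194304) (.void 7 ⟨0, 0, 0, 0, 0, 100000, 0, 0, 0, ⟨0, 0⟩, 0⟩ 0 0) (.cut .d (-2097152) (.void 7 ⟨0, 0, 0, 0, 0, 100000, 0, 0, 0, ⟨0, 0⟩, 0⟩ 0 0) (.cut .v 14680064 (.pos 8 .mm ⟨0, 0, 0, 0, 0, 0, 0, 0, 0, ⟨0, 0⟩, 0⟩ 0 0) (.cut .d (-1048576) (.pos 9 .mm ⟨0, 0, 0, 0, 0, 2411794, 0, 0, 0, ⟨0, 0⟩, 0⟩ 0 0) (.cut .l 2125114 (.cut .v 15728640 (.cut .s 8814592 (.pos 12 .mm ⟨0, 0, 0, 0, 0, 441812, 0, 0,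 0, ⟨0, 0⟩, 0⟩ 0 0) (.pos 12 .mm ⟨0, 0, 0, 0, 0, 823919, 0, 0, 0, ⟨0, 0⟩, 0⟩ 0 0)) (.cut .d (-524288) (.pos 13 .mm ⟨0, 0, 0, 0, 0, 2030761, 0, 0, 0, ⟨0, 0⟩, 0⟩ 0 0) (.cut .d (-262144) (.pos 13 .mm ⟨0, 0, 0, 0, 0, 1378988, 0, 0, 0, ⟨0, 0⟩, 0⟩ 0 0) (.pos 13 .mm ⟨0, 0, 0, 0, 0, 794334, 0, 0, 0, ⟨0, 0⟩, 0⟩ 0 0)))) (.pos 9 .mm ⟨0, 0, 0, 0, 0, 467507, 0, 0, 0, ⟨0, 0⟩, 0⟩ 0 0))))))))) (.cut .v 33554432 (.cut .v 25165824 (.cut .v 20971520 (.cut .d (-8388608) (.void 17 ⟨0, 0, 0, 0, 0, 100000, 0, 0, 0, ⟨0, 0⟩, 0⟩ 0 0) (.cut .d (-4194304) (.void 17 ⟨0, 0, 0, 0, 0, 100000, 0, 0, 0, ⟨0, 0⟩, 0⟩ 0 0) (.cut .d (-2097152) (.void 17 ⟨0, 0, 0, 0, 0, 100000, 0, 0, 0, ⟨0, 0⟩, 0⟩ 0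 0) (.cut .v 18874368 (.cut .d (-1048576) (.cut .s 8814592 (.pos 19 .mp ⟨0, 0, 0, 0, 0, 3572844, 0, 0, 0, ⟨0, 0⟩, 0⟩ 0 0) (.pos 19 .mp ⟨0, 0, 0, 0, 0, 5916841, 0, 0, 0, ⟨0, 0⟩, 0⟩ 0 0)) (.cut .s 8814592 (.pos 19 .mp ⟨0, 0, 0, 0, 0, 1522536, 0, 0, 0, ⟨0, 0⟩, 0⟩ 0 0) (.cut .s 8929280 (.pos 19 .mp ⟨0, 0, 0, 0, 0, 2185290, 0, 0, 0, ⟨0, 0⟩, 0⟩ 0 0) (.pos 19 .mp ⟨0, 0, 0, 0, 0, 2698894, 0, 0, 0, ⟨0, 0⟩, 0⟩ 0 0)))) (.pos 20 .mp ⟨5838144, 0, 0, 0, 0, 0, 0, 0, 0, ⟨0, 0⟩, 0⟩ 0 0))))) (.void 18 ⟨100000, 0, 0, 0, 0, 0, 0, 0, 0, ⟨0, 0⟩, 0⟩ 0 0)) (.void 16 ⟨100000, 0, 0, 0, 0, 0, 0, 0, 0, ⟨0, 0⟩, 0⟩ 0 0)) (.void 37 ⟨100000, 0, 0, 0, 0, 0, 0, 0, 0, ⟨0, 0⟩, 0⟩ 0 0))) (.cut .v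 16777216 (.cut .v 8388608 (.void 2 ⟨0, 0, 0, 0, 100000, 0, 0, 0, 0, ⟨0, 0⟩, 0⟩ 0 0) (.cut .v 12582912 (.pos 6 .pm ⟨0, 0, 0, 0, 0, 0, 0, 0, 820319, ⟨0, 0⟩, 13128881⟩ 0 0) (.cut .d 8004398 (.cut .v 14680064 (.cut .d 4002199 (.pos 8 .pm ⟨0, 0, 0, 0, 0, 0, 0, 419712, 0, ⟨3963818, 5787584⟩, 0⟩ 131 171) (.pos 8 .pm ⟨0, 0, 0, 0, 0, 0, 0, 0, 1053491, ⟨0, 0⟩, 15100357⟩ 0 0)) (.cut .d 4002199 (.cut .v 15728640 (.cut .d 2001099 (.pos 12 .pm ⟨0, 0, 0, 0, 0, 0, 0, 0, 0, ⟨0, 0⟩, 0⟩ 0 0) (.pos 12 .pm ⟨0, 0, 0, 0, 0, 0, 0, 429705, 0, ⟨4473944, 5023887⟩, 0⟩ 146 171)) (.pos 13 .pm ⟨0, 0, 0, 0, 0, 0, 0, 0, 0, ⟨0, 0⟩, 0⟩ 0 0)) (.pos 9 .pm ⟨0, 0, 0, 0, 0, 0, 0, 0, 346449, ⟨0, 0⟩,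 16226390⟩ 0 0))) (.void 7 ⟨0, 0, 0, 0, 0, 0, 0, 0, 100000, ⟨0, 0⟩, 15612959⟩ 0 0)))) (.cut .v 33554432 (.cut .v 25165824 (.cut .d 8004398 (.pos 15 .pp ⟨277048, 0, 0, 0, 0, 0, 0, 0, 0, ⟨0, 0⟩, 0⟩ 0 0) (.pos 15 .pp ⟨0, 0, 0, 0, 0, 0, 0, 0, 11941971, ⟨0, 0⟩, 18567042⟩ 0 0)) (.pos 16 .pp ⟨1906660, 0, 0, 0, 0, 0, 258254, 0, 0, ⟨0, 0⟩, 0⟩ 0 0)) (.pos 37 .pp ⟨14568790, 0, 0, 0, 0, 0, 0, 0, 0, ⟨0, 0⟩, 0⟩ 0 0)))),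
    by decide +kernel⟩

def covers11 : cell.Covers table row11.1 :=
  ⟨(.cut .d 0 (.cut .v 16777216 (.cut .v 8388608 (.pos 2 .mm ⟨0, 0, 62447674, 0, 5902704, 0, 0, 0, 0, ⟨0, 0⟩, 0⟩ 0 0) (.cut .v 12582912 (.pos 6 .mm ⟨0, 0, 0, 0, 0, 0, 0, 0, 0, ⟨0, 0⟩, 0⟩ 0 0) (.cut .d (-8388608) (.void 7 ⟨0, 0, 0, 0, 0, 100000, 0, 0, 0, ⟨0, 0⟩, 0⟩ 0 0) (.cut .d (-4194304) (.void 7 ⟨0, 0, 0, 0, 0, 100000, 0, 0, 0, ⟨0, 0⟩, 0⟩ 0 0) (.cut .d (-2097152) (.void 7 ⟨0, 0, 0, 0, 0, 100000, 0, 0, 0, ⟨0, 0⟩, 0⟩ 0 0) (.cut .d (-1048576) (.pos 7 .mm ⟨0, 0, 0, 0, 0, 5426927, 0, 0, 0, ⟨0, 0⟩, 0⟩ 0 0) (.cut .v 14680064 (.pos 8 .mm ⟨0, 0, 0, 0, 0, 198940, 0, 0, 0, ⟨0, 0⟩, 0⟩ 0 0) (.cut .l 2125114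 (.cut .d (-524288) (.pos 9 .mm ⟨0, 0, 0, 0, 0, 4860338, 0, 0, 0, ⟨0, 0⟩, 0⟩ 0 0) (.cut .v 15728640 (.pos 12 .mm ⟨0, 0, 0, 0, 0, 1585339, 0, 0, 0, ⟨0, 0⟩, 0⟩ 0 0) (.cut .l 1370139 (.cut .d (-262144) (.cut .s 9306112 (.pos 13 .mm ⟨0, 0, 0, 0, 0, 3166626, 0, 0, 0, ⟨0, 0⟩, 0⟩ 0 0) (.pos 13 .mm ⟨0, 0, 0, 0, 0, 5653086, 0, 0, 0, ⟨0, 0⟩, 0⟩ 0 0)) (.cut .s 9306112 (.pos 13 .mm ⟨0, 0, 0, 0, 0, 1573433, 0, 0, 0, ⟨0, 0⟩, 0⟩ 0 0) (.cut .d (-131072) (.pos 13 .mm ⟨0, 0, 0, 0, 0, 3671163, 0, 0, 0, ⟨0, 0⟩, 0⟩ 0 0) (.pos 13 .mm ⟨0, 0, 0, 0, 0, 0, 0, 0, 0, ⟨0, 0⟩, 0⟩ 0 0)))) (.pos 13 .mm ⟨0, 0, 0, 0, 0, 1687372, 0, 0, 0, ⟨0, 0⟩, 0⟩ 0 0)))) (.pos 9 .mm ⟨0, 0, 0, 0, 0, 2053369, 0,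 0, 0, ⟨0, 0⟩, 0⟩ 0 0))))))))) (.cut .v 33554432 (.cut .v 25165824 (.cut .v 20971520 (.cut .d (-8388608) (.void 17 ⟨0, 0, 0, 0, 0, 100000, 0, 0, 0, ⟨0, 0⟩, 0⟩ 0 0) (.cut .d (-4194304) (.void 17 ⟨0, 0, 0, 0, 0, 100000, 0, 0, 0, ⟨0, 0⟩, 0⟩ 0 0) (.cut .d (-2097152) (.void 17 ⟨0, 0, 0, 0, 0, 100000, 0, 0, 0, ⟨0, 0⟩, 0⟩ 0 0) (.cut .d (-1048576) (.cut .v 18874368 (.cut .s 9306112 (.cut .v 17825792 (.pos 21 .mp ⟨0, 0, 0, 0, 0, 5724908, 0, 0, 0, ⟨0, 0⟩, 0⟩ 0 0) (.pos 22 .mp ⟨0, 0, 0, 0, 0, 8607785, 0, 0, 0, ⟨0, 0⟩, 0⟩ 0 0)) (.pos 19 .mp ⟨1174968, 0, 0, 0, 0, 9989375, 0, 0, 0, ⟨0, 0⟩, 0⟩ 0 0)) (.void 20 ⟨100000, 0, 0, 0, 0, 0, 0, 0, 0, ⟨0, 0⟩, 0⟩ 0 0)) (.cut .v 18874368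 (.cut .s 9306112 (.cut .d (-524288) (.cut .s 9175040 (.pos 19 .mp ⟨0, 0, 0, 0, 0, 3784165, 0, 0, 0, ⟨0, 0⟩, 0⟩ 0 0) (.pos 19 .mp ⟨0, 0, 0, 0, 0, 5205320, 0, 0, 0, ⟨0, 0⟩, 0⟩ 0 0)) (.pos 19 .mp ⟨0, 0, 0, 0, 0, 3311395, 0, 0, 0, ⟨0, 0⟩, 0⟩ 0 0)) (.cut .v 17825792 (.cut .d (-524288) (.cut .s 9437184 (.pos 21 .mp ⟨0, 0, 0, 0, 0, 5955395, 0, 0, 0, ⟨0, 0⟩, 0⟩ 0 0) (.pos 21 .mp ⟨0, 0, 0, 0, 0, 7245503, 0, 0, 0, ⟨0, 0⟩, 0⟩ 0 0)) (.cut .d (-262144) (.cut .s 9437184 (.pos 21 .mp ⟨0, 0, 0, 0, 0, 5228553, 0, 0, 0, ⟨0, 0⟩, 0⟩ 0 0) (.pos 21 .mp ⟨0, 0, 0, 0, 0, 6461150, 0, 0, 0, ⟨0, 0⟩, 0⟩ 0 0)) (.pos 21 .mp ⟨0, 0, 0, 0, 0, 4454876, 0, 0, 0, ⟨0, 0⟩, 0⟩ 0 0))) (.pos 22 .mp ⟨3731003,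 0, 0, 0, 0, 1488640, 0, 0, 0, ⟨0, 0⟩, 0⟩ 0 0))) (.pos 20 .mp ⟨6766318, 0, 0, 0, 0, 0, 0, 0, 0, ⟨0, 0⟩, 0⟩ 0 0)))))) (.void 18 ⟨100000, 0, 0, 0, 0, 0, 0, 0, 0, ⟨0, 0⟩, 0⟩ 0 0)) (.void 16 ⟨100000, 0, 0, 0, 0, 0, 0, 0, 0, ⟨0, 0⟩, 0⟩ 0 0)) (.void 37 ⟨100000, 0, 0, 0, 0, 0, 0, 0, 0, ⟨0, 0⟩, 0⟩ 0 0))) (.cut .v 16777216 (.cut .v 8388608 (.pos 2 .pm ⟨0, 0, 29133904, 0, 30315361, 0, 0, 0, 0, ⟨0, 0⟩, 0⟩ 0 0) (.cut .v 12582912 (.pos 6 .pm ⟨0, 0, 0, 0, 0, 0, 0, 0, 936359, ⟨0, 0⟩, 13128881⟩ 0 0) (.cut .d 7172869 (.cut .v 14680064 (.cut .d 3586434 (.pos 8 .pm ⟨0, 0, 0, 0, 0, 0, 0, 861225, 0, ⟨4383917, 5094220⟩, 0⟩ 138 178) (.pos 8 .pm ⟨0, 0, 0, 0, 0, 0, 0, 0, 819703, ⟨0, 0⟩,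 15100357⟩ 0 0)) (.pos 9 .pm ⟨0, 0, 0, 0, 0, 0, 0, 0, 0, ⟨0, 0⟩, 0⟩ 0 0)) (.void 7 ⟨0, 0, 0, 0, 0, 0, 0, 0, 100000, ⟨0, 0⟩, 15612959⟩ 0 0)))) (.cut .v 33554432 (.cut .v 25165824 (.cut .v 20971520 (.pos 17 .pp ⟨0, 0, 0, 0, 0, 0, 0, 0, 0, ⟨0, 0⟩, 0⟩ 0 0) (.pos 18 .pp ⟨1737149, 0, 0, 0, 0, 0, 0, 0, 0, ⟨0, 0⟩, 0⟩ 0 0)) (.pos 16 .pp ⟨6539913, 0, 0, 0, 0, 0, 0, 0, 0, ⟨0, 0⟩, 0⟩ 0 0)) (.pos 37 .pp ⟨38875436, 19380705, 0, 0, 0, 0, 0, 0, 0, ⟨0, 0⟩, 0⟩ 0 0)))),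
    by decide +kernel⟩

def covers12 : cell.Covers table row12.1 :=
  ⟨(.cut .d 0 (.cut .v 16777216 (.cut .v 8388608 (.void 2 ⟨0, 0, 100000, 0, 0, 0, 0, 0, 0, ⟨0, 0⟩, 0⟩ 0 0) (.cut .d (-8388608) (.void 3 ⟨0, 0, 0, 0, 0, 100000, 0, 0, 0, ⟨0, 0⟩, 0⟩ 0 0) (.cut .v 12582912 (.pos 6 .mm ⟨0, 0, 0, 0, 0, 0, 0, 0, 0, ⟨0, 0⟩, 0⟩ 0 0) (.cut .d (-4194304) (.void 7 ⟨0, 0, 0, 0, 0, 100000, 0, 0, 0, ⟨0, 0⟩, 0⟩ 0 0) (.cut .d (-2097152) (.void 7 ⟨0, 0, 0, 0, 0, 100000, 0, 0, 0, ⟨0, 0⟩, 0⟩ 0 0) (.cut .d (-1048576) (.void 7 ⟨0, 0, 0, 0, 0, 100000, 0, 0, 0, ⟨0, 0⟩, 0⟩ 0 0) (.cut .d (-524288) (.pos 7 .mm ⟨0, 0, 0, 0, 0, 8998990, 0, 0, 0, ⟨0, 0⟩, 0⟩ 0 0) (.cut .v 14680064 (.pos 8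 .mm ⟨0, 0, 0, 0, 0, 794726, 0, 0, 0, ⟨0, 0⟩, 0⟩ 0 0) (.cut .v 15728640 (.pos 12 .mm ⟨0, 0, 0, 0, 0, 3138336, 0, 0, 0, ⟨0, 0⟩, 0⟩ 0 0) (.cut .d (-262144) (.pos 13 .mm ⟨0, 0, 0, 0, 0, 7952229, 0, 0, 0, ⟨0, 0⟩, 0⟩ 0 0) (.cut .d (-131072) (.pos 13 .mm ⟨0, 0, 0, 0, 0, 6514059, 0, 0, 0, ⟨0, 0⟩, 0⟩ 0 0) (.pos 13 .mm ⟨0, 0, 0, 0, 0, 0, 0, 0, 0, ⟨0, 0⟩, 0⟩ 0 0)))))))))))) (.cut .v 33554432 (.cut .v 25165824 (.cut .v 20971520 (.cut .d (-8388608) (.void 17 ⟨0, 0, 0, 0, 0, 100000, 0, 0, 0, ⟨0, 0⟩, 0⟩ 0 0) (.cut .d (-4194304) (.void 17 ⟨0, 0, 0, 0, 0, 100000, 0, 0, 0, ⟨0, 0⟩, 0⟩ 0 0) (.cut .d (-2097152) (.void 17 ⟨0, 0, 0, 0, 0, 100000, 0, 0, 0, ⟨0, 0⟩, 0⟩ 0 0) (.cut .d (-1048576)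 (.void 17 ⟨0, 0, 0, 0, 0, 100000, 0, 0, 0, ⟨0, 0⟩, 0⟩ 0 0) (.cut .v 18874368 (.cut .d (-524288) (.cut .v 17825792 (.cut .s 9830400 (.pos 21 .mp ⟨0, 0, 0, 0, 0, 9502384, 0, 0, 0, ⟨0, 0⟩, 0⟩ 0 0) (.cut .s 9961472 (.pos 21 .mp ⟨1149967, 0, 0, 0, 0, 9824170, 0, 0, 0, ⟨0, 0⟩, 0⟩ 0 0) (.pos 21 .mp ⟨1908096, 0, 0, 0, 0, 10374234, 0, 0, 0, ⟨0, 0⟩, 0⟩ 0 0))) (.cut .s 9830400 (.pos 22 .mp ⟨5903426, 0, 0, 0, 0, 1050844, 0, 0, 0, ⟨0, 0⟩, 0⟩ 0 0) (.cut .s 9961472 (.pos 22 .mp ⟨6506431, 0, 0, 0, 0, 2602938, 0, 0, 0, ⟨0, 0⟩, 0⟩ 0 0) (.pos 22 .mp ⟨8044580, 0, 0, 0, 0, 2237586, 0, 0, 0, ⟨0, 0⟩, 0⟩ 0 0)))) (.cut .l 2125114 (.cut .v 17825792 (.cut .s 9830400 (.cut .v 17301504 (.cut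 .d (-262144) (.pos 23 .mp ⟨0, 0, 0, 0, 0, 8309758, 0, 0, 0, ⟨0, 0⟩, 0⟩ 0 0) (.cut .d (-131072) (.pos 23 .mp ⟨0, 0, 0, 0, 0, 7248251, 0, 0, 0, ⟨0, 0⟩, 0⟩ 0 0) (.pos 23 .mp ⟨77978, 0, 0, 0, 0, 0, 0, 0, 0, ⟨0, 0⟩, 0⟩ 0 0))) (.pos 24 .mp ⟨5414348, 0, 0, 0, 0, 0, 0, 0, 0, ⟨0, 0⟩, 0⟩ 0 0)) (.cut .v 17301504 (.cut .d (-262144) (.pos 23 .mp ⟨750879, 0, 0, 0, 0, 10239139, 0, 0, 0, ⟨0, 0⟩, 0⟩ 0 0) (.cut .d (-131072) (.pos 23 .mp ⟨1150863, 0, 0, 0, 0, 8253931, 0, 0, 0, ⟨0, 0⟩, 0⟩ 0 0) (.pos 23 .mp ⟨1209162, 0, 0, 0, 0, 0, 0, 0, 0, ⟨0, 0⟩, 0⟩ 0 0))) (.pos 24 .mp ⟨7164751, 0, 0, 0, 0, 0, 0, 0, 0, ⟨0, 0⟩, 0⟩ 0 0))) (.pos 22 .mp ⟨7486889, 0, 0, 0, 0, 0, 0, 0, 0, ⟨0, 0⟩, 0⟩ 0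 0)) (.pos 19 .mp ⟨2812846, 0, 0, 0, 0, 0, 0, 0, 0, ⟨0, 0⟩, 0⟩ 0 0))) (.pos 20 .mp ⟨11035478, 0, 0, 0, 0, 0, 0, 0, 0, ⟨0, 0⟩, 0⟩ 0 0)))))) (.void 18 ⟨100000, 0, 0, 0, 0, 0, 0, 0, 0, ⟨0, 0⟩, 0⟩ 0 0)) (.void 16 ⟨100000, 0, 0, 0, 0, 0, 0, 0, 0, ⟨0, 0⟩, 0⟩ 0 0)) (.void 37 ⟨100000, 0, 0, 0, 0, 0, 0, 0, 0, ⟨0, 0⟩, 0⟩ 0 0))) (.cut .v 16777216 (.cut .v 8388608 (.cut .v 4194304 (.void 4 ⟨0, 0, 0, 0, 100000, 0, 0, 0, 0, ⟨0, 0⟩, 0⟩ 0 0) (.pos 5 .pm ⟨0, 0, 1369576, 0, 0, 0, 0, 0, 2842406, ⟨0, 0⟩, 9975792⟩ 0 0)) (.cut .v 12582912 (.pos 6 .pm ⟨0, 0, 0, 0, 0, 0, 0, 0, 1010926, ⟨0, 0⟩, 13128881⟩ 0 0) (.cut .v 14680064 (.cut .d 6320185 (.pos 8 .pm ⟨0, 0, 0, 0, 0, 0, 0, 1224517,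 0, ⟨5472938, 3272226⟩, 0⟩ 146 233) (.void 8 ⟨0, 0, 0, 0, 0, 0, 0, 0, 100000, ⟨0, 0⟩, 15100357⟩ 0 0)) (.pos 9 .pm ⟨0, 0, 0, 0, 0, 0, 0, 0, 0, ⟨0, 0⟩, 0⟩ 0 0)))) (.cut .v 33554432 (.cut .v 25165824 (.cut .v 20971520 (.pos 17 .pp ⟨511104, 0, 0, 0, 0, 0, 0, 0, 0, ⟨0, 0⟩, 0⟩ 0 0) (.pos 18 .pp ⟨4895830, 0, 0, 0, 0, 0, 0, 0, 0, ⟨0, 0⟩, 0⟩ 0 0)) (.pos 16 .pp ⟨12904597, 0, 0, 0, 0, 0, 0, 0, 0, ⟨0, 0⟩, 0⟩ 0 0)) (.pos 37 .pp ⟨72842333, 48751914, 0, 0, 0, 0, 0, 0, 0, ⟨0, 0⟩, 0⟩ 0 0)))),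
    by decide +kernel⟩

def covers13 : cell.Covers table row13.1 :=
  ⟨(.cut .d 0 (.cut .v 16777216 (.cut .v 8388608 (.void 2 ⟨0, 0, 100000, 0, 0, 0, 0, 0, 0, ⟨0, 0⟩, 0⟩ 0 0) (.cut .d (-8388608) (.void 3 ⟨0, 0, 0, 0, 0, 100000, 0, 0, 0, ⟨0, 0⟩, 0⟩ 0 0) (.cut .v 12582912 (.pos 6 .mm ⟨0, 0, 0, 0, 0, 1626212, 0, 0, 0, ⟨0, 0⟩, 0⟩ 0 0) (.cut .d (-4194304) (.void 7 ⟨0, 0, 0, 0, 0, 100000, 0, 0, 0, ⟨0, 0⟩, 0⟩ 0 0) (.cut .d (-2097152) (.void 7 ⟨0, 0, 0, 0, 0, 100000, 0, 0, 0, ⟨0, 0⟩, 0⟩ 0 0) (.cut .d (-1048576) (.void 7 ⟨0, 0, 0, 0, 0, 100000, 0, 0, 0, ⟨0, 0⟩, 0⟩ 0 0) (.cut .d (-524288) (.pos 7 .mm ⟨0, 0, 0, 0, 0, 15721092, 0, 0, 0, ⟨0, 0⟩, 0⟩ 0 0) (.cut .s 10289152 (.pos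 7 .mm ⟨0, 0, 0, 0, 0, 9886999, 0, 0, 0, ⟨0, 0⟩, 0⟩ 0 0) (.pos 7 .mm ⟨0, 0, 0, 0, 0, 12285638, 0, 0, 0, ⟨0, 0⟩, 0⟩ 0 0))))))))) (.cut .v 67108864 (.cut .v 33554432 (.cut .v 25165824 (.cut .v 20971520 (.cut .d (-8388608) (.void 17 ⟨0, 0, 0, 0, 0, 100000, 0, 0, 0, ⟨0, 0⟩, 0⟩ 0 0) (.cut .d (-4194304) (.void 17 ⟨0, 0, 0, 0, 0, 100000, 0, 0, 0, ⟨0, 0⟩, 0⟩ 0 0) (.cut .d (-2097152) (.void 17 ⟨0, 0, 0, 0, 0, 100000, 0, 0, 0, ⟨0, 0⟩, 0⟩ 0 0) (.cut .d (-1048576) (.void 17 ⟨0, 0, 0, 0, 0, 100000, 0, 0, 0, ⟨0, 0⟩, 0⟩ 0 0) (.cut .v 18874368 (.cut .d (-524288) (.cut .l 2125114 (.void 19 ⟨0, 0, 0, 0, 0, 100000, 0, 0, 0, ⟨0, 0⟩, 0⟩ 0 0) (.cut .v 17825792 (.cut .s 10289152 (.pos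 21 .mp ⟨0, 0, 0, 0, 0, 15145423, 0, 0, 0, ⟨0, 0⟩, 0⟩ 0 0) (.pos 21 .mp ⟨104784, 0, 0, 0, 0, 18368520, 0, 0, 0, ⟨0, 0⟩, 0⟩ 0 0)) (.cut .v 18350080 (.cut .l 2880089 (.pos 44 .mp ⟨14090860, 0, 0, 0, 0, 0, 0, 0, 0, ⟨0, 0⟩, 0⟩ 0 0) (.cut .d (-786432) (.cut .s 10289152 (.pos 44 .mp ⟨5298380, 0, 0, 0, 0, 11340313, 0, 0, 0, ⟨0, 0⟩, 0⟩ 0 0) (.pos 44 .mp ⟨7674888, 0, 0, 0, 0, 12230448, 0, 0, 0, ⟨0, 0⟩, 0⟩ 0 0)) (.pos 44 .mp ⟨10431036, 0, 0, 0, 0, 426054, 0, 0, 0, ⟨0, 0⟩, 0⟩ 0 0))) (.pos 45 .mp ⟨15408791, 0, 0, 0, 0, 0, 0, 0, 0, ⟨0, 0⟩, 0⟩ 0 0)))) (.cut .v 17825792 (.cut .l 2125114 (.cut .d (-262144) (.cut .s 10289152 (.pos 21 .mp ⟨1966515, 0, 0, 0, 0, 12371448, 0, 0, 0,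 ⟨0, 0⟩, 0⟩ 0 0) (.cut .v 17301504 (.pos 23 .mp ⟨2639532, 0, 0, 0, 0, 13845087, 0, 0, 0, ⟨0, 0⟩, 0⟩ 0 0) (.pos 24 .mp ⟨8488452, 0, 0, 0, 0, 4071983, 0, 0, 0, ⟨0, 0⟩, 0⟩ 0 0))) (.cut .v 17301504 (.cut .l 1370139 (.cut .l 992651 (.cut .d (-131072) (.cut .s 10289152 (.pos 23 .mp ⟨1916754, 0, 0, 0, 0, 10067127, 0, 0, 0, ⟨0, 0⟩, 0⟩ 0 0) (.pos 23 .mp ⟨3062780, 0, 0, 0, 0, 11315014, 0, 0, 0, ⟨0, 0⟩, 0⟩ 0 0)) (.cut .s 10289152 (.pos 23 .mp ⟨2235306, 0, 0, 0, 0, 0, 0, 0, 0, ⟨0, 0⟩, 0⟩ 0 0) (.pos 23 .mp ⟨3283813, 0, 0, 0, 0, 6307182, 0, 0, 0, ⟨0, 0⟩, 0⟩ 0 0))) (.pos 23 .mp ⟨4172379, 0, 0, 0, 0, 3394349, 0, 0, 0, ⟨0, 0⟩, 0⟩ 0 0)) (.pos 23 .mp ⟨0, 0, 0, 0, 0, 0, 0, 0, 0, ⟨0,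 0⟩, 0⟩ 0 0)) (.pos 24 .mp ⟨9018470, 0, 0, 0, 0, 0, 0, 0, 0, ⟨0, 0⟩, 0⟩ 0 0))) (.pos 21 .mp ⟨5475717, 0, 0, 0, 0, 2012910, 0, 0, 0, ⟨0, 0⟩, 0⟩ 0 0)) (.pos 22 .mp ⟨10390242, 0, 0, 0, 0, 0, 0, 0, 0, ⟨0, 0⟩, 0⟩ 0 0))) (.pos 20 .mp ⟨17005208, 0, 0, 0, 0, 0, 0, 0, 0, ⟨0, 0⟩, 0⟩ 0 0)))))) (.void 18 ⟨100000, 0, 0, 0, 0, 0, 0, 0, 0, ⟨0, 0⟩, 0⟩ 0 0)) (.void 16 ⟨100000, 0, 0, 0, 0, 0, 0, 0, 0, ⟨0, 0⟩, 0⟩ 0 0)) (.void 37 ⟨100000, 0, 0, 0, 0, 0, 0, 0, 0, ⟨0, 0⟩, 0⟩ 0 0)) (.void 50 ⟨100000, 0, 0, 0, 0, 0, 0, 0, 0, ⟨0, 0⟩, 0⟩ 0 0))) (.cut .v 16777216 (.cut .v 8388608 (.cut .v 4194304 (.void 4 ⟨0, 0, 0, 0, 100000, 0, 0, 0, 0, ⟨0, 0⟩, 0⟩ 0 0) (.pos 5 .pm ⟨0, 0, 2073004, 0, 0,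 0, 0, 0, 3658475, ⟨0, 0⟩, 9975792⟩ 0 0)) (.cut .v 12582912 (.pos 6 .pm ⟨0, 0, 0, 0, 0, 0, 0, 0, 885230, ⟨0, 0⟩, 13128881⟩ 0 0) (.cut .d 5556092 (.pos 7 .pm ⟨0, 0, 0, 0, 0, 0, 0, 0, 0, ⟨0, 0⟩, 0⟩ 0 0) (.pos 7 .pm ⟨0, 0, 0, 0, 0, 0, 0, 0, 5567302, ⟨0, 0⟩, 15612959⟩ 0 0)))) (.cut .v 67108864 (.cut .v 33554432 (.cut .v 25165824 (.cut .v 20971520 (.pos 17 .pp ⟨1909296, 0, 0, 0, 0, 0, 0, 0, 0, ⟨0, 0⟩, 0⟩ 0 0) (.pos 18 .pp ⟨8840809, 0, 0, 0, 0, 0, 0, 0, 0, ⟨0, 0⟩, 0⟩ 0 0)) (.pos 16 .pp ⟨21082917, 0, 0, 0, 0, 0, 0, 0, 0, ⟨0, 0⟩, 0⟩ 0 0)) (.pos 37 .pp ⟨107706270, 77198969, 0, 0, 0, 0, 0, 0, 0, ⟨0, 0⟩, 0⟩ 0 0)) (.void 50 ⟨37538, 62462, 0, 0, 0, 0, 0, 0, 0, ⟨0, 0⟩, 0⟩ 0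 0)))),
    by decide +kernel⟩

def covers14 : cell.Covers table row14.1 :=
  ⟨(.cut .d 0 (.cut .v 16777216 (.cut .v 8388608 (.void 2 ⟨0, 0, 100000, 0, 0, 0, 0, 0, 0, ⟨0, 0⟩, 0⟩ 0 0) (.cut .d (-8388608) (.void 3 ⟨0, 0, 0, 0, 0, 100000, 0, 0, 0, ⟨0, 0⟩, 0⟩ 0 0) (.cut .v 12582912 (.pos 6 .mm ⟨0, 0, 0, 0, 0, 7015092, 0, 0, 0, ⟨0, 0⟩, 0⟩ 0 0) (.cut .d (-4194304) (.void 7 ⟨0, 0, 0, 0, 0, 100000, 0, 0, 0, ⟨0, 0⟩, 0⟩ 0 0) (.cut .d (-2097152) (.void 7 ⟨0, 0, 0, 0, 0, 100000, 0, 0, 0, ⟨0, 0⟩, 0⟩ 0 0) (.cut .d (-1048576) (.void 7 ⟨0, 0, 0, 0, 0, 100000, 0, 0, 0, ⟨0, 0⟩, 0⟩ 0 0) (.cut .s 10682368 (.pos 7 .mm ⟨0, 0, 0, 0, 0, 16097938, 0, 0, 0, ⟨0, 0⟩, 0⟩ 0 0) (.pos 7 .mm ⟨0,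 0, 0, 0, 0, 19759579, 0, 0, 0, ⟨0, 0⟩, 0⟩ 0 0)))))))) (.cut .v 67108864 (.cut .v 33554432 (.cut .v 25165824 (.cut .v 20971520 (.cut .d (-8388608) (.void 17 ⟨0, 0, 0, 0, 0, 100000, 0, 0, 0, ⟨0, 0⟩, 0⟩ 0 0) (.cut .d (-4194304) (.void 17 ⟨0, 0, 0, 0, 0, 100000, 0, 0, 0, ⟨0, 0⟩, 0⟩ 0 0) (.cut .d (-2097152) (.void 17 ⟨0, 0, 0, 0, 0, 100000, 0, 0, 0, ⟨0, 0⟩, 0⟩ 0 0) (.cut .d (-1048576) (.void 17 ⟨0, 0, 0, 0, 0, 100000, 0, 0, 0, ⟨0, 0⟩, 0⟩ 0 0) (.cut .v 18874368 (.cut .d (-524288) (.cut .d (-786432) (.pos 19 .mp ⟨9298766, 0, 0, 0, 0, 38805347, 0, 0, 0, ⟨0, 0⟩, 0⟩ 0 0) (.cut .l 2125114 (.void 19 ⟨0, 0, 0, 0, 0, 100000, 0, 0, 0, ⟨0, 0⟩, 0⟩ 0 0) (.cut .v 17825792 (.cut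 .s 10682368 (.pos 21 .mp ⟨5629844, 0, 0, 0, 0, 13731776, 0, 0, 0, ⟨0, 0⟩, 0⟩ 0 0) (.pos 21 .mp ⟨2523061, 0, 0, 0, 0, 23299184, 0, 0, 0, ⟨0, 0⟩, 0⟩ 0 0)) (.cut .s 10682368 (.pos 22 .mp ⟨13959530, 0, 0, 0, 0, 1488658, 0, 0, 0, ⟨0, 0⟩, 0⟩ 0 0) (.pos 22 .mp ⟨17111832, 0, 0, 0, 0, 1562586, 0, 0, 0, ⟨0, 0⟩, 0⟩ 0 0))))) (.cut .v 17825792 (.cut .l 2125114 (.cut .d (-262144) (.cut .l 1370139 (.pos 21 .mp ⟨5412004, 0, 0, 0, 0, 21327335, 0, 0, 0, ⟨0, 0⟩, 0⟩ 0 0) (.cut .s 10682368 (.pos 21 .mp ⟨3996896, 0, 0, 0, 0, 16068395, 0, 0, 0, ⟨0, 0⟩, 0⟩ 0 0) (.pos 21 .mp ⟨5493711, 0, 0, 0, 0, 18405969, 0, 0, 0, ⟨0, 0⟩, 0⟩ 0 0))) (.cut .l 1370139 (.cut .v 17301504 (.cut .d (-131072)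 (.cut .s 10682368 (.pos 23 .mp ⟨4156063, 0, 0, 0, 0, 13099538, 0, 0, 0, ⟨0, 0⟩, 0⟩ 0 0) (.pos 23 .mp ⟨5519790, 0, 0, 0, 0, 15096407, 0, 0, 0, ⟨0, 0⟩, 0⟩ 0 0)) (.cut .v 17039360 (.cut .s 10682368 (.pos 46 .mp ⟨4326172, 0, 0, 0, 0, 7345827, 0, 0, 0, ⟨0, 0⟩, 0⟩ 0 0) (.cut .s 10780672 (.pos 46 .mp ⟨3403755, 0, 0, 0, 0, 12815853, 0, 0, 0, ⟨0, 0⟩, 0⟩ 0 0) (.pos 46 .mp ⟨4009420, 0, 0, 0, 0, 13803008, 0, 0, 0, ⟨0, 0⟩, 0⟩ 0 0))) (.pos 47 .mp ⟨11514329, 0, 0, 0, 0, 0, 0, 0, 0, ⟨0, 0⟩, 0⟩ 0 0))) (.pos 24 .mp ⟨13894195, 0, 0, 0, 0, 0, 0, 0, 0, ⟨0, 0⟩, 0⟩ 0 0)) (.pos 21 .mp ⟨6900921, 0, 0, 0, 0, 0, 0, 0, 0, ⟨0, 0⟩, 0⟩ 0 0))) (.cut .s 10682368 (.pos 21 .mp ⟨8301362, 0, 0, 0,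 0, 2818150, 0, 0, 0, ⟨0, 0⟩, 0⟩ 0 0) (.pos 21 .mp ⟨10936453, 0, 0, 0, 0, 2296636, 0, 0, 0, ⟨0, 0⟩, 0⟩ 0 0))) (.cut .s 10682368 (.pos 22 .mp ⟨13503750, 0, 0, 0, 0, 0, 0, 0, 0, ⟨0, 0⟩, 0⟩ 0 0) (.pos 22 .mp ⟨16177347, 0, 0, 0, 0, 0, 0, 0, 0, ⟨0, 0⟩, 0⟩ 0 0)))) (.cut .d (-524288) (.pos 20 .mp ⟨27387366, 0, 0, 0, 0, 0, 0, 0, 0, ⟨0, 0⟩, 0⟩ 0 0) (.pos 20 .mp ⟨19104870, 0, 0, 0, 0, 0, 0, 0, 0, ⟨0, 0⟩, 0⟩ 0 0))))))) (.void 18 ⟨100000, 0, 0, 0, 0, 0, 0, 0, 0, ⟨0, 0⟩, 0⟩ 0 0)) (.void 16 ⟨100000, 0, 0, 0, 0, 0, 0, 0, 0, ⟨0, 0⟩, 0⟩ 0 0)) (.void 37 ⟨100000, 0, 0, 0, 0, 0, 0, 0, 0, ⟨0, 0⟩, 0⟩ 0 0)) (.void 50 ⟨100000, 0, 0, 0, 0, 0, 0, 0, 0, ⟨0, 0⟩, 0⟩ 0 0))) (.cut .v 16777216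 (.cut .v 8388608 (.cut .v 4194304 (.void 4 ⟨0, 0, 0, 0, 100000, 0, 0, 0, 0, ⟨0, 0⟩, 0⟩ 0 0) (.pos 5 .pm ⟨0, 0, 0, 0, 0, 0, 0, 0, 1827869, ⟨0, 0⟩, 9975792⟩ 0 0)) (.cut .v 12582912 (.pos 6 .pm ⟨0, 0, 0, 0, 0, 0, 0, 0, 1449466, ⟨0, 0⟩, 13128881⟩ 0 0) (.cut .d 5033166 (.pos 7 .pm ⟨0, 0, 0, 0, 0, 0, 0, 0, 0, ⟨0, 0⟩, 0⟩ 0 0) (.pos 7 .pm ⟨0, 0, 0, 0, 0, 0, 0, 0, 3062533, ⟨0, 0⟩, 15612959⟩ 0 0)))) (.cut .v 67108864 (.cut .d 5033166 (.cut .v 33554432 (.cut .v 25165824 (.cut .v 20971520 (.pos 17 .pp ⟨6107654, 0, 0, 0, 0, 0, 0, 0, 0, ⟨0, 0⟩, 0⟩ 0 0) (.pos 18 .pp ⟨18783475, 0, 0, 0, 0, 0, 0, 0, 0, ⟨0, 0⟩, 0⟩ 0 0)) (.pos 16 .pp ⟨39580449, 0, 0, 0, 0, 0, 0, 0, 0, ⟨0, 0⟩, 0⟩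 0 0)) (.pos 37 .pp ⟨171834859, 103073951, 0, 0, 0, 0, 0, 0, 0, ⟨0, 0⟩, 0⟩ 0 0)) (.pos 36 .pp ⟨0, 0, 0, 0, 0, 0, 0, 0, 0, ⟨0, 0⟩, 0⟩ 0 0)) (.void 50 ⟨80590, 0, 0, 19410, 0, 0, 0, 0, 0, ⟨0, 0⟩, 0⟩ 0 0)))),
    by decide +kernel⟩

def covers15 : cell.Covers table row15.1 :=
  ⟨(.cut .d 0 (.cut .v 16777216 (.cut .v 8388608 (.void 2 ⟨0, 0, 100000, 0, 0, 0, 0, 0, 0, ⟨0, 0⟩, 0⟩ 0 0) (.cut .d (-8388608) (.void 3 ⟨0, 0, 0, 0, 0, 100000, 0, 0, 0, ⟨0, 0⟩, 0⟩ 0 0) (.cut .d (-4194304) (.void 3 ⟨0, 0, 0, 0, 0, 100000, 0, 0, 0, ⟨0, 0⟩, 0⟩ 0 0) (.cut .v 12582912 (.pos 6 .mm ⟨0, 0, 0, 0, 0, 12390205, 0, 0, 0, ⟨0, 0⟩, 0⟩ 0 0) (.cut .d (-2097152) (.void 7 ⟨0, 0, 0, 0, 0, 100000,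 0, 0, 0, ⟨0, 0⟩, 0⟩ 0 0) (.cut .d (-1048576) (.void 7 ⟨0, 0, 0, 0, 0, 100000, 0, 0, 0, ⟨0, 0⟩, 0⟩ 0 0) (.cut .d (-524288) (.pos 7 .mm ⟨0, 0, 0, 0, 0, 36602349, 0, 0, 0, ⟨0, 0⟩, 0⟩ 0 0) (.cut .s 11108352 (.pos 7 .mm ⟨0, 0, 0, 0, 0, 23396733, 0, 0, 0, ⟨0, 0⟩, 0⟩ 0 0) (.pos 7 .mm ⟨0, 0, 0, 0, 0, 29420201, 0, 0, 0, ⟨0, 0⟩, 0⟩ 0 0))))))))) (.cut .v 67108864 (.cut .v 33554432 (.cut .v 25165824 (.cut .v 20971520 (.cut .d (-8388608) (.void 17 ⟨0, 0, 0, 0, 0, 100000, 0, 0, 0, ⟨0, 0⟩, 0⟩ 0 0) (.cut .d (-4194304) (.void 17 ⟨0, 0, 0, 0, 0, 100000, 0, 0, 0, ⟨0, 0⟩, 0⟩ 0 0) (.cut .d (-2097152) (.void 17 ⟨0, 0, 0, 0, 0, 100000, 0, 0, 0, ⟨0, 0⟩, 0⟩ 0 0) (.cut .d (-1048576) (.void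 17 ⟨0, 0, 0, 0, 0, 100000, 0, 0, 0, ⟨0, 0⟩, 0⟩ 0 0) (.cut .v 18874368 (.cut .d (-524288) (.cut .d (-786432) (.void 19 ⟨0, 0, 0, 0, 0, 100000, 0, 0, 0, ⟨0, 0⟩, 0⟩ 0 0) (.cut .l 2125114 (.void 19 ⟨0, 0, 0, 0, 0, 100000, 0, 0, 0, ⟨0, 0⟩, 0⟩ 0 0) (.cut .v 17825792 (.cut .s 11108352 (.pos 21 .mp ⟨2789813, 0, 0, 0, 0, 29173011, 0, 0, 0, ⟨0, 0⟩, 0⟩ 0 0) (.pos 21 .mp ⟨4888040, 0, 0, 0, 0, 34028526, 0, 0, 0, ⟨0, 0⟩, 0⟩ 0 0)) (.cut .v 18350080 (.cut .l 2880089 (.pos 44 .mp ⟨29876346, 0, 0, 0, 0, 0, 0, 0, 0, ⟨0, 0⟩, 0⟩ 0 0) (.cut .s 11108352 (.cut .s 10993664 (.pos 44 .mp ⟨17831124, 0, 0, 0, 0, 4758077, 0, 0, 0, ⟨0, 0⟩, 0⟩ 0 0) (.pos 44 .mp ⟨20152059, 0, 0, 0, 0, 5021217,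 0, 0, 0, ⟨0, 0⟩, 0⟩ 0 0)) (.cut .d (-655360) (.pos 44 .mp ⟨17394614, 0, 0, 0, 0, 31378906, 0, 0, 0, ⟨0, 0⟩, 0⟩ 0 0) (.pos 44 .mp ⟨23471400, 0, 0, 0, 0, 2872510, 0, 0, 0, ⟨0, 0⟩, 0⟩ 0 0)))) (.pos 45 .mp ⟨30725070, 0, 0, 0, 0, 0, 0, 0, 0, ⟨0, 0⟩, 0⟩ 0 0))))) (.cut .s 11108352 (.cut .v 17825792 (.cut .v 17301504 (.cut .d (-262144) (.pos 23 .mp ⟨5284878, 0, 0, 0, 0, 22188852, 0, 0, 0, ⟨0, 0⟩, 0⟩ 0 0) (.cut .l 2125114 (.cut .l 1370139 (.cut .d (-131072) (.cut .s 10993664 (.pos 23 .mp ⟨7530735, 0, 0, 0, 0, 15212704, 0, 0, 0, ⟨0, 0⟩, 0⟩ 0 0) (.pos 23 .mp ⟨8724623, 0, 0, 0, 0, 16167489, 0, 0, 0, ⟨0, 0⟩, 0⟩ 0 0)) (.cut .v 17039360 (.cut .s 10993664 (.pos 46 .mp ⟨4671826,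 0, 0, 0, 0, 14943601, 0, 0, 0, ⟨0, 0⟩, 0⟩ 0 0) (.cut .s 11051008 (.pos 46 .mp ⟨5506739, 0, 0, 0, 0, 15962963, 0, 0, 0, ⟨0, 0⟩, 0⟩ 0 0) (.pos 46 .mp ⟨5951331, 0, 0, 0, 0, 16683535, 0, 0, 0, ⟨0, 0⟩, 0⟩ 0 0))) (.pos 47 .mp ⟨16212158, 0, 0, 0, 0, 0, 0, 0, 0, ⟨0, 0⟩, 0⟩ 0 0))) (.pos 23 .mp ⟨8551740, 0, 0, 0, 0, 8244396, 0, 0, 0, ⟨0, 0⟩, 0⟩ 0 0)) (.pos 23 .mp ⟨0, 0, 0, 0, 0, 0, 0, 0, 0, ⟨0, 0⟩, 0⟩ 0 0))) (.cut .l 2125114 (.cut .s 10993664 (.pos 24 .mp ⟨17832435, 0, 0, 0, 0, 0, 0, 0, 0, ⟨0, 0⟩, 0⟩ 0 0) (.pos 24 .mp ⟨19720265, 0, 0, 0, 0, 0, 0, 0, 0, ⟨0, 0⟩, 0⟩ 0 0)) (.pos 24 .mp ⟨15335643, 0, 0, 0, 0, 2983712, 0, 0, 0, ⟨0, 0⟩, 0⟩ 0 0))) (.pos 22 .mp ⟨19883712, 0, 0,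 0, 0, 0, 0, 0, 0, ⟨0, 0⟩, 0⟩ 0 0)) (.cut .v 17825792 (.cut .d (-262144) (.cut .l 2125114 (.cut .s 11223040 (.pos 21 .mp ⟨9678519, 0, 0, 0, 0, 23523529, 0, 0, 0, ⟨0, 0⟩, 0⟩ 0 0) (.pos 21 .mp ⟨11055185, 0, 0, 0, 0, 25323906, 0, 0, 0, ⟨0, 0⟩, 0⟩ 0 0)) (.cut .s 11223040 (.pos 21 .mp ⟨7647602, 0, 0, 0, 0, 24271576, 0, 0, 0, ⟨0, 0⟩, 0⟩ 0 0) (.pos 21 .mp ⟨8786283, 0, 0, 0, 0, 26371490, 0, 0, 0, ⟨0, 0⟩, 0⟩ 0 0))) (.cut .v 17301504 (.cut .l 2125114 (.cut .l 1370139 (.cut .d (-131072) (.cut .s 11223040 (.pos 23 .mp ⟨9859414, 0, 0, 0, 0, 17698511, 0, 0, 0, ⟨0, 0⟩, 0⟩ 0 0) (.pos 23 .mp ⟨11085204, 0, 0, 0, 0, 19364573, 0, 0, 0, ⟨0, 0⟩, 0⟩ 0 0)) (.cut .d (-65536) (.cut .v 17039360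 (.cut .s 11223040 (.pos 46 .mp ⟨7555080, 0, 0, 0, 0, 17291281, 0, 0, 0, ⟨0, 0⟩, 0⟩ 0 0) (.pos 46 .mp ⟨8656474, 0, 0, 0, 0, 18954453, 0, 0, 0, ⟨0, 0⟩, 0⟩ 0 0)) (.pos 47 .mp ⟨20008720, 0, 0, 0, 0, 0, 0, 0, 0, ⟨0, 0⟩, 0⟩ 0 0)) (.pos 23 .mp ⟨8591159, 0, 0, 0, 0, 0, 0, 0, 0, ⟨0, 0⟩, 0⟩ 0 0))) (.pos 23 .mp ⟨5572066, 0, 0, 0, 0, 20970344, 0, 0, 0, ⟨0, 0⟩, 0⟩ 0 0)) (.pos 23 .mp ⟨0, 0, 0, 0, 0, 0, 0, 0, 0, ⟨0, 0⟩, 0⟩ 0 0)) (.pos 24 .mp ⟨20919987, 0, 0, 0, 0, 0, 0, 0, 0, ⟨0, 0⟩, 0⟩ 0 0))) (.pos 22 .mp ⟨24366874, 0, 0, 0, 0, 0, 0, 0, 0, ⟨0, 0⟩, 0⟩ 0 0)))) (.cut .d (-524288) (.void 20 ⟨100000, 0, 0, 0, 0, 0, 0, 0, 0, ⟨0, 0⟩, 0⟩ 0 0) (.pos 20 .mp ⟨28683805, 0, 0, 0, 0, 0,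 0, 0, 0, ⟨0, 0⟩, 0⟩ 0 0))))))) (.void 18 ⟨100000, 0, 0, 0, 0, 0, 0, 0, 0, ⟨0, 0⟩, 0⟩ 0 0)) (.void 16 ⟨100000, 0, 0, 0, 0, 0, 0, 0, 0, ⟨0, 0⟩, 0⟩ 0 0)) (.void 37 ⟨100000, 0, 0, 0, 0, 0, 0, 0, 0, ⟨0, 0⟩, 0⟩ 0 0)) (.void 50 ⟨100000, 0, 0, 0, 0, 0, 0, 0, 0, ⟨0, 0⟩, 0⟩ 0 0))) (.cut .v 16777216 (.cut .v 8388608 (.cut .v 4194304 (.void 4 ⟨0, 0, 50000, 0, 50000, 0, 0, 0, 0, ⟨0, 0⟩, 0⟩ 0 0) (.pos 5 .pm ⟨0, 0, 0, 0, 0, 0, 0, 0, 2248627, ⟨0, 0⟩, 9975792⟩ 0 0)) (.cut .d 4548041 (.cut .v 12582912 (.pos 6 .pm ⟨0, 0, 0, 0, 0, 0, 0, 0, 400239, ⟨0, 0⟩, 13128881⟩ 0 0) (.pos 7 .pm ⟨0, 0, 0, 0, 0, 0, 0, 0, 0, ⟨0, 0⟩, 0⟩ 0 0)) (.cut .v 12582912 (.pos 6 .pm ⟨0, 0, 0, 0, 0, 0, 0, 0,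 5777867, ⟨0, 0⟩, 13128881⟩ 0 0) (.pos 7 .pm ⟨0, 1149142, 0, 0, 0, 0, 0, 0, 3819251, ⟨0, 0⟩, 15612959⟩ 0 0)))) (.cut .v 67108864 (.cut .d 4548041 (.cut .d 2274020 (.cut .v 33554432 (.cut .v 25165824 (.cut .v 20971520 (.cut .v 18874368 (.pos 19 .pp ⟨8493013, 0, 0, 0, 0, 0, 0, 0, 0, ⟨0, 0⟩, 0⟩ 0 0) (.pos 20 .pp ⟨19809321, 0, 0, 0, 0, 0, 0, 0, 0, ⟨0, 0⟩, 0⟩ 0 0)) (.pos 18 .pp ⟨29863394, 0, 0, 0, 0, 0, 0, 0, 0, ⟨0, 0⟩, 0⟩ 0 0)) (.pos 16 .pp ⟨63681946, 0, 0, 0, 0, 0, 0, 0, 0, ⟨0, 0⟩, 0⟩ 0 0)) (.pos 37 .pp ⟨330206857, 0, 0, 0, 0, 0, 0, 0, 0, ⟨0, 0⟩, 0⟩ 0 0)) (.pos 36 .pp ⟨0, 0, 0, 0, 0, 0, 0, 0, 0, ⟨0, 0⟩, 0⟩ 0 0)) (.pos 36 .pp ⟨0, 0, 0, 0, 0, 0, 0, 0, 0, ⟨0, 0⟩, 0⟩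 0 0)) (.void 50 ⟨80294, 0, 0, 19706, 0, 0, 0, 0, 0, ⟨0, 0⟩, 0⟩ 0 0)))),
    by decide +kernel⟩

def covers16 : cell.Covers table row16.1 :=
  ⟨(.cut .d 0 (.cut .v 16777216 (.cut .v 8388608 (.void 2 ⟨0, 0, 100000, 0, 0, 0, 0, 0, 0, ⟨0, 0⟩, 0⟩ 0 0) (.cut .d (-8388608) (.void 3 ⟨0, 0, 0, 0, 0, 100000, 0, 0, 0, ⟨0, 0⟩, 0⟩ 0 0) (.cut .d (-4194304) (.void 3 ⟨0, 0, 0, 0, 0, 100000, 0, 0, 0, ⟨0, 0⟩, 0⟩ 0 0) (.cut .d (-2097152) (.void 3 ⟨0, 0, 0, 0, 0, 100000, 0, 0, 0, ⟨0, 0⟩, 0⟩ 0 0) (.cut .v 12582912 (.pos 6 .mm ⟨0, 0, 0, 0, 0, 17840599, 0, 0, 0, ⟨0, 0⟩, 0⟩ 0 0) (.cut .d (-1048576) (.void 7 ⟨0, 0, 0, 0, 0, 100000, 0, 0, 0, ⟨0, 0⟩, 0⟩ 0 0) (.cut .s 11534336 (.pos 7 .mm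 ⟨0, 0, 0, 0, 0, 38057847, 0, 0, 0, ⟨0, 0⟩, 0⟩ 0 0) (.pos 7 .mm ⟨0, 0, 0, 0, 0, 46002324, 0, 0, 0, ⟨0, 0⟩, 0⟩ 0 0)))))))) (.cut .v 67108864 (.cut .v 33554432 (.cut .v 25165824 (.cut .v 20971520 (.cut .d (-8388608) (.void 17 ⟨0, 0, 0, 0, 0, 100000, 0, 0, 0, ⟨0, 0⟩, 0⟩ 0 0) (.cut .d (-4194304) (.void 17 ⟨100000, 0, 0, 0, 0, 0, 0, 0, 0, ⟨0, 0⟩, 0⟩ 0 0) (.cut .d (-2097152) (.void 17 ⟨0, 0, 0, 0, 0, 100000, 0, 0, 0, ⟨0, 0⟩, 0⟩ 0 0) (.cut .d (-1048576) (.void 17 ⟨0, 0, 0, 0, 0, 100000, 0, 0, 0, ⟨0, 0⟩, 0⟩ 0 0) (.cut .v 18874368 (.cut .d (-524288) (.cut .d (-786432) (.void 19 ⟨0, 0, 0, 0, 0, 100000, 0, 0, 0, ⟨0, 0⟩, 0⟩ 0 0) (.cut .d (-655360) (.void 19 ⟨0, 0, 0, 0, 0,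 100000, 0, 0, 0, ⟨0, 0⟩, 0⟩ 0 0) (.cut .l 2125114 (.void 19 ⟨0, 0, 0, 0, 0, 100000, 0, 0, 0, ⟨0, 0⟩, 0⟩ 0 0) (.cut .l 2880089 (.void 19 ⟨0, 0, 0, 0, 0, 100000, 0, 0, 0, ⟨0, 0⟩, 0⟩ 0 0) (.cut .v 17825792 (.pos 21 .mp ⟨0, 0, 0, 0, 0, 55652705, 0, 0, 0, ⟨0, 0⟩, 0⟩ 0 0) (.cut .v 18350080 (.cut .s 11534336 (.pos 44 .mp ⟨26907337, 0, 0, 0, 0, 6989769, 0, 0, 0, ⟨0, 0⟩, 0⟩ 0 0) (.cut .s 11632640 (.pos 44 .mp ⟨29591299, 0, 0, 0, 0, 10525025, 0, 0, 0, ⟨0, 0⟩, 0⟩ 0 0) (.pos 44 .mp ⟨32485021, 0, 0, 0, 0, 11336431, 0, 0, 0, ⟨0, 0⟩, 0⟩ 0 0))) (.pos 45 .mp ⟨43721812, 0, 0, 0, 0, 0, 0, 0, 0, ⟨0, 0⟩, 0⟩ 0 0))))))) (.cut .v 17825792 (.cut .d (-262144) (.cut .s 11534336 (.cut .l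 2125114 (.pos 21 .mp ⟨12551517, 0, 0, 0, 0, 30301235, 0, 0, 0, ⟨0, 0⟩, 0⟩ 0 0) (.cut .s 11436032 (.pos 21 .mp ⟨10045372, 0, 0, 0, 0, 28365395, 0, 0, 0, ⟨0, 0⟩, 0⟩ 0 0) (.pos 21 .mp ⟨11211516, 0, 0, 0, 0, 30505330, 0, 0, 0, ⟨0, 0⟩, 0⟩ 0 0))) (.cut .l 2125114 (.pos 21 .mp ⟨15434152, 0, 0, 0, 0, 34945350, 0, 0, 0, ⟨0, 0⟩, 0⟩ 0 0) (.cut .s 11632640 (.pos 21 .mp ⟨12468866, 0, 0, 0, 0, 32812463, 0, 0, 0, ⟨0, 0⟩, 0⟩ 0 0) (.pos 21 .mp ⟨13822150, 0, 0, 0, 0, 35282320, 0, 0, 0, ⟨0, 0⟩, 0⟩ 0 0)))) (.cut .l 2125114 (.cut .s 11534336 (.cut .v 17301504 (.cut .l 1370139 (.cut .d (-131072) (.cut .s 11436032 (.pos 23 .mp ⟨12548871, 0, 0, 0, 0, 20490392, 0, 0, 0, ⟨0, 0⟩, 0⟩ 0 0)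 (.pos 23 .mp ⟨13791085, 0, 0, 0, 0, 22201402, 0, 0, 0, ⟨0, 0⟩, 0⟩ 0 0)) (.cut .v 17039360 (.cut .d (-65536) (.cut .s 11436032 (.pos 46 .mp ⟨9850250, 0, 0, 0, 0, 20488634, 0, 0, 0, ⟨0, 0⟩, 0⟩ 0 0) (.pos 46 .mp ⟨10954682, 0, 0, 0, 0, 22254741, 0, 0, 0, ⟨0, 0⟩, 0⟩ 0 0)) (.pos 46 .mp ⟨0, 0, 0, 0, 0, 0, 0, 0, 0, ⟨0, 0⟩, 0⟩ 0 0)) (.pos 47 .mp ⟨24053567, 0, 0, 0, 0, 0, 0, 0, 0, ⟨0, 0⟩, 0⟩ 0 0))) (.pos 23 .mp ⟨7485543, 0, 0, 0, 0, 25094121, 0, 0, 0, ⟨0, 0⟩, 0⟩ 0 0)) (.pos 24 .mp ⟨25973616, 0, 0, 0, 0, 0, 0, 0, 0, ⟨0, 0⟩, 0⟩ 0 0)) (.cut .v 17301504 (.cut .l 1370139 (.cut .d (-131072) (.cut .l 992651 (.pos 23 .mp ⟨13432874, 0, 0, 0, 0, 36655362, 0, 0, 0, ⟨0, 0⟩, 0⟩ 0 0)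 (.pos 23 .mp ⟨12682447, 0, 0, 0, 0, 30786830, 0, 0, 0, ⟨0, 0⟩, 0⟩ 0 0)) (.cut .d (-65536) (.cut .v 17039360 (.cut .s 11632640 (.pos 46 .mp ⟨12139492, 0, 0, 0, 0, 24165803, 0, 0, 0, ⟨0, 0⟩, 0⟩ 0 0) (.pos 46 .mp ⟨13408877, 0, 0, 0, 0, 26206425, 0, 0, 0, ⟨0, 0⟩, 0⟩ 0 0)) (.pos 47 .mp ⟨17766112, 0, 0, 0, 0, 18971886, 0, 0, 0, ⟨0, 0⟩, 0⟩ 0 0)) (.pos 23 .mp ⟨13791584, 0, 0, 0, 0, 0, 0, 0, 0, ⟨0, 0⟩, 0⟩ 0 0))) (.pos 23 .mp ⟨9382637, 0, 0, 0, 0, 29617339, 0, 0, 0, ⟨0, 0⟩, 0⟩ 0 0)) (.pos 24 .mp ⟨30607986, 0, 0, 0, 0, 0, 0, 0, 0, ⟨0, 0⟩, 0⟩ 0 0))) (.pos 21 .mp ⟨13866898, 0, 0, 0, 0, 0, 0, 0, 0, ⟨0, 0⟩, 0⟩ 0 0))) (.cut .s 11534336 (.pos 22 .mp ⟨29182038, 0, 0, 0, 0, 0, 0,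 0, 0, ⟨0, 0⟩, 0⟩ 0 0) (.cut .s 11632640 (.pos 22 .mp ⟨32238825, 0, 0, 0, 0, 0, 0, 0, 0, ⟨0, 0⟩, 0⟩ 0 0) (.pos 22 .mp ⟨35029350, 0, 0, 0, 0, 0, 0, 0, 0, ⟨0, 0⟩, 0⟩ 0 0))))) (.cut .d (-524288) (.void 20 ⟨100000, 0, 0, 0, 0, 0, 0, 0, 0, ⟨0, 0⟩, 0⟩ 0 0) (.pos 20 .mp ⟨40645435, 0, 0, 0, 0, 0, 0, 0, 0, ⟨0, 0⟩, 0⟩ 0 0))))))) (.void 18 ⟨100000, 0, 0, 0, 0, 0, 0, 0, 0, ⟨0, 0⟩, 0⟩ 0 0)) (.void 16 ⟨100000, 0, 0, 0, 0, 0, 0, 0, 0, ⟨0, 0⟩, 0⟩ 0 0)) (.void 37 ⟨100000, 0, 0, 0, 0, 0, 0, 0, 0, ⟨0, 0⟩, 0⟩ 0 0)) (.void 50 ⟨100000, 0, 0, 0, 0, 0, 0, 0, 0, ⟨0, 0⟩, 0⟩ 0 0))) (.cut .v 16777216 (.cut .v 8388608 (.cut .v 4194304 (.void 4 ⟨0, 0, 50000, 0, 50000, 0, 0, 0, 0, ⟨0, 0⟩, 0⟩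 0 0) (.pos 5 .pm ⟨0, 0, 0, 0, 0, 0, 0, 0, 4802822, ⟨0, 0⟩, 9975792⟩ 0 0)) (.cut .d 4024593 (.cut .v 12582912 (.pos 6 .pm ⟨0, 0, 0, 0, 0, 0, 0, 0, 328723, ⟨0, 0⟩, 13128881⟩ 0 0) (.pos 7 .pm ⟨0, 0, 0, 0, 0, 0, 0, 0, 0, ⟨0, 0⟩, 0⟩ 0 0)) (.cut .v 12582912 (.pos 6 .pm ⟨0, 4754253, 0, 0, 0, 0, 0, 0, 6026819, ⟨0, 0⟩, 13128881⟩ 0 0) (.pos 7 .pm ⟨0, 3994332, 0, 0, 0, 0, 0, 0, 4530779, ⟨0, 0⟩, 15612959⟩ 0 0)))) (.cut .v 67108864 (.cut .d 4024593 (.cut .d 2012296 (.cut .v 33554432 (.cut .v 25165824 (.cut .v 20971520 (.cut .v 18874368 (.pos 19 .pp ⟨13819427, 0, 0, 0, 0, 0, 0, 0, 0, ⟨0, 0⟩, 0⟩ 0 0) (.pos 20 .pp ⟨28112769, 0, 0, 0, 0, 0, 0, 0, 0, ⟨0, 0⟩, 0⟩ 0 0)) (.pos 18 .pp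 ⟨41705828, 0, 0, 0, 0, 0, 0, 0, 0, ⟨0, 0⟩, 0⟩ 0 0)) (.pos 16 .pp ⟨85759119, 0, 0, 0, 0, 0, 0, 0, 0, ⟨0, 0⟩, 0⟩ 0 0)) (.pos 37 .pp ⟨430072461, 0, 0, 0, 0, 0, 0, 0, 0, ⟨0, 0⟩, 0⟩ 0 0)) (.pos 36 .pp ⟨0, 0, 0, 0, 0, 0, 0, 0, 0, ⟨0, 0⟩, 0⟩ 0 0)) (.pos 36 .pp ⟨0, 0, 0, 0, 0, 0, 0, 0, 0, ⟨0, 0⟩, 0⟩ 0 0)) (.void 50 ⟨80147, 0, 0, 19853, 0, 0, 0, 0, 0, ⟨0, 0⟩, 0⟩ 0 0)))),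
    by decide +kernel⟩

def covers17 : cell.Covers table row17.1 :=
  ⟨(.cut .d 0 (.cut .v 16777216 (.cut .v 8388608 (.void 2 ⟨0, 0, 100000, 0, 0, 0, 0, 0, 0, ⟨0, 0⟩, 0⟩ 0 0) (.cut .d (-8388608) (.void 3 ⟨0, 0, 0, 0, 0, 100000, 0, 0, 0, ⟨0, 0⟩, 0⟩ 0 0) (.cut .d (-4194304) (.void 3 ⟨0, 0, 0, 0, 0, 100000, 0, 0, 0, ⟨0, 0⟩, 0⟩ 0 0) (.cut .d (-2097152) (.void 3 ⟨0, 0, 0, 0, 0, 100000, 0, 0, 0, ⟨0, 0⟩, 0⟩ 0 0) (.cut .d (-1048576) (.void 3 ⟨0, 0, 0, 0, 0, 100000, 0, 0, 0, ⟨0, 0⟩, 0⟩ 0 0) (.cut .d (-524288) (.pos 3 .mm ⟨0, 0, 0, 0, 0, 87196319, 0, 0, 0, ⟨0, 0⟩, 0⟩ 0 0) (.cut .d (-262144) (.pos 3 .mm ⟨0, 0, 0, 0, 0, 72938375, 0, 0, 0, ⟨0, 0⟩, 0⟩ 0 0) (.cut .s 11993088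 (.pos 3 .mm ⟨0, 0, 0, 0, 0, 51510617, 0, 0, 0, ⟨0, 0⟩, 0⟩ 0 0) (.pos 3 .mm ⟨0, 0, 0, 0, 0, 65791794, 0, 0, 0, ⟨0, 0⟩, 0⟩ 0 0))))))))) (.cut .v 67108864 (.cut .v 33554432 (.cut .v 25165824 (.cut .v 20971520 (.cut .d (-8388608) (.void 17 ⟨0, 0, 0, 0, 0, 100000, 0, 0, 0, ⟨0, 0⟩, 0⟩ 0 0) (.cut .d (-4194304) (.void 17 ⟨100000, 0, 0, 0, 0, 0, 0, 0, 0, ⟨0, 0⟩, 0⟩ 0 0) (.cut .d (-2097152) (.void 17 ⟨100000, 0, 0, 0, 0, 0, 0, 0, 0, ⟨0, 0⟩, 0⟩ 0 0) (.cut .d (-1048576) (.void 17 ⟨0, 0, 0, 0, 0, 100000, 0, 0, 0, ⟨0, 0⟩, 0⟩ 0 0) (.cut .d (-524288) (.cut .v 18874368 (.cut .v 17825792 (.pos 21 .mp ⟨0, 0, 0, 0, 0, 99388930, 0, 0, 0, ⟨0, 0⟩, 0⟩ 0 0) (.cut .s 11993088 (.cut .s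 11862016 (.cut .v 18350080 (.pos 44 .mp ⟨28427709, 0, 0, 0, 0, 33546517, 0, 0, 0, ⟨0, 0⟩, 0⟩ 0 0) (.void 45 ⟨100000, 0, 0, 0, 0, 0, 0, 0, 0, ⟨0, 0⟩, 0⟩ 0 0)) (.pos 22 .mp ⟨36152611, 0, 0, 0, 0, 37947345, 0, 0, 0, ⟨0, 0⟩, 0⟩ 0 0)) (.void 22 ⟨0, 0, 0, 0, 0, 100000, 0, 0, 0, ⟨0, 0⟩, 0⟩ 0 0))) (.void 20 ⟨100000, 0, 0, 0, 0, 0, 0, 0, 0, ⟨0, 0⟩, 0⟩ 0 0)) (.cut .v 18874368 (.cut .v 17825792 (.cut .s 11993088 (.cut .d (-262144) (.cut .l 2125114 (.pos 21 .mp ⟨18775011, 0, 0, 0, 0, 44303474, 0, 0, 0, ⟨0, 0⟩, 0⟩ 0 0) (.cut .v 17301504 (.pos 23 .mp ⟨0, 0, 0, 0, 0, 60941389, 0, 0, 0, ⟨0, 0⟩, 0⟩ 0 0) (.cut .s 11862016 (.cut .s 11796480 (.pos 24 .mp ⟨16397266, 0, 0, 0, 0, 35318899,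 0, 0, 0, ⟨0, 0⟩, 0⟩ 0 0) (.pos 24 .mp ⟨17507118, 0, 0, 0, 0, 37047748, 0, 0, 0, ⟨0, 0⟩, 0⟩ 0 0)) (.cut .s 11927552 (.pos 24 .mp ⟨18673892, 0, 0, 0, 0, 38889653, 0, 0, 0, ⟨0, 0⟩, 0⟩ 0 0) (.pos 24 .mp ⟨19899706, 0, 0, 0, 0, 40842600, 0, 0, 0, ⟨0, 0⟩, 0⟩ 0 0))))) (.cut .l 2125114 (.cut .v 17301504 (.cut .d (-131072) (.cut .l 1370139 (.cut .s 11862016 (.pos 23 .mp ⟨15452706, 0, 0, 0, 0, 37719498, 0, 0, 0, ⟨0, 0⟩, 0⟩ 0 0) (.pos 23 .mp ⟨17526292, 0, 0, 0, 0, 41695583, 0, 0, 0, ⟨0, 0⟩, 0⟩ 0 0)) (.pos 23 .mp ⟨13956622, 0, 0, 0, 0, 36725054, 0, 0, 0, ⟨0, 0⟩, 0⟩ 0 0)) (.cut .d (-65536) (.cut .l 1370139 (.cut .l 992651 (.cut .v 17039360 (.cut .d (-98304) (.pos 46 .mp ⟨14862477,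 0, 0, 0, 0, 37792732, 0, 0, 0, ⟨0, 0⟩, 0⟩ 0 0) (.cut .s 11862016 (.pos 46 .mp ⟨14768535, 0, 0, 0, 0, 28605587, 0, 0, 0, ⟨0, 0⟩, 0⟩ 0 0) (.cut .s 11927552 (.pos 46 .mp ⟨16732435, 0, 0, 0, 0, 30042628, 0, 0, 0, ⟨0, 0⟩, 0⟩ 0 0) (.pos 46 .mp ⟨17784023, 0, 0, 0, 0, 31827207, 0, 0, 0, ⟨0, 0⟩, 0⟩ 0 0)))) (.cut .s 11862016 (.pos 47 .mp ⟨33846636, 0, 0, 0, 0, 0, 0, 0, 0, ⟨0, 0⟩, 0⟩ 0 0) (.pos 47 .mp ⟨37756763, 0, 0, 0, 0, 0, 0, 0, 0, ⟨0, 0⟩, 0⟩ 0 0))) (.pos 23 .mp ⟨19247360, 0, 0, 0, 0, 0, 0, 0, 0, ⟨0, 0⟩, 0⟩ 0 0)) (.pos 23 .mp ⟨0, 0, 0, 0, 0, 0, 0, 0, 0, ⟨0, 0⟩, 0⟩ 0 0)) (.pos 23 .mp ⟨17689334, 0, 0, 0, 0, 0, 0, 0, 0, ⟨0, 0⟩, 0⟩ 0 0))) (.cut .s 11862016 (.pos 24 .mp ⟨35185477,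 0, 0, 0, 0, 0, 0, 0, 0, ⟨0, 0⟩, 0⟩ 0 0) (.pos 24 .mp ⟨39148922, 0, 0, 0, 0, 0, 0, 0, 0, ⟨0, 0⟩, 0⟩ 0 0))) (.pos 21 .mp ⟨20912968, 0, 0, 0, 0, 0, 0, 0, 0, ⟨0, 0⟩, 0⟩ 0 0))) (.cut .d (-262144) (.cut .l 2125114 (.pos 21 .mp ⟨24057146, 0, 0, 0, 0, 54483704, 0, 0, 0, ⟨0, 0⟩, 0⟩ 0 0) (.cut .v 17301504 (.pos 23 .mp ⟨0, 0, 0, 0, 0, 78490295, 0, 0, 0, ⟨0, 0⟩, 0⟩ 0 0) (.cut .s 12124160 (.cut .d (-393216) (.pos 24 .mp ⟨26367378, 0, 0, 0, 0, 38311911, 0, 0, 0, ⟨0, 0⟩, 0⟩ 0 0) (.pos 24 .mp ⟨34382155, 0, 0, 0, 0, 15201964, 0, 0, 0, ⟨0, 0⟩, 0⟩ 0 0)) (.cut .s 12189696 (.pos 24 .mp ⟨23954382, 0, 0, 0, 0, 47344089, 0, 0, 0, ⟨0, 0⟩, 0⟩ 0 0) (.pos 24 .mp ⟨25440018, 0, 0, 0, 0, 49716329,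 0, 0, 0, ⟨0, 0⟩, 0⟩ 0 0))))) (.cut .l 2125114 (.cut .v 17301504 (.cut .d (-131072) (.cut .l 1370139 (.cut .s 12124160 (.pos 23 .mp ⟨19805340, 0, 0, 0, 0, 46081692, 0, 0, 0, ⟨0, 0⟩, 0⟩ 0 0) (.pos 23 .mp ⟨22305928, 0, 0, 0, 0, 50911679, 0, 0, 0, ⟨0, 0⟩, 0⟩ 0 0)) (.pos 23 .mp ⟨17677172, 0, 0, 0, 0, 46304407, 0, 0, 0, ⟨0, 0⟩, 0⟩ 0 0)) (.cut .d (-65536) (.cut .l 1370139 (.cut .l 992651 (.cut .v 17039360 (.cut .d (-98304) (.pos 46 .mp ⟨19017008, 0, 0, 0, 0, 47229805, 0, 0, 0, ⟨0, 0⟩, 0⟩ 0 0) (.cut .s 12124160 (.cut .s 12058624 (.pos 46 .mp ⟨18884396, 0, 0, 0, 0, 33704829, 0, 0, 0, ⟨0, 0⟩, 0⟩ 0 0) (.pos 46 .mp ⟨20035450, 0, 0, 0, 0, 35668891, 0, 0, 0, ⟨0, 0⟩, 0⟩ 0 0))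 (.pos 46 .mp ⟨21239185, 0, 0, 0, 0, 40855529, 0, 0, 0, ⟨0, 0⟩, 0⟩ 0 0))) (.cut .s 12124160 (.pos 47 .mp ⟨25556595, 0, 0, 0, 0, 27869301, 0, 0, 0, ⟨0, 0⟩, 0⟩ 0 0) (.pos 47 .mp ⟨28671082, 0, 0, 0, 0, 30763329, 0, 0, 0, ⟨0, 0⟩, 0⟩ 0 0))) (.pos 23 .mp ⟨23875484, 0, 0, 0, 0, 21531500, 0, 0, 0, ⟨0, 0⟩, 0⟩ 0 0)) (.pos 23 .mp ⟨0, 0, 0, 0, 0, 0, 0, 0, 0, ⟨0, 0⟩, 0⟩ 0 0)) (.pos 23 .mp ⟨22857201, 0, 0, 0, 0, 0, 0, 0, 0, ⟨0, 0⟩, 0⟩ 0 0))) (.cut .s 12124160 (.pos 24 .mp ⟨43542387, 0, 0, 0, 0, 0, 0, 0, 0, ⟨0, 0⟩, 0⟩ 0 0) (.pos 24 .mp ⟨48368685, 0, 0, 0, 0, 0, 0, 0, 0, ⟨0, 0⟩, 0⟩ 0 0))) (.pos 21 .mp ⟨27659576, 0, 0, 0, 0, 0, 0, 0, 0, ⟨0, 0⟩, 0⟩ 0 0)))) (.cut .s 11993088 (.cut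 .s 11862016 (.pos 22 .mp ⟨38453970, 0, 0, 0, 0, 1510760, 0, 0, 0, ⟨0, 0⟩, 0⟩ 0 0) (.pos 22 .mp ⟨43095124, 0, 0, 0, 0, 1187306, 0, 0, 0, ⟨0, 0⟩, 0⟩ 0 0)) (.cut .d (-262144) (.cut .v 18350080 (.cut .s 12124160 (.pos 44 .mp ⟨41915513, 0, 0, 0, 0, 12259631, 0, 0, 0, ⟨0, 0⟩, 0⟩ 0 0) (.cut .s 12189696 (.pos 44 .mp ⟨42653534, 0, 0, 0, 0, 18871709, 0, 0, 0, ⟨0, 0⟩, 0⟩ 0 0) (.pos 44 .mp ⟨45223052, 0, 0, 0, 0, 19620412, 0, 0, 0, ⟨0, 0⟩, 0⟩ 0 0))) (.pos 45 .mp ⟨58807573, 0, 0, 0, 0, 0, 0, 0, 0, ⟨0, 0⟩, 0⟩ 0 0)) (.pos 22 .mp ⟨47146764, 0, 0, 0, 0, 0, 0, 0, 0, ⟨0, 0⟩, 0⟩ 0 0)))) (.cut .s 11993088 (.pos 20 .mp ⟨51688211, 0, 0, 0, 0, 0, 0, 0, 0, ⟨0, 0⟩, 0⟩ 0 0) (.pos 20 .mp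 ⟨63795540, 0, 0, 0, 0, 0, 0, 0, 0, ⟨0, 0⟩, 0⟩ 0 0)))))))) (.void 18 ⟨100000, 0, 0, 0, 0, 0, 0, 0, 0, ⟨0, 0⟩, 0⟩ 0 0)) (.void 16 ⟨100000, 0, 0, 0, 0, 0, 0, 0, 0, ⟨0, 0⟩, 0⟩ 0 0)) (.void 37 ⟨100000, 0, 0, 0, 0, 0, 0, 0, 0, ⟨0, 0⟩, 0⟩ 0 0)) (.void 50 ⟨100000, 0, 0, 0, 0, 0, 0, 0, 0, ⟨0, 0⟩, 0⟩ 0 0))) (.cut .v 16777216 (.cut .v 8388608 (.cut .v 4194304 (.void 4 ⟨0, 0, 50000, 0, 50000, 0, 0, 0, 0, ⟨0, 0⟩, 0⟩ 0 0) (.cut .d 3608508 (.pos 5 .pm ⟨0, 0, 0, 0, 0, 0, 0, 0, 1415346, ⟨0, 0⟩, 9975792⟩ 0 0) (.pos 5 .pm ⟨0, 10471868, 0, 0, 0, 0, 0, 0, 8223897, ⟨0, 0⟩, 9975792⟩ 0 0))) (.cut .d 3608508 (.pos 3 .pm ⟨0, 0, 0, 0, 0, 0, 0, 0, 0, ⟨0, 0⟩, 0⟩ 0 0) (.cut .v 12582912 (.cut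 .d 5412762 (.cut .v 10485760 (.cut .d 4510635 (.pos 61 .pm ⟨0, 0, 0, 0, 0, 0, 0, 0, 0, ⟨0, 0⟩, 0⟩ 0 0) (.cut .d 4961698 (.pos 61 .pm ⟨0, 0, 0, 0, 0, 0, 0, 0, 2432926, ⟨0, 0⟩, 12543895⟩ 0 0) (.pos 61 .pm ⟨0, 16412092, 0, 0, 0, 0, 0, 0, 4008798, ⟨0, 0⟩, 12543895⟩ 0 0))) (.pos 62 .pm ⟨0, 7736045, 0, 0, 0, 0, 0, 0, 493637, ⟨0, 0⟩, 13882102⟩ 0 0)) (.cut .v 10485760 (.pos 61 .pm ⟨0, 27771836, 0, 0, 0, 0, 0, 0, 6101764, ⟨0, 0⟩, 12543895⟩ 0 0) (.pos 62 .pm ⟨0, 23313789, 0, 0, 0, 0, 0, 0, 4924752, ⟨0, 0⟩, 13882102⟩ 0 0))) (.pos 7 .pm ⟨0, 14564985, 0, 0, 0, 0, 0, 0, 0, ⟨0, 0⟩, 0⟩ 0 0)))) (.cut .v 67108864 (.cut .d 3608508 (.cut .d 1804254 (.cut .v 33554432 (.cut .v 25165824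 (.cut .v 20971520 (.cut .v 18874368 (.pos 19 .pp ⟨22002408, 0, 0, 0, 0, 0, 0, 0, 0, ⟨0, 0⟩, 0⟩ 0 0) (.pos 20 .pp ⟨38598791, 0, 0, 0, 0, 0, 0, 0, 0, ⟨0, 0⟩, 0⟩ 0 0)) (.pos 18 .pp ⟨58019655, 0, 0, 0, 0, 0, 0, 0, 0, ⟨0, 0⟩, 0⟩ 0 0)) (.pos 16 .pp ⟨118962244, 0, 0, 0, 0, 0, 0, 0, 0, ⟨0, 0⟩, 0⟩ 0 0)) (.cut .d 902127 (.void 37 ⟨100000, 0, 0, 0, 0, 0, 0, 0, 0, ⟨0, 0⟩, 0⟩ 0 0) (.pos 37 .pp ⟨309078665, 0, 0, 0, 0, 0, 0, 0, 0, ⟨0, 0⟩, 0⟩ 0 0))) (.pos 36 .pp ⟨0, 0, 0, 0, 0, 0, 0, 0, 0, ⟨0, 0⟩, 0⟩ 0 0)) (.pos 36 .pp ⟨0, 0, 0, 0, 0, 0, 0, 0, 0, ⟨0, 0⟩, 0⟩ 0 0)) (.void 50 ⟨79771, 0, 0, 20229, 0, 0, 0, 0, 0, ⟨0, 0⟩, 0⟩ 0 0)))),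
    by decide +kernel⟩

def covers18 : cell.Covers table row18.1 :=
  ⟨(.cut .d 0 (.cut .v 16777216 (.cut .v 8388608 (.void 2 ⟨0, 0, 100000, 0, 0, 0, 0, 0, 0, ⟨0, 0⟩, 0⟩ 0 0) (.cut .d (-8388608) (.void 3 ⟨0, 0, 0, 0, 0, 100000, 0, 0, 0, ⟨0, 0⟩, 0⟩ 0 0) (.cut .d (-4194304) (.void 3 ⟨0, 0, 0, 0, 0, 100000, 0, 0, 0, ⟨0, 0⟩, 0⟩ 0 0) (.cut .d (-2097152) (.void 3 ⟨0, 0, 0, 0, 0, 100000, 0, 0, 0, ⟨0, 0⟩, 0⟩ 0 0) (.cut .d (-1048576) (.void 3 ⟨0, 0, 0, 0, 0, 100000, 0, 0, 0, ⟨0, 0⟩, 0⟩ 0 0) (.cut .d (-524288) (.void 3 ⟨0, 0, 0, 0, 0, 100000, 0, 0, 0, ⟨0, 0⟩, 0⟩ 0 0) (.cut .s 12484608 (.pos 3 .mm ⟨0, 0, 0, 0, 0, 86951548, 0, 0, 0, ⟨0, 0⟩, 0⟩ 0 0) (.pos 3 .mm ⟨0, 0, 0, 0,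 0, 106943255, 0, 0, 0, ⟨0, 0⟩, 0⟩ 0 0)))))))) (.cut .v 67108864 (.cut .v 33554432 (.cut .v 25165824 (.cut .v 20971520 (.cut .d (-8388608) (.void 17 ⟨100000, 0, 0, 0, 0, 0, 0, 0, 0, ⟨0, 0⟩, 0⟩ 0 0) (.cut .d (-4194304) (.void 17 ⟨100000, 0, 0, 0, 0, 0, 0, 0, 0, ⟨0, 0⟩, 0⟩ 0 0) (.cut .d (-2097152) (.void 17 ⟨100000, 0, 0, 0, 0, 0, 0, 0, 0, ⟨0, 0⟩, 0⟩ 0 0) (.cut .d (-1048576) (.void 17 ⟨0, 0, 0, 0, 0, 100000, 0, 0, 0, ⟨0, 0⟩, 0⟩ 0 0) (.cut .d (-524288) (.void 17 ⟨0, 0, 0, 0, 0, 100000, 0, 0, 0, ⟨0, 0⟩, 0⟩ 0 0) (.cut .v 18874368 (.cut .d (-262144) (.cut .v 17825792 (.cut .l 2125114 (.pos 21 .mp ⟨30476905, 0, 0, 0, 0, 100902575, 0, 0, 0, ⟨0, 0⟩, 0⟩ 0 0) (.cut .s 12484608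 (.cut .v 17301504 (.pos 23 .mp ⟨0, 0, 0, 0, 0, 98519448, 0, 0, 0, ⟨0, 0⟩, 0⟩ 0 0) (.cut .v 17563648 (.pos 55 .mp ⟨0, 0, 0, 0, 0, 102765794, 0, 0, 0, ⟨0, 0⟩, 0⟩ 0 0) (.cut .d (-393216) (.cut .s 12369920 (.pos 56 .mp ⟨33165129, 0, 0, 0, 0, 46443250, 0, 0, 0, ⟨0, 0⟩, 0⟩ 0 0) (.pos 56 .mp ⟨33420223, 0, 0, 0, 0, 56642391, 0, 0, 0, ⟨0, 0⟩, 0⟩ 0 0)) (.cut .s 12369920 (.pos 56 .mp ⟨42615694, 0, 0, 0, 0, 22430045, 0, 0, 0, ⟨0, 0⟩, 0⟩ 0 0) (.pos 56 .mp ⟨47112406, 0, 0, 0, 0, 24106184, 0, 0, 0, ⟨0, 0⟩, 0⟩ 0 0))))) (.cut .v 17301504 (.pos 23 .mp ⟨0, 0, 0, 0, 0, 121417674, 0, 0, 0, ⟨0, 0⟩, 0⟩ 0 0) (.cut .s 12599296 (.cut .d (-393216) (.pos 24 .mp ⟨34049517, 0, 0, 0, 0, 67230457,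 0, 0, 0, ⟨0, 0⟩, 0⟩ 0 0) (.cut .s 12541952 (.pos 24 .mp ⟨33161737, 0, 0, 0, 0, 60143788, 0, 0, 0, ⟨0, 0⟩, 0⟩ 0 0) (.pos 24 .mp ⟨34875752, 0, 0, 0, 0, 62795510, 0, 0, 0, ⟨0, 0⟩, 0⟩ 0 0))) (.cut .d (-393216) (.pos 24 .mp ⟨26734191, 0, 0, 0, 0, 93156616, 0, 0, 0, ⟨0, 0⟩, 0⟩ 0 0) (.cut .s 12656640 (.pos 24 .mp ⟨36664279, 0, 0, 0, 0, 65572292, 0, 0, 0, ⟨0, 0⟩, 0⟩ 0 0) (.pos 24 .mp ⟨38530265, 0, 0, 0, 0, 68473062, 0, 0, 0, ⟨0, 0⟩, 0⟩ 0 0))))))) (.cut .v 18350080 (.cut .l 2125114 (.void 44 ⟨100000, 0, 0, 0, 0, 0, 0, 0, 0, ⟨0, 0⟩, 0⟩ 0 0) (.cut .s 12484608 (.cut .d (-393216) (.cut .d (-458752) (.pos 44 .mp ⟨47099801, 0, 0, 0, 0, 49530344, 0, 0, 0, ⟨0, 0⟩, 0⟩ 0 0) (.cut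 .s 12369920 (.pos 44 .mp ⟨46974226, 0, 0, 0, 0, 22409170, 0, 0, 0, ⟨0, 0⟩, 0⟩ 0 0) (.pos 44 .mp ⟨51064447, 0, 0, 0, 0, 27183341, 0, 0, 0, ⟨0, 0⟩, 0⟩ 0 0))) (.pos 44 .mp ⟨59500629, 0, 0, 0, 0, 0, 0, 0, 0, ⟨0, 0⟩, 0⟩ 0 0)) (.cut .d (-393216) (.cut .s 12599296 (.cut .s 12541952 (.pos 44 .mp ⟨58329260, 0, 0, 0, 0, 27691389, 0, 0, 0, ⟨0, 0⟩, 0⟩ 0 0) (.pos 44 .mp ⟨61338383, 0, 0, 0, 0, 28866204, 0, 0, 0, ⟨0, 0⟩, 0⟩ 0 0)) (.pos 44 .mp ⟨67785546, 0, 0, 0, 0, 29490130, 0, 0, 0, ⟨0, 0⟩, 0⟩ 0 0)) (.pos 44 .mp ⟨72091587, 0, 0, 0, 0, 0, 0, 0, 0, ⟨0, 0⟩, 0⟩ 0 0)))) (.pos 45 .mp ⟨81764864, 0, 0, 0, 0, 0, 0, 0, 0, ⟨0, 0⟩, 0⟩ 0 0))) (.cut .s 12484608 (.cut .v 17825792 (.cut .l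 2125114 (.cut .v 17301504 (.cut .d (-131072) (.cut .l 1370139 (.pos 23 .mp ⟨25045908, 0, 0, 0, 0, 62947126, 0, 0, 0, ⟨0, 0⟩, 0⟩ 0 0) (.pos 23 .mp ⟨15374578, 0, 0, 0, 0, 69096787, 0, 0, 0, ⟨0, 0⟩, 0⟩ 0 0)) (.cut .d (-65536) (.cut .l 1370139 (.cut .l 992651 (.cut .v 17039360 (.cut .s 12369920 (.pos 46 .mp ⟨23813193, 0, 0, 0, 0, 46239191, 0, 0, 0, ⟨0, 0⟩, 0⟩ 0 0) (.pos 46 .mp ⟨26416924, 0, 0, 0, 0, 50792400, 0, 0, 0, ⟨0, 0⟩, 0⟩ 0 0)) (.cut .s 12369920 (.pos 47 .mp ⟨31653006, 0, 0, 0, 0, 34486956, 0, 0, 0, ⟨0, 0⟩, 0⟩ 0 0) (.pos 47 .mp ⟨34892634, 0, 0, 0, 0, 37689225, 0, 0, 0, ⟨0, 0⟩, 0⟩ 0 0))) (.pos 23 .mp ⟨31135477, 0, 0, 0, 0, 25074092, 0, 0, 0, ⟨0, 0⟩, 0⟩ 0 0))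 (.pos 23 .mp ⟨0, 0, 0, 0, 0, 0, 0, 0, 0, ⟨0, 0⟩, 0⟩ 0 0)) (.pos 23 .mp ⟨29027833, 0, 0, 0, 0, 0, 0, 0, 0, ⟨0, 0⟩, 0⟩ 0 0))) (.cut .s 12369920 (.pos 24 .mp ⟨53420895, 0, 0, 0, 0, 0, 0, 0, 0, ⟨0, 0⟩, 0⟩ 0 0) (.pos 24 .mp ⟨58485709, 0, 0, 0, 0, 0, 0, 0, 0, ⟨0, 0⟩, 0⟩ 0 0))) (.pos 21 .mp ⟨34557438, 0, 0, 0, 0, 20675018, 0, 0, 0, ⟨0, 0⟩, 0⟩ 0 0)) (.pos 22 .mp ⟨57430640, 0, 0, 0, 0, 0, 0, 0, 0, ⟨0, 0⟩, 0⟩ 0 0)) (.cut .v 17825792 (.cut .l 2125114 (.cut .v 17301504 (.cut .d (-131072) (.cut .l 1370139 (.pos 23 .mp ⟨30530650, 0, 0, 0, 0, 75835873, 0, 0, 0, ⟨0, 0⟩, 0⟩ 0 0) (.pos 23 .mp ⟨14072032, 0, 0, 0, 0, 91976850, 0, 0, 0, ⟨0, 0⟩, 0⟩ 0 0)) (.cut .l 1370139 (.cut .d (-65536)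 (.cut .v 17039360 (.cut .s 12599296 (.pos 46 .mp ⟨29241189, 0, 0, 0, 0, 56351206, 0, 0, 0, ⟨0, 0⟩, 0⟩ 0 0) (.pos 46 .mp ⟨32307132, 0, 0, 0, 0, 61119696, 0, 0, 0, ⟨0, 0⟩, 0⟩ 0 0)) (.cut .s 12599296 (.pos 47 .mp ⟨38409889, 0, 0, 0, 0, 40776762, 0, 0, 0, ⟨0, 0⟩, 0⟩ 0 0) (.pos 47 .mp ⟨42227082, 0, 0, 0, 0, 44519255, 0, 0, 0, ⟨0, 0⟩, 0⟩ 0 0))) (.cut .v 17039360 (.cut .s 12599296 (.pos 46 .mp ⟨29838067, 0, 0, 0, 0, 40680745, 0, 0, 0, ⟨0, 0⟩, 0⟩ 0 0) (.pos 46 .mp ⟨32943418, 0, 0, 0, 0, 44699335, 0, 0, 0, ⟨0, 0⟩, 0⟩ 0 0)) (.pos 47 .mp ⟨58271993, 0, 0, 0, 0, 0, 0, 0, 0, ⟨0, 0⟩, 0⟩ 0 0))) (.pos 23 .mp ⟨0, 0, 0, 0, 0, 0, 0, 0, 0, ⟨0, 0⟩, 0⟩ 0 0))) (.cut .s 12599296 (.pos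 24 .mp ⟨64049736, 0, 0, 0, 0, 0, 0, 0, 0, ⟨0, 0⟩, 0⟩ 0 0) (.pos 24 .mp ⟨69899328, 0, 0, 0, 0, 373536, 0, 0, 0, ⟨0, 0⟩, 0⟩ 0 0))) (.cut .v 17301504 (.pos 23 .mp ⟨0, 0, 0, 0, 0, 96126121, 0, 0, 0, ⟨0, 0⟩, 0⟩ 0 0) (.pos 24 .mp ⟨48371051, 0, 0, 0, 0, 22956002, 0, 0, 0, ⟨0, 0⟩, 0⟩ 0 0))) (.pos 22 .mp ⟨68802054, 0, 0, 0, 0, 0, 0, 0, 0, ⟨0, 0⟩, 0⟩ 0 0)))) (.cut .s 12484608 (.pos 20 .mp ⟨77052610, 0, 0, 0, 0, 0, 0, 0, 0, ⟨0, 0⟩, 0⟩ 0 0) (.pos 20 .mp ⟨92331991, 0, 0, 0, 0, 0, 0, 0, 0, ⟨0, 0⟩, 0⟩ 0 0)))))))) (.void 18 ⟨100000, 0, 0, 0, 0, 0, 0, 0, 0, ⟨0, 0⟩, 0⟩ 0 0)) (.void 16 ⟨100000, 0, 0, 0, 0, 0, 0, 0, 0, ⟨0, 0⟩, 0⟩ 0 0)) (.void 37 ⟨100000, 0, 0, 0, 0, 0, 0, 0, 0, ⟨0,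 0⟩, 0⟩ 0 0)) (.void 50 ⟨100000, 0, 0, 0, 0, 0, 0, 0, 0, ⟨0, 0⟩, 0⟩ 0 0))) (.cut .v 16777216 (.cut .v 8388608 (.cut .v 4194304 (.pos 4 .pm ⟨0, 0, 15847365, 0, 10254041, 0, 0, 0, 13157404, ⟨0, 0⟩, 3966728⟩ 0 0) (.cut .d 3095263 (.pos 5 .pm ⟨0, 0, 0, 0, 0, 0, 0, 0, 274115, ⟨0, 0⟩, 9975792⟩ 0 0) (.cut .v 6291456 (.pos 59 .pm ⟨0, 0, 0, 0, 0, 0, 0, 0, 18970723, ⟨0, 0⟩, 9283521⟩ 0 0) (.cut .d 4642894 (.cut .v 7340032 (.pos 69 .pm ⟨0, 9329126, 0, 0, 0, 0, 0, 0, 8359809, ⟨0, 0⟩, 10677565⟩ 0 0) (.pos 70 .pm ⟨0, 12685424, 0, 0, 0, 0, 0, 0, 73605, ⟨0, 0⟩, 11473790⟩ 0 0)) (.cut .s 12484608 (.pos 60 .pm ⟨0, 17704582, 0, 0, 0, 0, 0, 0, 8072869, ⟨0, 0⟩, 11040029⟩ 0 0) (.cut .d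 5416710 (.cut .s 12599296 (.cut .d 5029802 (.pos 60 .pm ⟨0, 24230668, 0, 0, 0, 0, 0, 0, 1579805, ⟨0, 0⟩, 11040029⟩ 0 0) (.void 60 ⟨0, 94875, 0, 0, 0, 0, 0, 0, 5125, ⟨0, 0⟩, 11040029⟩ 0 0)) (.pos 60 .pm ⟨0, 30722870, 0, 0, 0, 0, 0, 0, 2355497, ⟨0, 0⟩, 11040029⟩ 0 0)) (.void 60 ⟨0, 0, 0, 76685, 0, 0, 0, 0, 23315, ⟨0, 0⟩, 11040029⟩ 0 0))))))) (.cut .d 3095263 (.pos 3 .pm ⟨0, 0, 0, 0, 0, 0, 0, 0, 0, ⟨0, 0⟩, 0⟩ 0 0) (.cut .v 12582912 (.cut .d 4642894 (.pos 6 .pm ⟨0, 10361378, 0, 0, 0, 0, 0, 0, 0, ⟨0, 0⟩, 0⟩ 0 0) (.cut .d 5416710 (.cut .v 10485760 (.cut .v 9437184 (.cut .d 5029802 (.cut .s 12484608 (.pos 63 .pm ⟨0, 19500801, 0, 0, 0, 0, 0, 0, 2151339, ⟨0, 0⟩, 12217800⟩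 0 0) (.pos 63 .pm ⟨0, 24746593, 0, 0, 0, 0, 0, 0, 0, ⟨0, 0⟩, 0⟩ 0 0)) (.pos 63 .pm ⟨0, 37056045, 0, 0, 0, 0, 0, 0, 4556305, ⟨0, 0⟩, 12217800⟩ 0 0)) (.pos 64 .pm ⟨0, 23810342, 0, 0, 0, 0, 0, 0, 0, ⟨0, 0⟩, 0⟩ 0 0)) (.pos 62 .pm ⟨0, 21731250, 0, 0, 0, 0, 0, 0, 0, ⟨0, 0⟩, 0⟩ 0 0)) (.void 6 ⟨0, 100000, 0, 0, 0, 0, 0, 0, 0, ⟨0, 0⟩, 0⟩ 0 0))) (.pos 7 .pm ⟨0, 19729610, 0, 0, 0, 0, 0, 0, 0, ⟨0, 0⟩, 0⟩ 0 0)))) (.cut .v 67108864 (.cut .d 3095263 (.cut .d 1547631 (.cut .v 33554432 (.cut .v 25165824 (.cut .v 20971520 (.cut .v 18874368 (.pos 19 .pp ⟨33279255, 0, 0, 0, 0, 0, 0, 0, 0, ⟨0, 0⟩, 0⟩ 0 0) (.pos 20 .pp ⟨56699636, 0, 0, 0, 0, 0, 0, 0, 0, ⟨0, 0⟩, 0⟩ 0 0)) (.pos 18 .pp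 ⟨82730946, 0, 0, 0, 0, 0, 0, 0, 0, ⟨0, 0⟩, 0⟩ 0 0)) (.pos 16 .pp ⟨163833713, 0, 0, 0, 0, 0, 0, 0, 0, ⟨0, 0⟩, 0⟩ 0 0)) (.cut .d 773815 (.void 37 ⟨100000, 0, 0, 0, 0, 0, 0, 0, 0, ⟨0, 0⟩, 0⟩ 0 0) (.pos 37 .pp ⟨473506552, 0, 0, 0, 0, 0, 0, 0, 0, ⟨0, 0⟩, 0⟩ 0 0))) (.pos 36 .pp ⟨0, 0, 0, 0, 0, 0, 0, 0, 0, ⟨0, 0⟩, 0⟩ 0 0)) (.pos 36 .pp ⟨0, 0, 0, 0, 0, 0, 0, 0, 0, ⟨0, 0⟩, 0⟩ 0 0)) (.void 50 ⟨79588, 0, 0, 20412, 0, 0, 0, 0, 0, ⟨0, 0⟩, 0⟩ 0 0)))),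
    by decide +kernel⟩

def covers19 : cell.Covers table row19.1 :=
  ⟨(.cut .d 0 (.cut .v 16777216 (.cut .v 8388608 (.void 2 ⟨0, 0, 100000, 0, 0, 0, 0, 0, 0, ⟨0, 0⟩, 0⟩ 0 0) (.cut .d (-8388608) (.void 3 ⟨0, 0, 0, 0, 0, 100000, 0, 0, 0, ⟨0, 0⟩, 0⟩ 0 0) (.cut .d (-4194304) (.void 3 ⟨0, 0, 0, 0, 0, 100000, 0, 0, 0, ⟨0, 0⟩, 0⟩ 0 0) (.cut .d (-2097152) (.void 3 ⟨0, 0, 0, 0, 0, 100000, 0, 0, 0, ⟨0, 0⟩, 0⟩ 0 0) (.cut .d (-1048576) (.void 3 ⟨0, 0, 0, 0, 0, 100000, 0, 0, 0, ⟨0, 0⟩, 0⟩ 0 0) (.cut .d (-524288) (.void 3 ⟨0, 0, 0, 0, 0, 100000, 0, 0, 0, ⟨0, 0⟩, 0⟩ 0 0) (.cut .d (-262144) (.pos 3 .mm ⟨0, 0, 0, 0, 0, 178289950, 0, 0, 0, ⟨0, 0⟩, 0⟩ 0 0) (.cut .s 12976128 (.pos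 3 .mm ⟨0, 0, 0, 0, 0, 127039326, 0, 0, 0, ⟨0, 0⟩, 0⟩ 0 0) (.pos 3 .mm ⟨0, 0, 0, 0, 0, 160308420, 0, 0, 0, ⟨0, 0⟩, 0⟩ 0 0))))))))) (.cut .v 268435456 (.cut .v 67108864 (.cut .v 33554432 (.cut .v 25165824 (.cut .d (-8388608) (.void 15 ⟨100000, 0, 0, 0, 0, 0, 0, 0, 0, ⟨0, 0⟩, 0⟩ 0 0) (.cut .v 20971520 (.cut .d (-4194304) (.void 17 ⟨100000, 0, 0, 0, 0, 0, 0, 0, 0, ⟨0, 0⟩, 0⟩ 0 0) (.cut .d (-2097152) (.void 17 ⟨100000, 0, 0, 0, 0, 0, 0, 0, 0, ⟨0, 0⟩, 0⟩ 0 0) (.cut .d (-1048576) (.void 17 ⟨100000, 0, 0, 0, 0, 0, 0, 0, 0, ⟨0, 0⟩, 0⟩ 0 0) (.cut .d (-524288) (.void 17 ⟨0, 0, 0, 0, 0, 100000, 0, 0, 0, ⟨0, 0⟩, 0⟩ 0 0) (.cut .v 18874368 (.cut .d (-262144) (.cut .l 2125114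 (.void 19 ⟨0, 0, 0, 0, 0, 100000, 0, 0, 0, ⟨0, 0⟩, 0⟩ 0 0) (.cut .v 17825792 (.cut .d (-393216) (.pos 21 .mp ⟨0, 0, 0, 0, 0, 219240986, 0, 0, 0, ⟨0, 0⟩, 0⟩ 0 0) (.cut .s 12976128 (.cut .v 17301504 (.pos 23 .mp ⟨0, 0, 0, 0, 0, 150653536, 0, 0, 0, ⟨0, 0⟩, 0⟩ 0 0) (.cut .s 12845056 (.cut .s 12779520 (.pos 24 .mp ⟨40490454, 0, 0, 0, 0, 72291461, 0, 0, 0, ⟨0, 0⟩, 0⟩ 0 0) (.pos 24 .mp ⟨42853079, 0, 0, 0, 0, 75905928, 0, 0, 0, ⟨0, 0⟩, 0⟩ 0 0)) (.cut .s 12910592 (.pos 24 .mp ⟨45339906, 0, 0, 0, 0, 79797003, 0, 0, 0, ⟨0, 0⟩, 0⟩ 0 0) (.pos 24 .mp ⟨47956945, 0, 0, 0, 0, 83963621, 0, 0, 0, ⟨0, 0⟩, 0⟩ 0 0)))) (.cut .l 2880089 (.pos 21 .mp ⟨51866192, 0, 0, 0, 0, 117029804,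 0, 0, 0, ⟨0, 0⟩, 0⟩ 0 0) (.cut .v 17301504 (.pos 23 .mp ⟨0, 0, 0, 0, 0, 178406615, 0, 0, 0, ⟨0, 0⟩, 0⟩ 0 0) (.cut .v 17563648 (.pos 55 .mp ⟨0, 0, 0, 0, 0, 185551422, 0, 0, 0, ⟨0, 0⟩, 0⟩ 0 0) (.cut .s 13107200 (.cut .s 13041664 (.pos 56 .mp ⟨52486376, 0, 0, 0, 0, 84865933, 0, 0, 0, ⟨0, 0⟩, 0⟩ 0 0) (.pos 56 .mp ⟨55479650, 0, 0, 0, 0, 89491598, 0, 0, 0, ⟨0, 0⟩, 0⟩ 0 0)) (.cut .s 13172736 (.pos 56 .mp ⟨58628421, 0, 0, 0, 0, 94354683, 0, 0, 0, ⟨0, 0⟩, 0⟩ 0 0) (.pos 56 .mp ⟨61940846, 0, 0, 0, 0, 99444190, 0, 0, 0, ⟨0, 0⟩, 0⟩ 0 0)))))))) (.cut .v 18350080 (.cut .l 2880089 (.pos 44 .mp ⟨126356518, 0, 0, 0, 0, 0, 0, 0, 0, ⟨0, 0⟩, 0⟩ 0 0) (.cut .d (-393216) (.cut .s 12976128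 (.pos 44 .mp ⟨64183230, 0, 0, 0, 0, 81136910, 0, 0, 0, ⟨0, 0⟩, 0⟩ 0 0) (.void 44 ⟨100000, 0, 0, 0, 0, 0, 0, 0, 0, ⟨0, 0⟩, 0⟩ 0 0)) (.cut .s 12976128 (.cut .s 12845056 (.pos 44 .mp ⟨66736373, 0, 0, 0, 0, 31162425, 0, 0, 0, ⟨0, 0⟩, 0⟩ 0 0) (.pos 44 .mp ⟨73385493, 0, 0, 0, 0, 37138458, 0, 0, 0, ⟨0, 0⟩, 0⟩ 0 0)) (.cut .s 13107200 (.cut .s 13041664 (.pos 44 .mp ⟨75697192, 0, 0, 0, 0, 48826148, 0, 0, 0, ⟨0, 0⟩, 0⟩ 0 0) (.pos 44 .mp ⟨80073418, 0, 0, 0, 0, 51354606, 0, 0, 0, ⟨0, 0⟩, 0⟩ 0 0)) (.pos 44 .mp ⟨121491736, 0, 0, 0, 0, 0, 0, 0, 0, ⟨0, 0⟩, 0⟩ 0 0))))) (.pos 45 .mp ⟨127668235, 0, 0, 0, 0, 0, 0, 0, 0, ⟨0, 0⟩, 0⟩ 0 0)))) (.cut .s 12976128 (.cut .v 17825792 (.cut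 .l 2125114 (.cut .d (-131072) (.cut .v 17301504 (.cut .s 12845056 (.pos 23 .mp ⟨33245199, 0, 0, 0, 0, 83323865, 0, 0, 0, ⟨0, 0⟩, 0⟩ 0 0) (.pos 23 .mp ⟨37071710, 0, 0, 0, 0, 92166422, 0, 0, 0, ⟨0, 0⟩, 0⟩ 0 0)) (.cut .s 12845056 (.pos 24 .mp ⟨71140436, 0, 0, 0, 0, 12742342, 0, 0, 0, ⟨0, 0⟩, 0⟩ 0 0) (.pos 24 .mp ⟨76109250, 0, 0, 0, 0, 19387195, 0, 0, 0, ⟨0, 0⟩, 0⟩ 0 0))) (.cut .v 17301504 (.cut .l 1370139 (.cut .d (-65536) (.cut .s 12845056 (.cut .v 17039360 (.pos 46 .mp ⟨34106943, 0, 0, 0, 0, 71080207, 0, 0, 0, ⟨0, 0⟩, 0⟩ 0 0) (.pos 47 .mp ⟨47010689, 0, 0, 0, 0, 48503751, 0, 0, 0, ⟨0, 0⟩, 0⟩ 0 0)) (.cut .v 17039360 (.pos 46 .mp ⟨37108219, 0, 0, 0, 0, 80844044, 0,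 0, 0, ⟨0, 0⟩, 0⟩ 0 0) (.cut .s 12910592 (.pos 47 .mp ⟨51673507, 0, 0, 0, 0, 51169986, 0, 0, 0, ⟨0, 0⟩, 0⟩ 0 0) (.pos 47 .mp ⟨53640611, 0, 0, 0, 0, 55420344, 0, 0, 0, ⟨0, 0⟩, 0⟩ 0 0)))) (.cut .v 17039360 (.cut .v 16908288 (.pos 53 .mp ⟨0, 0, 0, 0, 0, 108226876, 0, 0, 0, ⟨0, 0⟩, 0⟩ 0 0) (.cut .s 12845056 (.pos 54 .mp ⟨39480689, 0, 0, 0, 0, 46478765, 0, 0, 0, ⟨0, 0⟩, 0⟩ 0 0) (.cut .s 12910592 (.pos 54 .mp ⟨41594403, 0, 0, 0, 0, 55382969, 0, 0, 0, ⟨0, 0⟩, 0⟩ 0 0) (.pos 54 .mp ⟨43806963, 0, 0, 0, 0, 58748814, 0, 0, 0, ⟨0, 0⟩, 0⟩ 0 0)))) (.pos 47 .mp ⟨70345171, 0, 0, 0, 0, 0, 0, 0, 0, ⟨0, 0⟩, 0⟩ 0 0))) (.pos 23 .mp ⟨42753907, 0, 0, 0, 0, 0, 0, 0, 0, ⟨0, 0⟩, 0⟩ 0 0))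 (.pos 24 .mp ⟨76629402, 0, 0, 0, 0, 0, 0, 0, 0, ⟨0, 0⟩, 0⟩ 0 0))) (.cut .v 17301504 (.pos 23 .mp ⟨0, 0, 0, 0, 0, 120288740, 0, 0, 0, ⟨0, 0⟩, 0⟩ 0 0) (.cut .s 12845056 (.pos 24 .mp ⟨54064264, 0, 0, 0, 0, 34550009, 0, 0, 0, ⟨0, 0⟩, 0⟩ 0 0) (.pos 24 .mp ⟨60369396, 0, 0, 0, 0, 37770573, 0, 0, 0, ⟨0, 0⟩, 0⟩ 0 0)))) (.pos 22 .mp ⟨83604877, 0, 0, 0, 0, 0, 0, 0, 0, ⟨0, 0⟩, 0⟩ 0 0)) (.cut .v 17825792 (.cut .d (-131072) (.cut .l 2125114 (.cut .l 1370139 (.pos 21 .mp ⟨49086842, 0, 0, 0, 0, 184016314, 0, 0, 0, ⟨0, 0⟩, 0⟩ 0 0) (.cut .d (-196608) (.pos 21 .mp ⟨50478008, 0, 0, 0, 0, 121608494, 0, 0, 0, ⟨0, 0⟩, 0⟩ 0 0) (.cut .v 17301504 (.pos 23 .mp ⟨41275085, 0, 0, 0, 0, 104110528,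 0, 0, 0, ⟨0, 0⟩, 0⟩ 0 0) (.pos 24 .mp ⟨98057754, 0, 0, 0, 0, 0, 0, 0, 0, ⟨0, 0⟩, 0⟩ 0 0)))) (.cut .v 17301504 (.pos 23 .mp ⟨0, 0, 0, 0, 0, 161265177, 0, 0, 0, ⟨0, 0⟩, 0⟩ 0 0) (.cut .s 13107200 (.pos 24 .mp ⟨67362857, 0, 0, 0, 0, 42891841, 0, 0, 0, ⟨0, 0⟩, 0⟩ 0 0) (.pos 24 .mp ⟨74377674, 0, 0, 0, 0, 49254002, 0, 0, 0, ⟨0, 0⟩, 0⟩ 0 0)))) (.cut .l 2125114 (.cut .v 17301504 (.cut .l 1370139 (.cut .d (-65536) (.cut .s 13107200 (.cut .s 13041664 (.cut .s 13008896 (.pos 23 .mp ⟨45451019, 0, 0, 0, 0, 77558312, 0, 0, 0, ⟨0, 0⟩, 0⟩ 0 0) (.pos 23 .mp ⟨46650181, 0, 0, 0, 0, 79585740, 0, 0, 0, ⟨0, 0⟩, 0⟩ 0 0)) (.pos 23 .mp ⟨46552667, 0, 0, 0, 0, 87723760, 0, 0, 0, ⟨0, 0⟩,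 0⟩ 0 0)) (.cut .s 13172736 (.pos 23 .mp ⟨48940251, 0, 0, 0, 0, 92835513, 0, 0, 0, ⟨0, 0⟩, 0⟩ 0 0) (.pos 23 .mp ⟨51521878, 0, 0, 0, 0, 98032894, 0, 0, 0, ⟨0, 0⟩, 0⟩ 0 0))) (.cut .v 17039360 (.cut .d (-32768) (.cut .s 13107200 (.cut .s 13041664 (.pos 46 .mp ⟨40115570, 0, 0, 0, 0, 76785836, 0, 0, 0, ⟨0, 0⟩, 0⟩ 0 0) (.pos 46 .mp ⟨42204248, 0, 0, 0, 0, 81431430, 0, 0, 0, ⟨0, 0⟩, 0⟩ 0 0)) (.pos 46 .mp ⟨44387492, 0, 0, 0, 0, 89481851, 0, 0, 0, ⟨0, 0⟩, 0⟩ 0 0)) (.pos 46 .mp ⟨0, 0, 0, 0, 0, 0, 0, 0, 0, ⟨0, 0⟩, 0⟩ 0 0)) (.pos 47 .mp ⟨86262000, 0, 0, 0, 0, 0, 0, 0, 0, ⟨0, 0⟩, 0⟩ 0 0))) (.pos 23 .mp ⟨49529180, 0, 0, 0, 0, 55537816, 0, 0, 0, ⟨0, 0⟩, 0⟩ 0 0)) (.pos 24 .mp ⟨94059990,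 0, 0, 0, 0, 0, 0, 0, 0, ⟨0, 0⟩, 0⟩ 0 0)) (.pos 21 .mp ⟨0, 0, 0, 0, 0, 0, 0, 0, 0, ⟨0, 0⟩, 0⟩ 0 0))) (.pos 22 .mp ⟨102788145, 0, 0, 0, 0, 0, 0, 0, 0, ⟨0, 0⟩, 0⟩ 0 0)))) (.cut .s 12976128 (.pos 20 .mp ⟨112990981, 0, 0, 0, 0, 0, 0, 0, 0, ⟨0, 0⟩, 0⟩ 0 0) (.pos 20 .mp ⟨138541309, 0, 0, 0, 0, 0, 0, 0, 0, ⟨0, 0⟩, 0⟩ 0 0))))))) (.void 18 ⟨100000, 0, 0, 0, 0, 0, 0, 0, 0, ⟨0, 0⟩, 0⟩ 0 0))) (.void 16 ⟨100000, 0, 0, 0, 0, 0, 0, 0, 0, ⟨0, 0⟩, 0⟩ 0 0)) (.void 37 ⟨100000, 0, 0, 0, 0, 0, 0, 0, 0, ⟨0, 0⟩, 0⟩ 0 0)) (.void 50 ⟨100000, 0, 0, 0, 0, 0, 0, 0, 0, ⟨0, 0⟩, 0⟩ 0 0)) (.void 75 ⟨89870, 0, 0, 10130, 0, 0, 0, 0, 0, ⟨0, 0⟩, 0⟩ 0 0))) (.cut .v 16777216 (.cut .v 8388608 (.cut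 .v 4194304 (.cut .v 2097152 (.void 78 ⟨0, 0, 50000, 0, 50000, 0, 0, 0, 0, ⟨0, 0⟩, 0⟩ 0 0) (.pos 79 .pm ⟨0, 0, 2833151, 0, 0, 0, 0, 0, 10657020, ⟨0, 0⟩, 7053950⟩ 0 0)) (.cut .d 2680896 (.pos 5 .pm ⟨0, 0, 1094124, 0, 0, 0, 0, 0, 0, ⟨0, 0⟩, 0⟩ 0 0) (.cut .d 4021344 (.pos 5 .pm ⟨0, 15490010, 0, 0, 0, 0, 0, 0, 0, ⟨0, 0⟩, 0⟩ 0 0) (.cut .d 4691568 (.cut .v 6291456 (.pos 59 .pm ⟨0, 35864927, 0, 0, 0, 0, 0, 0, 4887600, ⟨0, 0⟩, 9283521⟩ 0 0) (.cut .s 12976128 (.cut .v 7340032 (.pos 69 .pm ⟨0, 26152471, 0, 0, 0, 0, 0, 0, 0, ⟨0, 0⟩, 0⟩ 0 0) (.pos 70 .pm ⟨0, 26706693, 0, 0, 0, 0, 0, 0, 0, ⟨0, 0⟩, 0⟩ 0 0)) (.pos 60 .pm ⟨0, 37268613, 0, 0, 0, 0, 0, 0, 0, ⟨0, 0⟩, 0⟩ 0 0))) (.pos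 5 .pm ⟨0, 244536921, 0, 0, 0, 0, 0, 0, 8706178, ⟨0, 0⟩, 9975792⟩ 0 0))))) (.cut .d 2680896 (.pos 3 .pm ⟨0, 0, 0, 0, 0, 0, 0, 0, 0, ⟨0, 0⟩, 0⟩ 0 0) (.cut .d 4021344 (.pos 3 .pm ⟨0, 7256218, 0, 0, 0, 0, 0, 0, 0, ⟨0, 0⟩, 0⟩ 0 0) (.cut .d 4691568 (.pos 3 .pm ⟨0, 30528052, 0, 0, 0, 0, 0, 0, 0, ⟨0, 0⟩, 0⟩ 0 0) (.void 3 ⟨0, 100000, 0, 0, 0, 0, 0, 0, 0, ⟨0, 0⟩, 0⟩ 0 0))))) (.cut .v 268435456 (.cut .v 67108864 (.cut .d 2680896 (.cut .d 1340448 (.cut .v 33554432 (.cut .d 670224 (.cut .v 25165824 (.cut .v 20971520 (.cut .v 18874368 (.pos 19 .pp ⟨48585009, 0, 0, 0, 0, 0, 0, 0, 0, ⟨0, 0⟩, 0⟩ 0 0) (.pos 20 .pp ⟨86531656, 0, 0, 0, 0, 0, 0, 0, 0, ⟨0, 0⟩, 0⟩ 0 0)) (.pos 18 .pp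 ⟨128164985, 0, 0, 0, 0, 0, 0, 0, 0, ⟨0, 0⟩, 0⟩ 0 0)) (.pos 16 .pp ⟨264742995, 0, 0, 0, 0, 0, 0, 0, 0, ⟨0, 0⟩, 0⟩ 0 0)) (.pos 14 .pp ⟨29108817, 0, 0, 0, 0, 0, 0, 0, 0, ⟨0, 0⟩, 0⟩ 0 0)) (.cut .v 50331648 (.pos 65 .pp ⟨645957021, 0, 0, 0, 0, 0, 0, 0, 0, ⟨0, 0⟩, 0⟩ 0 0) (.void 66 ⟨37862, 62138, 0, 0, 0, 0, 0, 0, 0, ⟨0, 0⟩, 0⟩ 0 0))) (.pos 36 .pp ⟨0, 0, 0, 0, 0, 0, 0, 0, 0, ⟨0, 0⟩, 0⟩ 0 0)) (.pos 36 .pp ⟨0, 0, 0, 0, 0, 0, 0, 0, 0, ⟨0, 0⟩, 0⟩ 0 0)) (.void 50 ⟨79273, 0, 0, 20727, 0, 0, 0, 0, 0, ⟨0, 0⟩, 0⟩ 0 0)) (.void 75 ⟨0, 0, 0, 100000, 0, 0, 0, 0, 0, ⟨0, 0⟩, 0⟩ 0 0)))),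
    by decide +kernel⟩

def covers20 : cell.Covers table row20.1 :=
  ⟨(.cut .d 0 (.cut .v 16777216 (.cut .v 8388608 (.void 2 ⟨0, 0, 100000, 0, 0, 0, 0, 0, 0, ⟨0, 0⟩, 0⟩ 0 0) (.cut .d (-8388608) (.void 3 ⟨0, 0, 0, 0, 0, 100000, 0, 0, 0, ⟨0, 0⟩, 0⟩ 0 0) (.cut .d (-4194304) (.void 3 ⟨0, 0, 0, 0, 0, 100000, 0, 0, 0, ⟨0, 0⟩, 0⟩ 0 0) (.cut .d (-2097152) (.void 3 ⟨0, 0, 0, 0, 0, 100000, 0, 0, 0, ⟨0, 0⟩, 0⟩ 0 0) (.cut .d (-1048576) (.void 3 ⟨0, 0, 0, 0, 0, 100000, 0, 0, 0, ⟨0, 0⟩, 0⟩ 0 0) (.cut .d (-524288) (.void 3 ⟨0, 0, 0, 0, 0, 100000, 0, 0, 0, ⟨0, 0⟩, 0⟩ 0 0) (.cut .d (-262144) (.pos 3 .mm ⟨0, 0, 0, 0, 0, 289343959, 0, 0, 0, ⟨0, 0⟩, 0⟩ 0 0) (.cut .l 2125114 (.cut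 .s 13500416 (.pos 3 .mm ⟨0, 0, 0, 0, 0, 203794475, 0, 0, 0, ⟨0, 0⟩, 0⟩ 0 0) (.cut .s 13631488 (.pos 3 .mm ⟨0, 0, 0, 0, 0, 233401264, 0, 0, 0, ⟨0, 0⟩, 0⟩ 0 0) (.pos 3 .mm ⟨0, 0, 0, 0, 0, 261782678, 0, 0, 0, ⟨0, 0⟩, 0⟩ 0 0))) (.pos 3 .mm ⟨0, 0, 0, 0, 0, 191852329, 0, 0, 0, ⟨0, 0⟩, 0⟩ 0 0))))))))) (.cut .v 268435456 (.cut .v 67108864 (.cut .v 33554432 (.cut .v 25165824 (.cut .d (-8388608) (.void 15 ⟨100000, 0, 0, 0, 0, 0, 0, 0, 0, ⟨0, 0⟩, 0⟩ 0 0) (.cut .v 20971520 (.cut .d (-4194304) (.void 17 ⟨100000, 0, 0, 0, 0, 0, 0, 0, 0, ⟨0, 0⟩, 0⟩ 0 0) (.cut .d (-2097152) (.void 17 ⟨100000, 0, 0, 0, 0, 0, 0, 0, 0, ⟨0, 0⟩, 0⟩ 0 0) (.cut .d (-1048576) (.void 17 ⟨100000, 0, 0,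 0, 0, 0, 0, 0, 0, ⟨0, 0⟩, 0⟩ 0 0) (.cut .d (-524288) (.void 17 ⟨0, 0, 0, 0, 0, 100000, 0, 0, 0, ⟨0, 0⟩, 0⟩ 0 0) (.cut .v 18874368 (.cut .d (-262144) (.cut .d (-393216) (.void 19 ⟨0, 0, 0, 0, 0, 100000, 0, 0, 0, ⟨0, 0⟩, 0⟩ 0 0) (.cut .l 2125114 (.void 19 ⟨0, 0, 0, 0, 0, 100000, 0, 0, 0, ⟨0, 0⟩, 0⟩ 0 0) (.cut .l 2880089 (.void 19 ⟨0, 0, 0, 0, 0, 100000, 0, 0, 0, ⟨0, 0⟩, 0⟩ 0 0) (.cut .v 17825792 (.cut .d (-327680) (.pos 21 .mp ⟨66694018, 0, 0, 0, 0, 209795369, 0, 0, 0, ⟨0, 0⟩, 0⟩ 0 0) (.cut .v 17301504 (.pos 23 .mp ⟨0, 0, 0, 0, 0, 266404696, 0, 0, 0, ⟨0, 0⟩, 0⟩ 0 0) (.cut .s 13500416 (.cut .s 13369344 (.pos 24 .mp ⟨63256584, 0, 0, 0, 0, 115572900, 0, 0, 0, ⟨0, 0⟩,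 0⟩ 0 0) (.cut .s 13434880 (.pos 24 .mp ⟨70865757, 0, 0, 0, 0, 119383327, 0, 0, 0, ⟨0, 0⟩, 0⟩ 0 0) (.pos 24 .mp ⟨74991914, 0, 0, 0, 0, 126319948, 0, 0, 0, ⟨0, 0⟩, 0⟩ 0 0))) (.cut .s 13631488 (.cut .s 13565952 (.pos 24 .mp ⟨79349026, 0, 0, 0, 0, 133582004, 0, 0, 0, ⟨0, 0⟩, 0⟩ 0 0) (.pos 24 .mp ⟨83950797, 0, 0, 0, 0, 141132663, 0, 0, 0, ⟨0, 0⟩, 0⟩ 0 0)) (.pos 24 .mp ⟨88812078, 0, 0, 0, 0, 158602373, 0, 0, 0, ⟨0, 0⟩, 0⟩ 0 0))))) (.cut .d (-327680) (.pos 22 .mp ⟨193877507, 0, 0, 0, 0, 0, 0, 0, 0, ⟨0, 0⟩, 0⟩ 0 0) (.cut .l 3257576 (.pos 22 .mp ⟨178995843, 0, 0, 0, 0, 0, 0, 0, 0, ⟨0, 0⟩, 0⟩ 0 0) (.cut .v 18350080 (.cut .v 18087936 (.cut .s 13500416 (.cut .s 13369344 (.pos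 51 .mp ⟨134278699, 0, 0, 0, 0, 0, 0, 0, 0, ⟨0, 0⟩, 0⟩ 0 0) (.pos 51 .mp ⟨150174552, 0, 0, 0, 0, 0, 0, 0, 0, ⟨0, 0⟩, 0⟩ 0 0)) (.cut .d (-294912) (.pos 51 .mp ⟨185934586, 0, 0, 0, 0, 0, 0, 0, 0, ⟨0, 0⟩, 0⟩ 0 0) (.pos 51 .mp ⟨166458331, 0, 0, 0, 0, 0, 0, 0, 0, ⟨0, 0⟩, 0⟩ 0 0))) (.pos 52 .mp ⟨173820942, 0, 0, 0, 0, 0, 0, 0, 0, ⟨0, 0⟩, 0⟩ 0 0)) (.pos 45 .mp ⟨189118810, 0, 0, 0, 0, 0, 0, 0, 0, ⟨0, 0⟩, 0⟩ 0 0)))))))) (.cut .s 13500416 (.cut .v 17825792 (.cut .d (-131072) (.cut .l 2125114 (.cut .l 1370139 (.void 21 ⟨0, 0, 0, 0, 0, 100000, 0, 0, 0, ⟨0, 0⟩, 0⟩ 0 0) (.cut .v 17301504 (.pos 23 .mp ⟨8454083, 0, 0, 0, 0, 217032215, 0, 0, 0, ⟨0, 0⟩, 0⟩ 0 0) (.cut .s 13369344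 (.pos 24 .mp ⟨89636286, 0, 0, 0, 0, 55939834, 0, 0, 0, ⟨0, 0⟩, 0⟩ 0 0) (.pos 24 .mp ⟨98573408, 0, 0, 0, 0, 64813260, 0, 0, 0, ⟨0, 0⟩, 0⟩ 0 0)))) (.cut .v 17301504 (.pos 23 .mp ⟨0, 0, 0, 0, 0, 213623543, 0, 0, 0, ⟨0, 0⟩, 0⟩ 0 0) (.cut .d (-196608) (.cut .s 13369344 (.cut .v 17563648 (.pos 55 .mp ⟨53333572, 0, 0, 0, 0, 121719449, 0, 0, 0, ⟨0, 0⟩, 0⟩ 0 0) (.pos 56 .mp ⟨88307985, 0, 0, 0, 0, 54029327, 0, 0, 0, ⟨0, 0⟩, 0⟩ 0 0)) (.cut .l 2880089 (.pos 24 .mp ⟨68137895, 0, 0, 0, 0, 131911071, 0, 0, 0, ⟨0, 0⟩, 0⟩ 0 0) (.pos 24 .mp ⟨84166076, 0, 0, 0, 0, 75057260, 0, 0, 0, ⟨0, 0⟩, 0⟩ 0 0))) (.pos 24 .mp ⟨83211473, 0, 0, 0, 0, 52955376, 0, 0, 0, ⟨0, 0⟩, 0⟩ 0 0)))) (.cut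 .l 2125114 (.cut .v 17301504 (.cut .l 1370139 (.cut .d (-65536) (.cut .d (-98304) (.pos 23 .mp ⟨52797308, 0, 0, 0, 0, 149494945, 0, 0, 0, ⟨0, 0⟩, 0⟩ 0 0) (.cut .s 13369344 (.cut .v 17039360 (.pos 46 .mp ⟨47226565, 0, 0, 0, 0, 124378292, 0, 0, 0, ⟨0, 0⟩, 0⟩ 0 0) (.pos 47 .mp ⟨67154487, 0, 0, 0, 0, 83146088, 0, 0, 0, ⟨0, 0⟩, 0⟩ 0 0)) (.cut .s 13434880 (.pos 23 .mp ⟨60257657, 0, 0, 0, 0, 114615893, 0, 0, 0, ⟨0, 0⟩, 0⟩ 0 0) (.pos 23 .mp ⟨62939844, 0, 0, 0, 0, 122156397, 0, 0, 0, ⟨0, 0⟩, 0⟩ 0 0)))) (.cut .d (-32768) (.cut .l 992651 (.cut .v 17039360 (.cut .l 803907 (.cut .v 16908288 (.pos 53 .mp ⟨0, 0, 0, 0, 0, 190870782, 0, 0, 0, ⟨0, 0⟩, 0⟩ 0 0) (.cut .s 13369344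 (.pos 54 .mp ⟨59538199, 0, 0, 0, 0, 83167336, 0, 0, 0, ⟨0, 0⟩, 0⟩ 0 0) (.cut .d (-49152) (.pos 54 .mp ⟨57998693, 0, 0, 0, 0, 121343074, 0, 0, 0, ⟨0, 0⟩, 0⟩ 0 0) (.pos 54 .mp ⟨63434768, 0, 0, 0, 0, 87885848, 0, 0, 0, ⟨0, 0⟩, 0⟩ 0 0)))) (.pos 46 .mp ⟨47660099, 0, 0, 0, 0, 103137301, 0, 0, 0, ⟨0, 0⟩, 0⟩ 0 0)) (.pos 47 .mp ⟨112673170, 0, 0, 0, 0, 0, 0, 0, 0, ⟨0, 0⟩, 0⟩ 0 0)) (.pos 23 .mp ⟨59179762, 0, 0, 0, 0, 0, 0, 0, 0, ⟨0, 0⟩, 0⟩ 0 0)) (.pos 23 .mp ⟨56807905, 0, 0, 0, 0, 0, 0, 0, 0, ⟨0, 0⟩, 0⟩ 0 0))) (.cut .s 13369344 (.pos 23 .mp ⟨62939839, 0, 0, 0, 0, 66767051, 0, 0, 0, ⟨0, 0⟩, 0⟩ 0 0) (.pos 23 .mp ⟨69959552, 0, 0, 0, 0, 75041626, 0, 0, 0, ⟨0, 0⟩, 0⟩ 0 0))) (.cut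 .s 13369344 (.pos 24 .mp ⟨111522079, 0, 0, 0, 0, 0, 0, 0, 0, ⟨0, 0⟩, 0⟩ 0 0) (.pos 24 .mp ⟨123022448, 0, 0, 0, 0, 0, 0, 0, 0, ⟨0, 0⟩, 0⟩ 0 0))) (.pos 21 .mp ⟨60053798, 0, 0, 0, 0, 0, 0, 0, 0, ⟨0, 0⟩, 0⟩ 0 0))) (.cut .s 13369344 (.pos 22 .mp ⟨118660992, 0, 0, 0, 0, 0, 0, 0, 0, ⟨0, 0⟩, 0⟩ 0 0) (.pos 22 .mp ⟨131048803, 0, 0, 0, 0, 0, 0, 0, 0, ⟨0, 0⟩, 0⟩ 0 0))) (.cut .v 17825792 (.cut .d (-131072) (.cut .l 2125114 (.cut .l 1370139 (.void 21 ⟨0, 0, 0, 0, 0, 100000, 0, 0, 0, ⟨0, 0⟩, 0⟩ 0 0) (.cut .v 17301504 (.pos 23 .mp ⟨4902445, 0, 0, 0, 0, 281620471, 0, 0, 0, ⟨0, 0⟩, 0⟩ 0 0) (.cut .s 13631488 (.pos 24 .mp ⟨109065337, 0, 0, 0, 0, 73819252, 0, 0, 0, ⟨0, 0⟩, 0⟩ 0 0)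 (.pos 24 .mp ⟨121540041, 0, 0, 0, 0, 82111226, 0, 0, 0, ⟨0, 0⟩, 0⟩ 0 0)))) (.cut .v 17301504 (.pos 23 .mp ⟨0, 0, 0, 0, 0, 270272041, 0, 0, 0, ⟨0, 0⟩, 0⟩ 0 0) (.cut .s 13631488 (.cut .d (-196608) (.cut .l 2880089 (.pos 24 .mp ⟨76033062, 0, 0, 0, 0, 146758426, 0, 0, 0, ⟨0, 0⟩, 0⟩ 0 0) (.cut .s 13565952 (.pos 24 .mp ⟨87597390, 0, 0, 0, 0, 93578347, 0, 0, 0, ⟨0, 0⟩, 0⟩ 0 0) (.pos 24 .mp ⟨92314697, 0, 0, 0, 0, 99194842, 0, 0, 0, ⟨0, 0⟩, 0⟩ 0 0))) (.pos 24 .mp ⟨92756220, 0, 0, 0, 0, 78696738, 0, 0, 0, ⟨0, 0⟩, 0⟩ 0 0)) (.cut .d (-196608) (.cut .s 13697024 (.pos 24 .mp ⟨77120190, 0, 0, 0, 0, 159522707, 0, 0, 0, ⟨0, 0⟩, 0⟩ 0 0) (.pos 24 .mp ⟨81450971, 0, 0, 0, 0, 168311924,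 0, 0, 0, ⟨0, 0⟩, 0⟩ 0 0)) (.pos 24 .mp ⟨103391186, 0, 0, 0, 0, 86639151, 0, 0, 0, ⟨0, 0⟩, 0⟩ 0 0))))) (.cut .l 2125114 (.cut .v 17301504 (.cut .d (-65536) (.cut .s 13631488 (.cut .l 1370139 (.cut .s 13565952 (.pos 23 .mp ⟨65209562, 0, 0, 0, 0, 132311302, 0, 0, 0, ⟨0, 0⟩, 0⟩ 0 0) (.pos 23 .mp ⟨68334852, 0, 0, 0, 0, 140598510, 0, 0, 0, ⟨0, 0⟩, 0⟩ 0 0)) (.pos 23 .mp ⟨57974494, 0, 0, 0, 0, 142340012, 0, 0, 0, ⟨0, 0⟩, 0⟩ 0 0)) (.cut .l 1370139 (.cut .s 13697024 (.pos 23 .mp ⟨71766990, 0, 0, 0, 0, 149052046, 0, 0, 0, ⟨0, 0⟩, 0⟩ 0 0) (.pos 23 .mp ⟨75552632, 0, 0, 0, 0, 157578478, 0, 0, 0, ⟨0, 0⟩, 0⟩ 0 0)) (.pos 23 .mp ⟨63663520, 0, 0, 0, 0, 160429809, 0, 0, 0, ⟨0, 0⟩,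 0⟩ 0 0))) (.cut .d (-32768) (.cut .l 1370139 (.cut .l 992651 (.cut .v 17039360 (.cut .l 803907 (.cut .v 16908288 (.pos 53 .mp ⟨0, 0, 0, 0, 0, 240700480, 0, 0, 0, ⟨0, 0⟩, 0⟩ 0 0) (.cut .s 13631488 (.cut .d (-49152) (.pos 54 .mp ⟨63318122, 0, 0, 0, 0, 137715788, 0, 0, 0, ⟨0, 0⟩, 0⟩ 0 0) (.pos 54 .mp ⟨70092797, 0, 0, 0, 0, 99524740, 0, 0, 0, ⟨0, 0⟩, 0⟩ 0 0)) (.cut .s 13697024 (.pos 54 .mp ⟨67293803, 0, 0, 0, 0, 139709612, 0, 0, 0, ⟨0, 0⟩, 0⟩ 0 0) (.pos 54 .mp ⟨70679290, 0, 0, 0, 0, 147975140, 0, 0, 0, ⟨0, 0⟩, 0⟩ 0 0)))) (.pos 46 .mp ⟨58191086, 0, 0, 0, 0, 130938944, 0, 0, 0, ⟨0, 0⟩, 0⟩ 0 0)) (.cut .s 13631488 (.pos 47 .mp ⟨129702974, 0, 0, 0, 0, 5707841, 0, 0, 0,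 ⟨0, 0⟩, 0⟩ 0 0) (.pos 47 .mp ⟨143518048, 0, 0, 0, 0, 7104938, 0, 0, 0, ⟨0, 0⟩, 0⟩ 0 0))) (.pos 23 .mp ⟨73260465, 0, 0, 0, 0, 0, 0, 0, 0, ⟨0, 0⟩, 0⟩ 0 0)) (.pos 23 .mp ⟨0, 0, 0, 0, 0, 0, 0, 0, 0, ⟨0, 0⟩, 0⟩ 0 0)) (.pos 23 .mp ⟨69128262, 0, 0, 0, 0, 0, 0, 0, 0, ⟨0, 0⟩, 0⟩ 0 0))) (.cut .s 13631488 (.pos 24 .mp ⟨136141640, 0, 0, 0, 0, 0, 0, 0, 0, ⟨0, 0⟩, 0⟩ 0 0) (.pos 24 .mp ⟨151068366, 0, 0, 0, 0, 0, 0, 0, 0, ⟨0, 0⟩, 0⟩ 0 0))) (.pos 21 .mp ⟨74915515, 0, 0, 0, 0, 0, 0, 0, 0, ⟨0, 0⟩, 0⟩ 0 0))) (.cut .s 13631488 (.pos 22 .mp ⟨145165990, 0, 0, 0, 0, 0, 0, 0, 0, ⟨0, 0⟩, 0⟩ 0 0) (.pos 22 .mp ⟨161216019, 0, 0, 0, 0, 0, 0, 0, 0, ⟨0, 0⟩, 0⟩ 0 0))))) (.cut .s 13500416 (.pos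 20 .mp ⟨172049690, 0, 0, 0, 0, 0, 0, 0, 0, ⟨0, 0⟩, 0⟩ 0 0) (.pos 20 .mp ⟨211205962, 0, 0, 0, 0, 0, 0, 0, 0, ⟨0, 0⟩, 0⟩ 0 0))))))) (.void 18 ⟨100000, 0, 0, 0, 0, 0, 0, 0, 0, ⟨0, 0⟩, 0⟩ 0 0))) (.void 16 ⟨100000, 0, 0, 0, 0, 0, 0, 0, 0, ⟨0, 0⟩, 0⟩ 0 0)) (.void 37 ⟨100000, 0, 0, 0, 0, 0, 0, 0, 0, ⟨0, 0⟩, 0⟩ 0 0)) (.void 50 ⟨100000, 0, 0, 0, 0, 0, 0, 0, 0, ⟨0, 0⟩, 0⟩ 0 0)) (.void 75 ⟨89510, 0, 0, 10490, 0, 0, 0, 0, 0, ⟨0, 0⟩, 0⟩ 0 0))) (.cut .v 16777216 (.cut .v 8388608 (.cut .v 4194304 (.cut .v 2097152 (.pos 78 .pm ⟨0, 0, 16605166, 0, 3307741, 0, 0, 0, 15944896, ⟨0, 0⟩, 2804900⟩ 0 0) (.cut .d 2242500 (.pos 79 .pm ⟨0, 0, 9736284, 0, 0, 0, 0, 0, 0, ⟨0, 0⟩, 0⟩ 0 0) (.pos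 79 .pm ⟨0, 24437852, 0, 0, 0, 0, 0, 0, 7845233, ⟨0, 0⟩, 7053950⟩ 0 0))) (.cut .d 2242500 (.pos 5 .pm ⟨0, 0, 5330621, 0, 0, 0, 0, 0, 0, ⟨0, 0⟩, 0⟩ 0 0) (.cut .d 3363750 (.pos 5 .pm ⟨0, 15781052, 0, 0, 0, 0, 0, 0, 0, ⟨0, 0⟩, 0⟩ 0 0) (.cut .l 2125114 (.cut .d 3924375 (.cut .v 6291456 (.pos 59 .pm ⟨0, 32347701, 0, 0, 0, 0, 0, 0, 0, ⟨0, 0⟩, 0⟩ 0 0) (.pos 60 .pm ⟨0, 34223063, 0, 0, 0, 0, 0, 0, 0, ⟨0, 0⟩, 0⟩ 0 0)) (.cut .v 6291456 (.pos 59 .pm ⟨0, 53897849, 0, 0, 0, 0, 0, 0, 0, ⟨0, 0⟩, 0⟩ 0 0) (.pos 60 .pm ⟨0, 66459880, 0, 0, 0, 0, 0, 0, 0, ⟨0, 0⟩, 0⟩ 0 0))) (.pos 5 .pm ⟨0, 44257980, 0, 0, 0, 0, 0, 0, 0, ⟨0, 0⟩, 0⟩ 0 0))))) (.cut .d 2242500 (.pos 3 .pm ⟨0, 0, 0, 0, 0,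 0, 0, 0, 0, ⟨0, 0⟩, 0⟩ 0 0) (.cut .d 3363750 (.pos 3 .pm ⟨0, 0, 0, 0, 0, 0, 0, 0, 0, ⟨0, 0⟩, 0⟩ 0 0) (.pos 3 .pm ⟨0, 53456552, 0, 0, 0, 0, 0, 0, 0, ⟨0, 0⟩, 0⟩ 0 0)))) (.cut .v 268435456 (.cut .v 67108864 (.cut .d 2242500 (.cut .d 1121250 (.cut .v 33554432 (.cut .d 560625 (.cut .v 25165824 (.cut .v 20971520 (.cut .v 18874368 (.pos 19 .pp ⟨72216737, 0, 0, 0, 0, 0, 0, 0, 0, ⟨0, 0⟩, 0⟩ 0 0) (.pos 20 .pp ⟨127712678, 0, 0, 0, 0, 0, 0, 0, 0, ⟨0, 0⟩, 0⟩ 0 0)) (.pos 18 .pp ⟨186252864, 0, 0, 0, 0, 0, 0, 0, 0, ⟨0, 0⟩, 0⟩ 0 0)) (.pos 16 .pp ⟨378254217, 0, 0, 0, 0, 0, 0, 0, 0, ⟨0, 0⟩, 0⟩ 0 0)) (.pos 14 .pp ⟨64093490, 0, 0, 0, 0, 0, 0, 0, 0, ⟨0, 0⟩, 0⟩ 0 0)) (.cut .v 50331648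 (.pos 65 .pp ⟨887406515, 0, 0, 0, 0, 0, 0, 0, 0, ⟨0, 0⟩, 0⟩ 0 0) (.void 66 ⟨37100, 62900, 0, 0, 0, 0, 0, 0, 0, ⟨0, 0⟩, 0⟩ 0 0))) (.pos 36 .pp ⟨0, 78184955, 0, 0, 0, 0, 0, 0, 0, ⟨0, 0⟩, 0⟩ 0 0)) (.pos 36 .pp ⟨0, 0, 0, 0, 0, 0, 0, 0, 0, ⟨0, 0⟩, 0⟩ 0 0)) (.void 50 ⟨79008, 0, 0, 20992, 0, 0, 0, 0, 0, ⟨0, 0⟩, 0⟩ 0 0)) (.void 75 ⟨0, 0, 0, 100000, 0, 0, 0, 0, 0, ⟨0, 0⟩, 0⟩ 0 0)))),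
    by decide +kernel⟩

def covers21 : cell.Covers table row21.1 :=
  ⟨(.cut .d 0 (.cut .v 16777216 (.cut .v 8388608 (.void 2 ⟨0, 0, 100000, 0, 0, 0, 0, 0, 0, ⟨0, 0⟩, 0⟩ 0 0) (.cut .d (-8388608) (.void 3 ⟨0, 0, 0, 0, 0, 100000, 0, 0, 0, ⟨0, 0⟩, 0⟩ 0 0) (.cut .d (-4194304) (.void 3 ⟨0, 0, 0, 0, 0, 100000, 0, 0, 0, ⟨0, 0⟩, 0⟩ 0 0) (.cut .d (-2097152) (.void 3 ⟨0, 0, 0, 0, 0, 100000, 0, 0, 0, ⟨0, 0⟩, 0⟩ 0 0) (.cut .d (-1048576) (.void 3 ⟨0, 0, 0, 0, 0, 100000, 0, 0, 0, ⟨0, 0⟩, 0⟩ 0 0) (.cut .d (-524288) (.void 3 ⟨0, 0, 0, 0, 0, 100000, 0, 0, 0, ⟨0, 0⟩, 0⟩ 0 0) (.cut .d (-262144) (.pos 3 .mm ⟨0, 0, 0, 0, 0, 438144243, 0, 0, 0, ⟨0, 0⟩, 0⟩ 0 0) (.cut .d (-131072) (.pos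 3 .mm ⟨0, 0, 0, 0, 0, 379728361, 0, 0, 0, ⟨0, 0⟩, 0⟩ 0 0) (.cut .d (-65536) (.pos 3 .mm ⟨0, 0, 0, 0, 0, 348782845, 0, 0, 0, ⟨0, 0⟩, 0⟩ 0 0) (.pos 3 .mm ⟨0, 0, 0, 0, 0, 282427562, 0, 0, 0, ⟨0, 0⟩, 0⟩ 0 0)))))))))) (.cut .v 268435456 (.cut .v 67108864 (.cut .v 33554432 (.cut .v 25165824 (.cut .d (-8388608) (.void 15 ⟨100000, 0, 0, 0, 0, 0, 0, 0, 0, ⟨0, 0⟩, 0⟩ 0 0) (.cut .d (-4194304) (.void 15 ⟨100000, 0, 0, 0, 0, 0, 0, 0, 0, ⟨0, 0⟩, 0⟩ 0 0) (.cut .v 20971520 (.cut .d (-2097152) (.void 17 ⟨100000, 0, 0, 0, 0, 0, 0, 0, 0, ⟨0, 0⟩, 0⟩ 0 0) (.cut .d (-1048576) (.void 17 ⟨100000, 0, 0, 0, 0, 0, 0, 0, 0, ⟨0, 0⟩, 0⟩ 0 0) (.cut .d (-524288) (.void 17 ⟨0, 0, 0, 0, 0, 100000,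 0, 0, 0, ⟨0, 0⟩, 0⟩ 0 0) (.cut .d (-262144) (.cut .v 18874368 (.cut .v 17825792 (.pos 21 .mp ⟨92903373, 0, 0, 0, 0, 304476550, 0, 0, 0, ⟨0, 0⟩, 0⟩ 0 0) (.pos 22 .mp ⟨276560421, 0, 0, 0, 0, 0, 0, 0, 0, ⟨0, 0⟩, 0⟩ 0 0)) (.void 20 ⟨100000, 0, 0, 0, 0, 0, 0, 0, 0, ⟨0, 0⟩, 0⟩ 0 0)) (.cut .v 18874368 (.cut .v 17825792 (.cut .d (-131072) (.cut .l 2125114 (.cut .s 13959168 (.cut .s 13860864 (.pos 21 .mp ⟨84032683, 0, 0, 0, 0, 196876169, 0, 0, 0, ⟨0, 0⟩, 0⟩ 0 0) (.pos 21 .mp ⟨91124673, 0, 0, 0, 0, 214138318, 0, 0, 0, ⟨0, 0⟩, 0⟩ 0 0)) (.pos 21 .mp ⟨98515192, 0, 0, 0, 0, 267855225, 0, 0, 0, ⟨0, 0⟩, 0⟩ 0 0)) (.cut .s 13959168 (.cut .v 17301504 (.pos 23 .mp ⟨0, 0, 0, 0, 0,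 337826785, 0, 0, 0, ⟨0, 0⟩, 0⟩ 0 0) (.cut .d (-196608) (.cut .l 2880089 (.pos 24 .mp ⟨96706199, 0, 0, 0, 0, 209070122, 0, 0, 0, ⟨0, 0⟩, 0⟩ 0 0) (.cut .s 13860864 (.pos 24 .mp ⟨86002939, 0, 0, 0, 0, 185127311, 0, 0, 0, ⟨0, 0⟩, 0⟩ 0 0) (.cut .s 13910016 (.pos 24 .mp ⟨93743201, 0, 0, 0, 0, 189860434, 0, 0, 0, ⟨0, 0⟩, 0⟩ 0 0) (.pos 24 .mp ⟨97860452, 0, 0, 0, 0, 197471163, 0, 0, 0, ⟨0, 0⟩, 0⟩ 0 0)))) (.cut .s 13860864 (.pos 24 .mp ⟨112438119, 0, 0, 0, 0, 105610315, 0, 0, 0, ⟨0, 0⟩, 0⟩ 0 0) (.cut .s 13910016 (.pos 24 .mp ⟨117274151, 0, 0, 0, 0, 116432761, 0, 0, 0, ⟨0, 0⟩, 0⟩ 0 0) (.pos 24 .mp ⟨118171169, 0, 0, 0, 0, 131947594, 0, 0, 0, ⟨0, 0⟩, 0⟩ 0 0))))) (.cut .v 17301504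 (.pos 23 .mp ⟨0, 0, 0, 0, 0, 401705562, 0, 0, 0, ⟨0, 0⟩, 0⟩ 0 0) (.cut .d (-196608) (.cut .l 2880089 (.void 24 ⟨0, 0, 0, 0, 0, 100000, 0, 0, 0, ⟨0, 0⟩, 0⟩ 0 0) (.cut .v 17563648 (.pos 55 .mp ⟨0, 0, 0, 0, 0, 417010513, 0, 0, 0, ⟨0, 0⟩, 0⟩ 0 0) (.cut .s 14057472 (.cut .d (-229376) (.pos 56 .mp ⟨114089138, 0, 0, 0, 0, 202544493, 0, 0, 0, ⟨0, 0⟩, 0⟩ 0 0) (.cut .s 14008320 (.pos 56 .mp ⟨120103243, 0, 0, 0, 0, 158581242, 0, 0, 0, ⟨0, 0⟩, 0⟩ 0 0) (.pos 56 .mp ⟨124706028, 0, 0, 0, 0, 166215722, 0, 0, 0, ⟨0, 0⟩, 0⟩ 0 0))) (.cut .s 14106624 (.pos 56 .mp ⟨115193532, 0, 0, 0, 0, 216857235, 0, 0, 0, ⟨0, 0⟩, 0⟩ 0 0) (.pos 56 .mp ⟨120229460, 0, 0, 0, 0, 225783668, 0, 0, 0, ⟨0,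 0⟩, 0⟩ 0 0))))) (.cut .s 14057472 (.cut .s 14008320 (.pos 24 .mp ⟨122396064, 0, 0, 0, 0, 138851673, 0, 0, 0, ⟨0, 0⟩, 0⟩ 0 0) (.pos 24 .mp ⟨126989777, 0, 0, 0, 0, 145792363, 0, 0, 0, ⟨0, 0⟩, 0⟩ 0 0)) (.cut .s 14106624 (.pos 24 .mp ⟨132006796, 0, 0, 0, 0, 152665528, 0, 0, 0, ⟨0, 0⟩, 0⟩ 0 0) (.pos 24 .mp ⟨137504928, 0, 0, 0, 0, 159360344, 0, 0, 0, ⟨0, 0⟩, 0⟩ 0 0))))))) (.cut .l 2125114 (.cut .s 13959168 (.cut .v 17301504 (.cut .d (-65536) (.cut .v 17039360 (.pos 46 .mp ⟨0, 0, 0, 0, 0, 349643130, 0, 0, 0, ⟨0, 0⟩, 0⟩ 0 0) (.cut .s 13860864 (.cut .s 13811712 (.pos 47 .mp ⟨84520899, 0, 0, 0, 0, 154471150, 0, 0, 0, ⟨0, 0⟩, 0⟩ 0 0) (.pos 47 .mp ⟨86109710, 0, 0, 0, 0, 164140007,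 0, 0, 0, ⟨0, 0⟩, 0⟩ 0 0)) (.cut .s 13910016 (.pos 47 .mp ⟨87926959, 0, 0, 0, 0, 174097825, 0, 0, 0, ⟨0, 0⟩, 0⟩ 0 0) (.pos 47 .mp ⟨90030292, 0, 0, 0, 0, 184238022, 0, 0, 0, ⟨0, 0⟩, 0⟩ 0 0)))) (.cut .d (-32768) (.cut .l 1370139 (.cut .l 992651 (.cut .v 17039360 (.cut .s 13860864 (.pos 46 .mp ⟨72381248, 0, 0, 0, 0, 171655616, 0, 0, 0, ⟨0, 0⟩, 0⟩ 0 0) (.cut .s 13910016 (.pos 46 .mp ⟨78526991, 0, 0, 0, 0, 174412141, 0, 0, 0, ⟨0, 0⟩, 0⟩ 0 0) (.pos 46 .mp ⟨81496794, 0, 0, 0, 0, 182419468, 0, 0, 0, ⟨0, 0⟩, 0⟩ 0 0))) (.pos 47 .mp ⟨171081649, 0, 0, 0, 0, 0, 0, 0, 0, ⟨0, 0⟩, 0⟩ 0 0)) (.pos 23 .mp ⟨90675961, 0, 0, 0, 0, 67572560, 0, 0, 0, ⟨0, 0⟩, 0⟩ 0 0)) (.pos 23 .mp ⟨0,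 0, 0, 0, 0, 0, 0, 0, 0, ⟨0, 0⟩, 0⟩ 0 0)) (.pos 23 .mp ⟨87197223, 0, 0, 0, 0, 0, 0, 0, 0, ⟨0, 0⟩, 0⟩ 0 0))) (.pos 24 .mp ⟨174075557, 0, 0, 0, 0, 0, 0, 0, 0, ⟨0, 0⟩, 0⟩ 0 0)) (.cut .v 17301504 (.cut .d (-65536) (.cut .v 17039360 (.pos 46 .mp ⟨0, 0, 0, 0, 0, 409593619, 0, 0, 0, ⟨0, 0⟩, 0⟩ 0 0) (.cut .s 14057472 (.cut .s 14008320 (.pos 47 .mp ⟨92480569, 0, 0, 0, 0, 194447440, 0, 0, 0, ⟨0, 0⟩, 0⟩ 0 0) (.pos 47 .mp ⟨95342157, 0, 0, 0, 0, 204605755, 0, 0, 0, ⟨0, 0⟩, 0⟩ 0 0)) (.cut .l 1370139 (.pos 47 .mp ⟨102061154, 0, 0, 0, 0, 225112180, 0, 0, 0, ⟨0, 0⟩, 0⟩ 0 0) (.pos 47 .mp ⟨85772986, 0, 0, 0, 0, 242568909, 0, 0, 0, ⟨0, 0⟩, 0⟩ 0 0)))) (.cut .d (-32768) (.cut .l 1370139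 (.cut .l 992651 (.cut .v 17039360 (.cut .v 16908288 (.pos 53 .mp ⟨0, 0, 0, 0, 0, 362839546, 0, 0, 0, ⟨0, 0⟩, 0⟩ 0 0) (.cut .s 14057472 (.cut .s 14008320 (.pos 54 .mp ⟨86123589, 0, 0, 0, 0, 188264419, 0, 0, 0, ⟨0, 0⟩, 0⟩ 0 0) (.pos 54 .mp ⟨89378318, 0, 0, 0, 0, 196960495, 0, 0, 0, ⟨0, 0⟩, 0⟩ 0 0)) (.cut .s 14106624 (.pos 54 .mp ⟨92757362, 0, 0, 0, 0, 206022597, 0, 0, 0, ⟨0, 0⟩, 0⟩ 0 0) (.pos 54 .mp ⟨96267554, 0, 0, 0, 0, 215430900, 0, 0, 0, ⟨0, 0⟩, 0⟩ 0 0)))) (.cut .s 14057472 (.pos 47 .mp ⟨182074631, 0, 0, 0, 0, 17815470, 0, 0, 0, ⟨0, 0⟩, 0⟩ 0 0) (.pos 47 .mp ⟨198510239, 0, 0, 0, 0, 16867434, 0, 0, 0, ⟨0, 0⟩, 0⟩ 0 0))) (.pos 23 .mp ⟨102165738, 0, 0, 0, 0, 139479073,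 0, 0, 0, ⟨0, 0⟩, 0⟩ 0 0)) (.pos 23 .mp ⟨0, 0, 0, 0, 0, 0, 0, 0, 0, ⟨0, 0⟩, 0⟩ 0 0)) (.pos 23 .mp ⟨100968613, 0, 0, 0, 0, 0, 0, 0, 0, ⟨0, 0⟩, 0⟩ 0 0))) (.cut .s 14057472 (.pos 24 .mp ⟨176310036, 0, 0, 0, 0, 37250798, 0, 0, 0, ⟨0, 0⟩, 0⟩ 0 0) (.pos 24 .mp ⟨191190457, 0, 0, 0, 0, 40161562, 0, 0, 0, ⟨0, 0⟩, 0⟩ 0 0)))) (.pos 21 .mp ⟨113945281, 0, 0, 0, 0, 0, 0, 0, 0, ⟨0, 0⟩, 0⟩ 0 0))) (.cut .l 2125114 (.pos 22 .mp ⟨223967848, 0, 0, 0, 0, 0, 0, 0, 0, ⟨0, 0⟩, 0⟩ 0 0) (.cut .d (-131072) (.cut .s 13959168 (.pos 22 .mp ⟨196107234, 0, 0, 0, 0, 0, 0, 0, 0, ⟨0, 0⟩, 0⟩ 0 0) (.cut .s 14057472 (.pos 22 .mp ⟨224925065, 0, 0, 0, 0, 0, 0, 0, 0, ⟨0, 0⟩, 0⟩ 0 0) (.pos 22 .mp ⟨243459045,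 0, 0, 0, 0, 0, 0, 0, 0, ⟨0, 0⟩, 0⟩ 0 0))) (.pos 22 .mp ⟨174362668, 0, 0, 0, 0, 0, 0, 0, 0, ⟨0, 0⟩, 0⟩ 0 0)))) (.pos 20 .mp ⟨248766471, 0, 0, 0, 0, 0, 0, 0, 0, ⟨0, 0⟩, 0⟩ 0 0)))))) (.void 18 ⟨100000, 0, 0, 0, 0, 0, 0, 0, 0, ⟨0, 0⟩, 0⟩ 0 0)))) (.void 16 ⟨100000, 0, 0, 0, 0, 0, 0, 0, 0, ⟨0, 0⟩, 0⟩ 0 0)) (.void 37 ⟨100000, 0, 0, 0, 0, 0, 0, 0, 0, ⟨0, 0⟩, 0⟩ 0 0)) (.void 50 ⟨100000, 0, 0, 0, 0, 0, 0, 0, 0, ⟨0, 0⟩, 0⟩ 0 0)) (.void 75 ⟨89243, 0, 0, 10757, 0, 0, 0, 0, 0, ⟨0, 0⟩, 0⟩ 0 0))) (.cut .v 16777216 (.cut .v 8388608 (.cut .v 4194304 (.cut .v 2097152 (.pos 78 .pm ⟨0, 0, 19430854, 0, 0, 0, 0, 0, 13659368, ⟨0, 0⟩, 2804900⟩ 0 0) (.pos 79 .pm ⟨0, 8386401, 0, 0, 0, 0,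 0, 0, 0, ⟨0, 0⟩, 0⟩ 0 0)) (.cut .d 1837506 (.pos 5 .pm ⟨0, 0, 20452167, 0, 0, 0, 0, 0, 0, ⟨0, 0⟩, 0⟩ 0 0) (.cut .d 2756259 (.pos 5 .pm ⟨0, 0, 0, 0, 0, 0, 0, 0, 0, ⟨0, 0⟩, 0⟩ 0 0) (.pos 5 .pm ⟨0, 48014305, 0, 0, 0, 0, 0, 0, 0, ⟨0, 0⟩, 0⟩ 0 0)))) (.pos 3 .pm ⟨0, 3663661, 0, 0, 0, 0, 0, 0, 0, ⟨0, 0⟩, 0⟩ 0 0)) (.cut .v 268435456 (.cut .v 67108864 (.cut .d 1837506 (.cut .v 33554432 (.cut .d 918753 (.cut .d 459376 (.cut .v 25165824 (.cut .v 20971520 (.cut .v 18874368 (.pos 19 .pp ⟨100575874, 0, 0, 0, 0, 0, 0, 0, 0, ⟨0, 0⟩, 0⟩ 0 0) (.pos 20 .pp ⟨184705241, 0, 0, 0, 0, 0, 0, 0, 0, ⟨0, 0⟩, 0⟩ 0 0)) (.pos 18 .pp ⟨259702422, 0, 0, 0, 0, 0, 0, 0, 0, ⟨0, 0⟩, 0⟩ 0 0)) (.pos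 16 .pp ⟨506034210, 0, 0, 0, 0, 0, 0, 0, 0, ⟨0, 0⟩, 0⟩ 0 0)) (.pos 14 .pp ⟨116021311, 0, 0, 0, 0, 0, 0, 0, 0, ⟨0, 0⟩, 0⟩ 0 0)) (.pos 14 .pp ⟨0, 0, 0, 0, 0, 0, 0, 0, 0, ⟨0, 0⟩, 0⟩ 0 0)) (.cut .d 918753 (.cut .v 50331648 (.pos 65 .pp ⟨1155306104, 0, 0, 0, 0, 0, 0, 0, 0, ⟨0, 0⟩, 0⟩ 0 0) (.void 66 ⟨80160, 0, 0, 19840, 0, 0, 0, 0, 0, ⟨0, 0⟩, 0⟩ 0 0)) (.pos 37 .pp ⟨401845207, 203790807, 0, 0, 0, 0, 0, 0, 0, ⟨0, 0⟩, 0⟩ 0 0))) (.pos 36 .pp ⟨0, 0, 0, 0, 0, 0, 0, 0, 0, ⟨0, 0⟩, 0⟩ 0 0)) (.void 50 ⟨78897, 0, 0, 21103, 0, 0, 0, 0, 0, ⟨0, 0⟩, 0⟩ 0 0)) (.void 75 ⟨0, 0, 0, 100000, 0, 0, 0, 0, 0, ⟨0, 0⟩, 0⟩ 0 0)))),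
    by decide +kernel⟩

def covers22 : cell.Covers table row22.1 :=
  ⟨(.cut .d 0 (.cut .v 16777216 (.cut .v 8388608 (.void 2 ⟨0, 0, 100000, 0, 0, 0, 0, 0, 0, ⟨0, 0⟩, 0⟩ 0 0) (.cut .d (-8388608) (.void 3 ⟨58314, 0, 41686, 0, 0, 0, 0, 0, 0, ⟨0, 0⟩, 0⟩ 0 0) (.cut .d (-4194304) (.void 3 ⟨58314, 0, 41686, 0, 0, 0, 0, 0, 0, ⟨0, 0⟩, 0⟩ 0 0) (.cut .d (-2097152) (.void 3 ⟨0, 0, 0, 0, 0, 100000, 0, 0, 0, ⟨0, 0⟩, 0⟩ 0 0) (.cut .d (-1048576) (.void 3 ⟨0, 0, 0, 0, 0, 100000, 0, 0, 0, ⟨0, 0⟩, 0⟩ 0 0) (.cut .v 12582912 (.pos 6 .mm ⟨0, 0, 18327621, 0, 0, 351308810, 0, 0, 0, ⟨0, 0⟩, 0⟩ 0 0) (.cut .d (-524288) (.void 7 ⟨0, 0, 0, 0, 0, 100000, 0, 0, 0, ⟨0, 0⟩, 0⟩ 0 0) (.cut .d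 (-262144) (.void 7 ⟨0, 0, 0, 0, 0, 100000, 0, 0, 0, ⟨0, 0⟩, 0⟩ 0 0) (.cut .s 14319616 (.pos 7 .mm ⟨0, 0, 0, 0, 0, 432384382, 0, 0, 0, ⟨0, 0⟩, 0⟩ 0 0) (.pos 7 .mm ⟨0, 0, 0, 0, 0, 503368062, 0, 0, 0, ⟨0, 0⟩, 0⟩ 0 0)))))))))) (.cut .v 268435456 (.cut .v 67108864 (.cut .v 33554432 (.cut .d (-8388608) (.void 14 ⟨100000, 0, 0, 0, 0, 0, 0, 0, 0, ⟨0, 0⟩, 0⟩ 0 0) (.cut .v 25165824 (.cut .d (-4194304) (.void 15 ⟨100000, 0, 0, 0, 0, 0, 0, 0, 0, ⟨0, 0⟩, 0⟩ 0 0) (.cut .v 20971520 (.cut .d (-2097152) (.void 17 ⟨100000, 0, 0, 0, 0, 0, 0, 0, 0, ⟨0, 0⟩, 0⟩ 0 0) (.cut .d (-1048576) (.void 17 ⟨100000, 0, 0, 0, 0, 0, 0, 0, 0, ⟨0, 0⟩, 0⟩ 0 0) (.cut .d (-524288) (.void 17 ⟨100000,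 0, 0, 0, 0, 0, 0, 0, 0, ⟨0, 0⟩, 0⟩ 0 0) (.cut .d (-262144) (.void 17 ⟨0, 0, 0, 0, 0, 100000, 0, 0, 0, ⟨0, 0⟩, 0⟩ 0 0) (.cut .v 18874368 (.cut .d (-131072) (.cut .l 2125114 (.void 19 ⟨0, 0, 0, 0, 0, 100000, 0, 0, 0, ⟨0, 0⟩, 0⟩ 0 0) (.cut .v 17825792 (.cut .s 14319616 (.cut .v 17301504 (.pos 23 .mp ⟨0, 0, 0, 0, 0, 475992790, 0, 0, 0, ⟨0, 0⟩, 0⟩ 0 0) (.cut .d (-196608) (.cut .d (-229376) (.void 24 ⟨0, 0, 0, 0, 0, 100000, 0, 0, 0, ⟨0, 0⟩, 0⟩ 0 0) (.cut .s 14237696 (.pos 24 .mp ⟨121279726, 0, 0, 0, 0, 254275354, 0, 0, 0, ⟨0, 0⟩, 0⟩ 0 0) (.cut .s 14278656 (.pos 24 .mp ⟨130733248, 0, 0, 0, 0, 260738503, 0, 0, 0, ⟨0, 0⟩, 0⟩ 0 0) (.pos 24 .mp ⟨135741375, 0, 0, 0, 0, 269759380,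 0, 0, 0, ⟨0, 0⟩, 0⟩ 0 0)))) (.cut .s 14237696 (.cut .v 17563648 (.pos 55 .mp ⟨97396400, 0, 0, 0, 0, 274366634, 0, 0, 0, ⟨0, 0⟩, 0⟩ 0 0) (.pos 56 .mp ⟨160098313, 0, 0, 0, 0, 149260549, 0, 0, 0, ⟨0, 0⟩, 0⟩ 0 0)) (.cut .v 17563648 (.cut .s 14278656 (.pos 55 .mp ⟨104667389, 0, 0, 0, 0, 283861731, 0, 0, 0, ⟨0, 0⟩, 0⟩ 0 0) (.pos 55 .mp ⟨108489629, 0, 0, 0, 0, 293433546, 0, 0, 0, ⟨0, 0⟩, 0⟩ 0 0)) (.cut .s 14278656 (.pos 56 .mp ⟨150376391, 0, 0, 0, 0, 195588432, 0, 0, 0, ⟨0, 0⟩, 0⟩ 0 0) (.pos 56 .mp ⟨154572121, 0, 0, 0, 0, 204721243, 0, 0, 0, ⟨0, 0⟩, 0⟩ 0 0)))))) (.cut .v 17301504 (.pos 23 .mp ⟨0, 0, 0, 0, 0, 549999708, 0, 0, 0, ⟨0, 0⟩, 0⟩ 0 0) (.cut .d (-196608) (.cut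 .s 14401536 (.cut .s 14360576 (.pos 24 .mp ⟨140949410, 0, 0, 0, 0, 285186685, 0, 0, 0, ⟨0, 0⟩, 0⟩ 0 0) (.pos 24 .mp ⟨146367384, 0, 0, 0, 0, 295253642, 0, 0, 0, ⟨0, 0⟩, 0⟩ 0 0)) (.pos 24 .mp ⟨152006024, 0, 0, 0, 0, 321436207, 0, 0, 0, ⟨0, 0⟩, 0⟩ 0 0)) (.cut .s 14401536 (.cut .v 17563648 (.cut .s 14360576 (.pos 55 .mp ⟨112444636, 0, 0, 0, 0, 303658692, 0, 0, 0, ⟨0, 0⟩, 0⟩ 0 0) (.pos 55 .mp ⟨91065039, 0, 0, 0, 0, 365814035, 0, 0, 0, ⟨0, 0⟩, 0⟩ 0 0)) (.cut .s 14360576 (.pos 56 .mp ⟨159229495, 0, 0, 0, 0, 213800024, 0, 0, 0, ⟨0, 0⟩, 0⟩ 0 0) (.pos 56 .mp ⟨164421526, 0, 0, 0, 0, 222687746, 0, 0, 0, ⟨0, 0⟩, 0⟩ 0 0))) (.cut .v 17563648 (.pos 55 .mp ⟨59869328, 0, 0, 0,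 0, 458930634, 0, 0, 0, ⟨0, 0⟩, 0⟩ 0 0) (.cut .s 14442496 (.pos 56 .mp ⟨170225531, 0, 0, 0, 0, 231238722, 0, 0, 0, ⟨0, 0⟩, 0⟩ 0 0) (.pos 56 .mp ⟨176723524, 0, 0, 0, 0, 239297842, 0, 0, 0, ⟨0, 0⟩, 0⟩ 0 0))))))) (.cut .v 18350080 (.cut .v 18087936 (.cut .l 2880089 (.pos 51 .mp ⟨322125226, 0, 0, 0, 0, 0, 0, 0, 0, ⟨0, 0⟩, 0⟩ 0 0) (.cut .d (-196608) (.cut .s 14319616 (.pos 51 .mp ⟨291777848, 0, 0, 0, 0, 0, 0, 0, 0, ⟨0, 0⟩, 0⟩ 0 0) (.pos 51 .mp ⟨334056251, 0, 0, 0, 0, 0, 0, 0, 0, ⟨0, 0⟩, 0⟩ 0 0)) (.pos 51 .mp ⟨269913941, 0, 0, 0, 0, 0, 0, 0, 0, ⟨0, 0⟩, 0⟩ 0 0))) (.pos 52 .mp ⟨309613783, 0, 0, 0, 0, 0, 0, 0, 0, ⟨0, 0⟩, 0⟩ 0 0)) (.pos 45 .mp ⟨324052061, 0, 0, 0, 0, 0,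 0, 0, 0, ⟨0, 0⟩, 0⟩ 0 0)))) (.cut .v 17825792 (.cut .l 2125114 (.cut .s 14319616 (.cut .v 17301504 (.cut .d (-65536) (.cut .d (-98304) (.pos 23 .mp ⟨98553102, 0, 0, 0, 0, 297136064, 0, 0, 0, ⟨0, 0⟩, 0⟩ 0 0) (.cut .l 1370139 (.cut .s 14237696 (.pos 23 .mp ⟨100078615, 0, 0, 0, 0, 272243177, 0, 0, 0, ⟨0, 0⟩, 0⟩ 0 0) (.pos 23 .mp ⟨106862142, 0, 0, 0, 0, 290636105, 0, 0, 0, ⟨0, 0⟩, 0⟩ 0 0)) (.pos 23 .mp ⟨89014977, 0, 0, 0, 0, 279832486, 0, 0, 0, ⟨0, 0⟩, 0⟩ 0 0))) (.cut .l 1370139 (.cut .d (-32768) (.cut .v 17039360 (.cut .l 992651 (.cut .s 14237696 (.pos 46 .mp ⟨96145733, 0, 0, 0, 0, 244515619, 0, 0, 0, ⟨0, 0⟩, 0⟩ 0 0) (.pos 46 .mp ⟨100297128, 0, 0, 0, 0, 267899786,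 0, 0, 0, ⟨0, 0⟩, 0⟩ 0 0)) (.pos 46 .mp ⟨0, 0, 0, 0, 0, 399462032, 0, 0, 0, ⟨0, 0⟩, 0⟩ 0 0)) (.cut .s 14237696 (.pos 47 .mp ⟨123195272, 0, 0, 0, 0, 192645275, 0, 0, 0, ⟨0, 0⟩, 0⟩ 0 0) (.cut .s 14278656 (.pos 47 .mp ⟨131010396, 0, 0, 0, 0, 200224928, 0, 0, 0, ⟨0, 0⟩, 0⟩ 0 0) (.pos 47 .mp ⟨132808913, 0, 0, 0, 0, 212563746, 0, 0, 0, ⟨0, 0⟩, 0⟩ 0 0)))) (.cut .v 17039360 (.cut .v 16908288 (.pos 53 .mp ⟨0, 0, 0, 0, 0, 369811245, 0, 0, 0, ⟨0, 0⟩, 0⟩ 0 0) (.pos 54 .mp ⟨113258188, 0, 0, 0, 0, 164361338, 0, 0, 0, ⟨0, 0⟩, 0⟩ 0 0)) (.pos 47 .mp ⟨208602549, 0, 0, 0, 0, 0, 0, 0, 0, ⟨0, 0⟩, 0⟩ 0 0))) (.pos 23 .mp ⟨0, 0, 0, 0, 0, 0, 0, 0, 0, ⟨0, 0⟩, 0⟩ 0 0))) (.cut .s 14237696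 (.pos 24 .mp ⟨192264649, 0, 0, 0, 0, 70743162, 0, 0, 0, ⟨0, 0⟩, 0⟩ 0 0) (.pos 24 .mp ⟨202933130, 0, 0, 0, 0, 80498327, 0, 0, 0, ⟨0, 0⟩, 0⟩ 0 0))) (.cut .v 17301504 (.cut .d (-65536) (.cut .l 1370139 (.pos 23 .mp ⟨114118814, 0, 0, 0, 0, 342860715, 0, 0, 0, ⟨0, 0⟩, 0⟩ 0 0) (.cut .s 14401536 (.pos 23 .mp ⟨101570815, 0, 0, 0, 0, 314012064, 0, 0, 0, ⟨0, 0⟩, 0⟩ 0 0) (.pos 23 .mp ⟨108474724, 0, 0, 0, 0, 338478801, 0, 0, 0, ⟨0, 0⟩, 0⟩ 0 0))) (.cut .l 1370139 (.cut .d (-32768) (.cut .v 17039360 (.cut .s 14401536 (.pos 46 .mp ⟨101676678, 0, 0, 0, 0, 298681970, 0, 0, 0, ⟨0, 0⟩, 0⟩ 0 0) (.pos 46 .mp ⟨107302827, 0, 0, 0, 0, 324788018, 0, 0, 0, ⟨0, 0⟩, 0⟩ 0 0)) (.cut .s 14401536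 (.cut .s 14360576 (.pos 47 .mp ⟨135948492, 0, 0, 0, 0, 223047066, 0, 0, 0, ⟨0, 0⟩, 0⟩ 0 0) (.pos 47 .mp ⟨140523635, 0, 0, 0, 0, 231497274, 0, 0, 0, ⟨0, 0⟩, 0⟩ 0 0)) (.pos 47 .mp ⟨150211730, 0, 0, 0, 0, 238474531, 0, 0, 0, ⟨0, 0⟩, 0⟩ 0 0))) (.cut .v 17039360 (.cut .s 14401536 (.pos 46 .mp ⟨113648336, 0, 0, 0, 0, 227454385, 0, 0, 0, ⟨0, 0⟩, 0⟩ 0 0) (.pos 46 .mp ⟨120695623, 0, 0, 0, 0, 247090799, 0, 0, 0, ⟨0, 0⟩, 0⟩ 0 0)) (.pos 47 .mp ⟨236202753, 0, 0, 0, 0, 0, 0, 0, 0, ⟨0, 0⟩, 0⟩ 0 0))) (.pos 23 .mp ⟨128935878, 0, 0, 0, 0, 0, 0, 0, 0, ⟨0, 0⟩, 0⟩ 0 0))) (.cut .s 14401536 (.pos 24 .mp ⟨216669464, 0, 0, 0, 0, 87570075, 0, 0, 0, ⟨0, 0⟩, 0⟩ 0 0) (.pos 24 .mp ⟨234415386,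 0, 0, 0, 0, 90207213, 0, 0, 0, ⟨0, 0⟩, 0⟩ 0 0)))) (.cut .v 17301504 (.pos 23 .mp ⟨0, 0, 0, 0, 0, 410598256, 0, 0, 0, ⟨0, 0⟩, 0⟩ 0 0) (.cut .s 14319616 (.pos 24 .mp ⟨142847468, 0, 0, 0, 0, 155390694, 0, 0, 0, ⟨0, 0⟩, 0⟩ 0 0) (.pos 24 .mp ⟨164651798, 0, 0, 0, 0, 175237902, 0, 0, 0, ⟨0, 0⟩, 0⟩ 0 0)))) (.cut .s 14319616 (.pos 22 .mp ⟨239205413, 0, 0, 0, 0, 0, 0, 0, 0, ⟨0, 0⟩, 0⟩ 0 0) (.pos 22 .mp ⟨273091506, 0, 0, 0, 0, 0, 0, 0, 0, ⟨0, 0⟩, 0⟩ 0 0)))) (.pos 20 .mp ⟨331473333, 0, 0, 0, 0, 0, 0, 0, 0, ⟨0, 0⟩, 0⟩ 0 0)))))) (.void 18 ⟨100000, 0, 0, 0, 0, 0, 0, 0, 0, ⟨0, 0⟩, 0⟩ 0 0))) (.void 16 ⟨100000, 0, 0, 0, 0, 0, 0, 0, 0, ⟨0, 0⟩, 0⟩ 0 0))) (.void 37 ⟨100000, 0, 0,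 0, 0, 0, 0, 0, 0, ⟨0, 0⟩, 0⟩ 0 0)) (.void 50 ⟨100000, 0, 0, 0, 0, 0, 0, 0, 0, ⟨0, 0⟩, 0⟩ 0 0)) (.void 75 ⟨89021, 0, 0, 10979, 0, 0, 0, 0, 0, ⟨0, 0⟩, 0⟩ 0 0))) (.cut .v 16777216 (.cut .v 8388608 (.cut .v 4194304 (.cut .v 2097152 (.pos 78 .pm ⟨0, 0, 20528332, 0, 0, 0, 0, 0, 14606079, ⟨0, 0⟩, 2804900⟩ 0 0) (.pos 79 .pm ⟨0, 1866188, 0, 0, 0, 0, 0, 0, 0, ⟨0, 0⟩, 0⟩ 0 0)) (.pos 5 .pm ⟨0, 7340493, 0, 0, 0, 0, 0, 0, 0, ⟨0, 0⟩, 0⟩ 0 0)) (.pos 3 .pm ⟨0, 0, 0, 0, 0, 0, 0, 0, 0, ⟨0, 0⟩, 0⟩ 0 0)) (.cut .v 268435456 (.cut .v 67108864 (.cut .d 1553447 (.cut .v 33554432 (.cut .d 776723 (.cut .d 388361 (.cut .v 25165824 (.cut .v 20971520 (.pos 17 .pp ⟨177903084, 0, 0, 0, 0, 0,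 0, 0, 0, ⟨0, 0⟩, 0⟩ 0 0) (.pos 18 .pp ⟨339983253, 0, 0, 0, 0, 0, 0, 0, 0, ⟨0, 0⟩, 0⟩ 0 0)) (.pos 16 .pp ⟨647396250, 0, 0, 0, 0, 0, 0, 0, 0, ⟨0, 0⟩, 0⟩ 0 0)) (.pos 14 .pp ⟨169961280, 0, 0, 0, 0, 0, 0, 0, 0, ⟨0, 0⟩, 0⟩ 0 0)) (.pos 14 .pp ⟨0, 0, 0, 0, 0, 0, 0, 0, 0, ⟨0, 0⟩, 0⟩ 0 0)) (.cut .d 776723 (.cut .v 50331648 (.cut .v 41943040 (.pos 86 .pp ⟨1083748413, 0, 0, 0, 0, 0, 0, 0, 0, ⟨0, 0⟩, 0⟩ 0 0) (.void 87 ⟨36146, 63854, 0, 0, 0, 0, 0, 0, 0, ⟨0, 0⟩, 0⟩ 0 0)) (.void 66 ⟨79849, 0, 0, 20151, 0, 0, 0, 0, 0, ⟨0, 0⟩, 0⟩ 0 0)) (.pos 37 .pp ⟨531861315, 437057713, 0, 0, 0, 0, 0, 0, 0, ⟨0, 0⟩, 0⟩ 0 0))) (.pos 36 .pp ⟨0, 0, 0, 0, 0, 0, 0, 0, 0, ⟨0, 0⟩, 0⟩ 0 0)) (.void 50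 ⟨78772, 0, 0, 21228, 0, 0, 0, 0, 0, ⟨0, 0⟩, 0⟩ 0 0)) (.void 75 ⟨0, 0, 0, 100000, 0, 0, 0, 0, 0, ⟨0, 0⟩, 0⟩ 0 0)))),
    by decide +kernel⟩

def covers23 : cell.Covers table row23.1 :=
  ⟨(.cut .d 0 (.cut .v 16777216 (.cut .v 8388608 (.void 2 ⟨0, 0, 100000, 0, 0, 0, 0, 0, 0, ⟨0, 0⟩, 0⟩ 0 0) (.cut .d (-8388608) (.void 3 ⟨100000, 0, 0, 0, 0, 0, 0, 0, 0, ⟨0, 0⟩, 0⟩ 0 0) (.cut .d (-4194304) (.void 3 ⟨57905, 0, 42095, 0, 0, 0, 0, 0, 0, ⟨0, 0⟩, 0⟩ 0 0) (.cut .d (-2097152) (.void 3 ⟨0, 0, 0, 0, 0, 100000, 0, 0, 0, ⟨0, 0⟩, 0⟩ 0 0) (.cut .d (-1048576) (.void 3 ⟨0, 0, 0, 0, 0, 100000, 0, 0, 0, ⟨0, 0⟩, 0⟩ 0 0) (.cut .v 12582912 (.pos 6 .mm ⟨0, 0, 26123980, 0, 0, 500528085,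 0, 0, 0, ⟨0, 0⟩, 0⟩ 0 0) (.cut .d (-524288) (.void 7 ⟨0, 0, 0, 0, 0, 100000, 0, 0, 0, ⟨0, 0⟩, 0⟩ 0 0) (.cut .d (-262144) (.void 7 ⟨0, 0, 0, 0, 0, 100000, 0, 0, 0, ⟨0, 0⟩, 0⟩ 0 0) (.cut .s 14647296 (.pos 7 .mm ⟨0, 0, 0, 0, 0, 590454290, 0, 0, 0, ⟨0, 0⟩, 0⟩ 0 0) (.cut .s 14729216 (.pos 7 .mm ⟨0, 0, 0, 0, 0, 644384120, 0, 0, 0, ⟨0, 0⟩, 0⟩ 0 0) (.pos 7 .mm ⟨0, 0, 0, 0, 0, 698280000, 0, 0, 0, ⟨0, 0⟩, 0⟩ 0 0))))))))))) (.cut .v 268435456 (.cut .v 67108864 (.cut .v 33554432 (.cut .d (-8388608) (.void 14 ⟨100000, 0, 0, 0, 0, 0, 0, 0, 0, ⟨0, 0⟩, 0⟩ 0 0) (.cut .v 25165824 (.cut .d (-4194304) (.void 15 ⟨100000, 0, 0, 0, 0, 0, 0, 0, 0, ⟨0, 0⟩, 0⟩ 0 0) (.cut .v 20971520 (.cut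 .d (-2097152) (.void 17 ⟨100000, 0, 0, 0, 0, 0, 0, 0, 0, ⟨0, 0⟩, 0⟩ 0 0) (.cut .d (-1048576) (.void 17 ⟨100000, 0, 0, 0, 0, 0, 0, 0, 0, ⟨0, 0⟩, 0⟩ 0 0) (.cut .d (-524288) (.void 17 ⟨100000, 0, 0, 0, 0, 0, 0, 0, 0, ⟨0, 0⟩, 0⟩ 0 0) (.cut .d (-262144) (.void 17 ⟨0, 0, 0, 0, 0, 100000, 0, 0, 0, ⟨0, 0⟩, 0⟩ 0 0) (.cut .v 18874368 (.cut .d (-131072) (.cut .d (-196608) (.void 19 ⟨0, 0, 0, 0, 0, 100000, 0, 0, 0, ⟨0, 0⟩, 0⟩ 0 0) (.cut .l 2125114 (.void 19 ⟨0, 0, 0, 0, 0, 100000, 0, 0, 0, ⟨0, 0⟩, 0⟩ 0 0) (.cut .v 17825792 (.cut .s 14647296 (.cut .v 17301504 (.pos 23 .mp ⟨0, 0, 0, 0, 0, 651752158, 0, 0, 0, ⟨0, 0⟩, 0⟩ 0 0) (.cut .s 14565376 (.cut .s 14524416 (.pos 24 .mp ⟨134673108,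 0, 0, 0, 0, 358288819, 0, 0, 0, ⟨0, 0⟩, 0⟩ 0 0) (.cut .v 17563648 (.pos 55 .mp ⟨107770976, 0, 0, 0, 0, 420488678, 0, 0, 0, ⟨0, 0⟩, 0⟩ 0 0) (.pos 56 .mp ⟨183743481, 0, 0, 0, 0, 274340456, 0, 0, 0, ⟨0, 0⟩, 0⟩ 0 0))) (.cut .l 2880089 (.pos 24 .mp ⟨161131982, 0, 0, 0, 0, 388857976, 0, 0, 0, ⟨0, 0⟩, 0⟩ 0 0) (.cut .v 17563648 (.pos 55 .mp ⟨58201497, 0, 0, 0, 0, 547347106, 0, 0, 0, ⟨0, 0⟩, 0⟩ 0 0) (.cut .d (-163840) (.cut .s 14606336 (.pos 56 .mp ⟨167203554, 0, 0, 0, 0, 354103419, 0, 0, 0, ⟨0, 0⟩, 0⟩ 0 0) (.pos 56 .mp ⟨173929179, 0, 0, 0, 0, 366608936, 0, 0, 0, ⟨0, 0⟩, 0⟩ 0 0)) (.pos 56 .mp ⟨198368122, 0, 0, 0, 0, 260954201, 0, 0, 0, ⟨0, 0⟩, 0⟩ 0 0)))))) (.cut .l 2880089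 (.pos 21 .mp ⟨162123777, 0, 0, 0, 0, 488904601, 0, 0, 0, ⟨0, 0⟩, 0⟩ 0 0) (.cut .v 17301504 (.pos 23 .mp ⟨0, 0, 0, 0, 0, 723541436, 0, 0, 0, ⟨0, 0⟩, 0⟩ 0 0) (.cut .v 17563648 (.pos 55 .mp ⟨0, 0, 0, 0, 0, 740831102, 0, 0, 0, ⟨0, 0⟩, 0⟩ 0 0) (.cut .d (-163840) (.cut .s 14729216 (.cut .s 14688256 (.pos 56 .mp ⟨180945965, 0, 0, 0, 0, 379653972, 0, 0, 0, ⟨0, 0⟩, 0⟩ 0 0) (.pos 56 .mp ⟨188270908, 0, 0, 0, 0, 393196756, 0, 0, 0, ⟨0, 0⟩, 0⟩ 0 0)) (.pos 56 .mp ⟨195922368, 0, 0, 0, 0, 423142291, 0, 0, 0, ⟨0, 0⟩, 0⟩ 0 0)) (.cut .s 14729216 (.pos 56 .mp ⟨212044543, 0, 0, 0, 0, 283689042, 0, 0, 0, ⟨0, 0⟩, 0⟩ 0 0) (.pos 56 .mp ⟨227572457, 0, 0, 0, 0, 308135382, 0, 0, 0, ⟨0, 0⟩,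 0⟩ 0 0))))))) (.cut .s 14647296 (.pos 22 .mp ⟨357117259, 0, 0, 0, 0, 0, 0, 0, 0, ⟨0, 0⟩, 0⟩ 0 0) (.pos 22 .mp ⟨409199308, 0, 0, 0, 0, 0, 0, 0, 0, ⟨0, 0⟩, 0⟩ 0 0))))) (.cut .v 17825792 (.cut .s 14647296 (.cut .v 17301504 (.cut .l 2125114 (.cut .d (-65536) (.cut .s 14565376 (.pos 23 .mp ⟨115867033, 0, 0, 0, 0, 383504786, 0, 0, 0, ⟨0, 0⟩, 0⟩ 0 0) (.cut .s 14606336 (.pos 23 .mp ⟨124211522, 0, 0, 0, 0, 396889922, 0, 0, 0, ⟨0, 0⟩, 0⟩ 0 0) (.pos 23 .mp ⟨128605284, 0, 0, 0, 0, 411078559, 0, 0, 0, ⟨0, 0⟩, 0⟩ 0 0))) (.cut .l 1370139 (.cut .d (-32768) (.cut .s 14565376 (.cut .v 17039360 (.pos 46 .mp ⟨119399582, 0, 0, 0, 0, 343079462, 0, 0, 0, ⟨0, 0⟩, 0⟩ 0 0) (.pos 47 .mp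 ⟨160843378, 0, 0, 0, 0, 261825439, 0, 0, 0, ⟨0, 0⟩, 0⟩ 0 0)) (.cut .v 17039360 (.pos 46 .mp ⟨122733973, 0, 0, 0, 0, 380573697, 0, 0, 0, ⟨0, 0⟩, 0⟩ 0 0) (.cut .s 14606336 (.pos 47 .mp ⟨166486742, 0, 0, 0, 0, 280477312, 0, 0, 0, ⟨0, 0⟩, 0⟩ 0 0) (.pos 47 .mp ⟨172368272, 0, 0, 0, 0, 290999749, 0, 0, 0, ⟨0, 0⟩, 0⟩ 0 0)))) (.cut .v 17039360 (.cut .v 16908288 (.pos 53 .mp ⟨0, 0, 0, 0, 0, 512572742, 0, 0, 0, ⟨0, 0⟩, 0⟩ 0 0) (.cut .s 14565376 (.pos 54 .mp ⟨137166379, 0, 0, 0, 0, 265892493, 0, 0, 0, ⟨0, 0⟩, 0⟩ 0 0) (.cut .s 14606336 (.pos 54 .mp ⟨141722169, 0, 0, 0, 0, 292453528, 0, 0, 0, ⟨0, 0⟩, 0⟩ 0 0) (.pos 54 .mp ⟨146450571, 0, 0, 0, 0, 304625414, 0, 0, 0, ⟨0, 0⟩, 0⟩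 0 0)))) (.pos 47 .mp ⟨277033006, 0, 0, 0, 0, 0, 0, 0, 0, ⟨0, 0⟩, 0⟩ 0 0))) (.pos 23 .mp ⟨149582854, 0, 0, 0, 0, 175913424, 0, 0, 0, ⟨0, 0⟩, 0⟩ 0 0))) (.pos 23 .mp ⟨0, 0, 0, 0, 0, 549623544, 0, 0, 0, ⟨0, 0⟩, 0⟩ 0 0)) (.cut .d (-65536) (.cut .v 17563648 (.cut .l 2125114 (.cut .d (-98304) (.pos 55 .mp ⟨206800543, 0, 0, 0, 0, 248210370, 0, 0, 0, ⟨0, 0⟩, 0⟩ 0 0) (.pos 55 .mp ⟨310694660, 0, 0, 0, 0, 0, 0, 0, 0, ⟨0, 0⟩, 0⟩ 0 0)) (.cut .s 14565376 (.pos 55 .mp ⟨171682483, 0, 0, 0, 0, 244657502, 0, 0, 0, ⟨0, 0⟩, 0⟩ 0 0) (.pos 55 .mp ⟨185155772, 0, 0, 0, 0, 259341479, 0, 0, 0, ⟨0, 0⟩, 0⟩ 0 0))) (.pos 56 .mp ⟨308960259, 0, 0, 0, 0, 0, 0, 0, 0, ⟨0, 0⟩, 0⟩ 0 0)) (.pos 24 .mp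 ⟨285480384, 0, 0, 0, 0, 0, 0, 0, 0, ⟨0, 0⟩, 0⟩ 0 0))) (.cut .v 17301504 (.cut .l 2125114 (.cut .d (-65536) (.cut .s 14729216 (.cut .s 14688256 (.pos 23 .mp ⟨133158135, 0, 0, 0, 0, 426621650, 0, 0, 0, ⟨0, 0⟩, 0⟩ 0 0) (.pos 23 .mp ⟨137879473, 0, 0, 0, 0, 443599780, 0, 0, 0, ⟨0, 0⟩, 0⟩ 0 0)) (.pos 23 .mp ⟨142779448, 0, 0, 0, 0, 478145202, 0, 0, 0, ⟨0, 0⟩, 0⟩ 0 0)) (.cut .l 1370139 (.cut .d (-32768) (.cut .s 14729216 (.cut .v 17039360 (.pos 46 .mp ⟨127326345, 0, 0, 0, 0, 420895265, 0, 0, 0, ⟨0, 0⟩, 0⟩ 0 0) (.cut .s 14688256 (.pos 47 .mp ⟨178501896, 0, 0, 0, 0, 302383338, 0, 0, 0, ⟨0, 0⟩, 0⟩ 0 0) (.pos 47 .mp ⟨184902653, 0, 0, 0, 0, 314634803, 0, 0, 0, ⟨0, 0⟩, 0⟩ 0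 0))) (.cut .v 17039360 (.pos 46 .mp ⟨135206966, 0, 0, 0, 0, 458004238, 0, 0, 0, ⟨0, 0⟩, 0⟩ 0 0) (.cut .s 14770176 (.pos 47 .mp ⟨191586812, 0, 0, 0, 0, 327759653, 0, 0, 0, ⟨0, 0⟩, 0⟩ 0 0) (.pos 47 .mp ⟨198571997, 0, 0, 0, 0, 341761972, 0, 0, 0, ⟨0, 0⟩, 0⟩ 0 0)))) (.cut .v 17039360 (.cut .d (-16384) (.cut .v 16908288 (.pos 53 .mp ⟨0, 0, 0, 0, 0, 612064792, 0, 0, 0, ⟨0, 0⟩, 0⟩ 0 0) (.cut .s 14729216 (.cut .s 14688256 (.pos 54 .mp ⟨151361749, 0, 0, 0, 0, 322515677, 0, 0, 0, ⟨0, 0⟩, 0⟩ 0 0) (.pos 54 .mp ⟨156466678, 0, 0, 0, 0, 336073105, 0, 0, 0, ⟨0, 0⟩, 0⟩ 0 0)) (.pos 54 .mp ⟨167306277, 0, 0, 0, 0, 346555603, 0, 0, 0, ⟨0, 0⟩, 0⟩ 0 0))) (.pos 46 .mp ⟨0, 0, 0, 0, 0,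 0, 0, 0, 0, ⟨0, 0⟩, 0⟩ 0 0)) (.pos 47 .mp ⟨315768701, 0, 0, 0, 0, 0, 0, 0, 0, ⟨0, 0⟩, 0⟩ 0 0))) (.pos 23 .mp ⟨163227556, 0, 0, 0, 0, 290654325, 0, 0, 0, ⟨0, 0⟩, 0⟩ 0 0))) (.cut .s 14729216 (.pos 23 .mp ⟨0, 0, 0, 0, 0, 625962018, 0, 0, 0, ⟨0, 0⟩, 0⟩ 0 0) (.pos 23 .mp ⟨0, 0, 0, 0, 0, 676711036, 0, 0, 0, ⟨0, 0⟩, 0⟩ 0 0))) (.cut .d (-65536) (.cut .l 2125114 (.cut .s 14729216 (.pos 24 .mp ⟨239911021, 0, 0, 0, 0, 226028067, 0, 0, 0, ⟨0, 0⟩, 0⟩ 0 0) (.pos 24 .mp ⟨261586270, 0, 0, 0, 0, 237654231, 0, 0, 0, ⟨0, 0⟩, 0⟩ 0 0)) (.cut .l 2880089 (.cut .s 14729216 (.pos 24 .mp ⟨206471616, 0, 0, 0, 0, 270337395, 0, 0, 0, ⟨0, 0⟩, 0⟩ 0 0) (.pos 24 .mp ⟨223064703, 0, 0, 0, 0, 290336160,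 0, 0, 0, ⟨0, 0⟩, 0⟩ 0 0)) (.pos 24 .mp ⟨202775002, 0, 0, 0, 0, 198445018, 0, 0, 0, ⟨0, 0⟩, 0⟩ 0 0))) (.pos 24 .mp ⟨326625166, 0, 0, 0, 0, 0, 0, 0, 0, ⟨0, 0⟩, 0⟩ 0 0)))) (.cut .s 14647296 (.pos 22 .mp ⟨317898007, 0, 0, 0, 0, 0, 0, 0, 0, ⟨0, 0⟩, 0⟩ 0 0) (.pos 22 .mp ⟨366460640, 0, 0, 0, 0, 0, 0, 0, 0, ⟨0, 0⟩, 0⟩ 0 0)))) (.pos 20 .mp ⟨444464260, 0, 0, 0, 0, 0, 0, 0, 0, ⟨0, 0⟩, 0⟩ 0 0)))))) (.void 18 ⟨100000, 0, 0, 0, 0, 0, 0, 0, 0, ⟨0, 0⟩, 0⟩ 0 0))) (.void 16 ⟨100000, 0, 0, 0, 0, 0, 0, 0, 0, ⟨0, 0⟩, 0⟩ 0 0))) (.void 37 ⟨100000, 0, 0, 0, 0, 0, 0, 0, 0, ⟨0, 0⟩, 0⟩ 0 0)) (.void 50 ⟨100000, 0, 0, 0, 0, 0, 0, 0, 0, ⟨0, 0⟩, 0⟩ 0 0)) (.void 75 ⟨88801, 0, 0, 11199, 0, 0,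 0, 0, 0, ⟨0, 0⟩, 0⟩ 0 0))) (.cut .v 16777216 (.cut .v 8388608 (.cut .v 4194304 (.cut .v 2097152 (.cut .v 1048576 (.pos 88 .pm ⟨0, 0, 27698260, 0, 0, 0, 0, 0, 9919153, ⟨0, 0⟩, 1983364⟩ 0 0) (.pos 89 .pm ⟨0, 0, 13959471, 0, 0, 0, 0, 0, 0, ⟨0, 0⟩, 0⟩ 0 0)) (.pos 79 .pm ⟨0, 0, 8407036, 0, 0, 0, 0, 0, 0, ⟨0, 0⟩, 0⟩ 0 0)) (.pos 5 .pm ⟨0, 0, 7847779, 0, 0, 0, 0, 0, 0, ⟨0, 0⟩, 0⟩ 0 0)) (.pos 3 .pm ⟨0, 0, 0, 0, 0, 0, 0, 0, 0, ⟨0, 0⟩, 0⟩ 0 0)) (.cut .v 268435456 (.cut .v 67108864 (.cut .d 1328514 (.cut .v 33554432 (.cut .d 664257 (.cut .d 332128 (.cut .v 25165824 (.cut .v 20971520 (.pos 17 .pp ⟨228064355, 0, 0, 0, 0, 0, 0, 0, 0, ⟨0, 0⟩, 0⟩ 0 0) (.pos 18 .pp ⟨439931597,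 0, 0, 0, 0, 0, 0, 0, 0, ⟨0, 0⟩, 0⟩ 0 0)) (.pos 16 .pp ⟨832886648, 0, 0, 0, 0, 0, 0, 0, 0, ⟨0, 0⟩, 0⟩ 0 0)) (.pos 14 .pp ⟨232672883, 0, 0, 0, 0, 0, 0, 0, 0, ⟨0, 0⟩, 0⟩ 0 0)) (.pos 14 .pp ⟨0, 0, 0, 0, 0, 0, 0, 0, 0, ⟨0, 0⟩, 0⟩ 0 0)) (.cut .d 664257 (.cut .v 50331648 (.cut .v 41943040 (.pos 86 .pp ⟨1359112022, 0, 0, 0, 0, 0, 0, 0, 0, ⟨0, 0⟩, 0⟩ 0 0) (.pos 87 .pp ⟨2524473654, 1564582931, 0, 0, 0, 0, 0, 0, 0, ⟨0, 0⟩, 0⟩ 0 0)) (.void 66 ⟨79540, 0, 0, 20460, 0, 0, 0, 0, 0, ⟨0, 0⟩, 0⟩ 0 0)) (.pos 37 .pp ⟨692047117, 732481551, 0, 0, 0, 0, 0, 0, 0, ⟨0, 0⟩, 0⟩ 0 0))) (.pos 36 .pp ⟨0, 0, 0, 0, 0, 0, 0, 0, 0, ⟨0, 0⟩, 0⟩ 0 0)) (.void 50 ⟨78604, 0, 0, 21396, 0, 0, 0, 0, 0, ⟨0,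 0⟩, 0⟩ 0 0)) (.void 75 ⟨0, 0, 0, 100000, 0, 0, 0, 0, 0, ⟨0, 0⟩, 0⟩ 0 0)))),
    by decide +kernel⟩

def covers24 : cell.Covers table row24.1 :=
  ⟨(.cut .d 0 (.cut .v 16777216 (.cut .v 8388608 (.void 2 ⟨0, 0, 100000, 0, 0, 0, 0, 0, 0, ⟨0, 0⟩, 0⟩ 0 0) (.cut .d (-8388608) (.void 3 ⟨100000, 0, 0, 0, 0, 0, 0, 0, 0, ⟨0, 0⟩, 0⟩ 0 0) (.cut .d (-4194304) (.void 3 ⟨100000, 0, 0, 0, 0, 0, 0, 0, 0, ⟨0, 0⟩, 0⟩ 0 0) (.cut .d (-2097152) (.void 3 ⟨0, 0, 0, 0, 0, 100000, 0, 0, 0, ⟨0, 0⟩, 0⟩ 0 0) (.cut .d (-1048576) (.void 3 ⟨0, 0, 0, 0, 0, 100000, 0, 0, 0, ⟨0, 0⟩, 0⟩ 0 0) (.cut .d (-524288) (.void 3 ⟨0, 0, 0, 0, 0, 100000, 0, 0, 0, ⟨0, 0⟩, 0⟩ 0 0) (.cut .v 12582912 (.pos 6 .mm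 ⟨0, 0, 35341383, 0, 0, 597284921, 0, 0, 0, ⟨0, 0⟩, 0⟩ 0 0) (.cut .d (-262144) (.void 7 ⟨0, 0, 0, 0, 0, 100000, 0, 0, 0, ⟨0, 0⟩, 0⟩ 0 0) (.cut .s 14942208 (.pos 7 .mm ⟨0, 0, 0, 0, 0, 795569377, 0, 0, 0, ⟨0, 0⟩, 0⟩ 0 0) (.cut .s 15007744 (.pos 7 .mm ⟨0, 0, 0, 0, 0, 856045990, 0, 0, 0, ⟨0, 0⟩, 0⟩ 0 0) (.pos 7 .mm ⟨0, 0, 0, 0, 0, 917001683, 0, 0, 0, ⟨0, 0⟩, 0⟩ 0 0))))))))))) (.cut .v 268435456 (.cut .v 67108864 (.cut .v 33554432 (.cut .d (-8388608) (.void 14 ⟨100000, 0, 0, 0, 0, 0, 0, 0, 0, ⟨0, 0⟩, 0⟩ 0 0) (.cut .v 25165824 (.cut .d (-4194304) (.void 15 ⟨100000, 0, 0, 0, 0, 0, 0, 0, 0, ⟨0, 0⟩, 0⟩ 0 0) (.cut .v 20971520 (.cut .d (-2097152) (.void 17 ⟨100000, 0, 0,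 0, 0, 0, 0, 0, 0, ⟨0, 0⟩, 0⟩ 0 0) (.cut .d (-1048576) (.void 17 ⟨100000, 0, 0, 0, 0, 0, 0, 0, 0, ⟨0, 0⟩, 0⟩ 0 0) (.cut .d (-524288) (.void 17 ⟨100000, 0, 0, 0, 0, 0, 0, 0, 0, ⟨0, 0⟩, 0⟩ 0 0) (.cut .d (-262144) (.void 17 ⟨0, 0, 0, 0, 0, 100000, 0, 0, 0, ⟨0, 0⟩, 0⟩ 0 0) (.cut .v 18874368 (.cut .d (-131072) (.cut .d (-196608) (.void 19 ⟨0, 0, 0, 0, 0, 100000, 0, 0, 0, ⟨0, 0⟩, 0⟩ 0 0) (.cut .v 17825792 (.cut .v 17301504 (.pos 23 .mp ⟨0, 0, 0, 0, 0, 1017035384, 0, 0, 0, ⟨0, 0⟩, 0⟩ 0 0) (.cut .d (-163840) (.void 24 ⟨0, 0, 0, 0, 0, 100000, 0, 0, 0, ⟨0, 0⟩, 0⟩ 0 0) (.cut .l 2125114 (.void 24 ⟨100000, 0, 0, 0, 0, 0, 0, 0, 0, ⟨0, 0⟩, 0⟩ 0 0) (.cut .l 2880089 (.void 24 ⟨0,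 0, 0, 0, 0, 100000, 0, 0, 0, ⟨0, 0⟩, 0⟩ 0 0) (.cut .s 14942208 (.cut .s 14876672 (.pos 24 .mp ⟨183182416, 0, 0, 0, 0, 497699722, 0, 0, 0, ⟨0, 0⟩, 0⟩ 0 0) (.cut .s 14909440 (.pos 24 .mp ⟨196097297, 0, 0, 0, 0, 507039497, 0, 0, 0, ⟨0, 0⟩, 0⟩ 0 0) (.cut .d (-147456) (.pos 24 .mp ⟨217938141, 0, 0, 0, 0, 507837113, 0, 0, 0, ⟨0, 0⟩, 0⟩ 0 0) (.pos 24 .mp ⟨206324901, 0, 0, 0, 0, 496464246, 0, 0, 0, ⟨0, 0⟩, 0⟩ 0 0)))) (.cut .d (-147456) (.void 24 ⟨0, 0, 0, 0, 0, 100000, 0, 0, 0, ⟨0, 0⟩, 0⟩ 0 0) (.cut .s 15007744 (.cut .s 14974976 (.pos 24 .mp ⟨213605462, 0, 0, 0, 0, 509820034, 0, 0, 0, ⟨0, 0⟩, 0⟩ 0 0) (.pos 24 .mp ⟨217327413, 0, 0, 0, 0, 540132551, 0, 0, 0, ⟨0, 0⟩, 0⟩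 0 0)) (.pos 24 .mp ⟨224954414, 0, 0, 0, 0, 576368258, 0, 0, 0, ⟨0, 0⟩, 0⟩ 0 0)))))))) (.pos 22 .mp ⟨542658940, 0, 0, 0, 0, 0, 0, 0, 0, ⟨0, 0⟩, 0⟩ 0 0))) (.cut .v 17825792 (.cut .d (-65536) (.cut .l 2125114 (.cut .l 1370139 (.void 21 ⟨0, 0, 0, 0, 0, 100000, 0, 0, 0, ⟨0, 0⟩, 0⟩ 0 0) (.cut .d (-98304) (.void 21 ⟨0, 0, 0, 0, 0, 100000, 0, 0, 0, ⟨0, 0⟩, 0⟩ 0 0) (.cut .v 17301504 (.cut .s 14942208 (.pos 23 .mp ⟨153155002, 0, 0, 0, 0, 540658771, 0, 0, 0, ⟨0, 0⟩, 0⟩ 0 0) (.cut .s 15007744 (.pos 23 .mp ⟨172924451, 0, 0, 0, 0, 569251498, 0, 0, 0, ⟨0, 0⟩, 0⟩ 0 0) (.pos 23 .mp ⟨183846488, 0, 0, 0, 0, 607997076, 0, 0, 0, ⟨0, 0⟩, 0⟩ 0 0))) (.cut .s 14942208 (.pos 24 .mp ⟨298690241,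 0, 0, 0, 0, 245650102, 0, 0, 0, ⟨0, 0⟩, 0⟩ 0 0) (.pos 24 .mp ⟨356239216, 0, 0, 0, 0, 238485183, 0, 0, 0, ⟨0, 0⟩, 0⟩ 0 0))))) (.cut .v 17301504 (.cut .s 14942208 (.pos 23 .mp ⟨0, 0, 0, 0, 0, 804120512, 0, 0, 0, ⟨0, 0⟩, 0⟩ 0 0) (.pos 23 .mp ⟨0, 0, 0, 0, 0, 914677561, 0, 0, 0, ⟨0, 0⟩, 0⟩ 0 0)) (.cut .s 14942208 (.cut .d (-98304) (.cut .s 14876672 (.pos 24 .mp ⟨238200295, 0, 0, 0, 0, 321517188, 0, 0, 0, ⟨0, 0⟩, 0⟩ 0 0) (.cut .l 2880089 (.pos 24 .mp ⟨192480922, 0, 0, 0, 0, 523820811, 0, 0, 0, ⟨0, 0⟩, 0⟩ 0 0) (.pos 24 .mp ⟨231903971, 0, 0, 0, 0, 375434076, 0, 0, 0, ⟨0, 0⟩, 0⟩ 0 0))) (.pos 24 .mp ⟨227550020, 0, 0, 0, 0, 335491441, 0, 0, 0, ⟨0, 0⟩, 0⟩ 0 0)) (.cut .s 15007744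 (.cut .d (-98304) (.cut .l 2880089 (.pos 24 .mp ⟨205320967, 0, 0, 0, 0, 555695994, 0, 0, 0, ⟨0, 0⟩, 0⟩ 0 0) (.cut .v 17563648 (.pos 55 .mp ⟨128479156, 0, 0, 0, 0, 660607298, 0, 0, 0, ⟨0, 0⟩, 0⟩ 0 0) (.pos 56 .mp ⟨256613749, 0, 0, 0, 0, 399252960, 0, 0, 0, ⟨0, 0⟩, 0⟩ 0 0))) (.pos 24 .mp ⟨242753340, 0, 0, 0, 0, 390883657, 0, 0, 0, ⟨0, 0⟩, 0⟩ 0 0)) (.cut .d (-98304) (.cut .l 2880089 (.pos 24 .mp ⟨219120068, 0, 0, 0, 0, 591678390, 0, 0, 0, ⟨0, 0⟩, 0⟩ 0 0) (.cut .v 17563648 (.pos 55 .mp ⟨136968560, 0, 0, 0, 0, 702992175, 0, 0, 0, ⟨0, 0⟩, 0⟩ 0 0) (.pos 56 .mp ⟨266858037, 0, 0, 0, 0, 442083254, 0, 0, 0, ⟨0, 0⟩, 0⟩ 0 0))) (.pos 24 .mp ⟨259206127, 0, 0, 0, 0, 412918247,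 0, 0, 0, ⟨0, 0⟩, 0⟩ 0 0)))))) (.cut .l 2125114 (.cut .s 14942208 (.cut .v 17301504 (.cut .d (-32768) (.cut .l 1370139 (.cut .d (-49152) (.pos 23 .mp ⟨161577266, 0, 0, 0, 0, 556645955, 0, 0, 0, ⟨0, 0⟩, 0⟩ 0 0) (.cut .v 17039360 (.cut .s 14876672 (.pos 46 .mp ⟨145183134, 0, 0, 0, 0, 506170652, 0, 0, 0, ⟨0, 0⟩, 0⟩ 0 0) (.pos 46 .mp ⟨153510137, 0, 0, 0, 0, 533764537, 0, 0, 0, ⟨0, 0⟩, 0⟩ 0 0)) (.cut .s 14876672 (.pos 47 .mp ⟨198615751, 0, 0, 0, 0, 384061825, 0, 0, 0, ⟨0, 0⟩, 0⟩ 0 0) (.pos 47 .mp ⟨210505001, 0, 0, 0, 0, 405995220, 0, 0, 0, ⟨0, 0⟩, 0⟩ 0 0)))) (.cut .s 14876672 (.pos 23 .mp ⟨162007245, 0, 0, 0, 0, 436052632, 0, 0, 0, ⟨0, 0⟩, 0⟩ 0 0) (.pos 23 .mp ⟨179195864,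 0, 0, 0, 0, 440300868, 0, 0, 0, ⟨0, 0⟩, 0⟩ 0 0))) (.cut .d (-16384) (.cut .v 17039360 (.cut .s 14876672 (.pos 46 .mp ⟨153718113, 0, 0, 0, 0, 451816436, 0, 0, 0, ⟨0, 0⟩, 0⟩ 0 0) (.cut .s 14909440 (.pos 46 .mp ⟨162105939, 0, 0, 0, 0, 464861675, 0, 0, 0, ⟨0, 0⟩, 0⟩ 0 0) (.pos 46 .mp ⟨166496097, 0, 0, 0, 0, 481220233, 0, 0, 0, ⟨0, 0⟩, 0⟩ 0 0))) (.pos 47 .mp ⟨363591288, 0, 0, 0, 0, 0, 0, 0, 0, ⟨0, 0⟩, 0⟩ 0 0)) (.pos 23 .mp ⟨176906785, 0, 0, 0, 0, 0, 0, 0, 0, ⟨0, 0⟩, 0⟩ 0 0))) (.pos 24 .mp ⟨395698563, 0, 0, 0, 0, 0, 0, 0, 0, ⟨0, 0⟩, 0⟩ 0 0)) (.cut .v 17301504 (.cut .d (-32768) (.cut .l 1370139 (.cut .d (-49152) (.pos 23 .mp ⟨181493183, 0, 0, 0, 0, 629224669, 0, 0, 0,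 ⟨0, 0⟩, 0⟩ 0 0) (.cut .l 992651 (.cut .v 17039360 (.pos 46 .mp ⟨172885097, 0, 0, 0, 0, 595416433, 0, 0, 0, ⟨0, 0⟩, 0⟩ 0 0) (.pos 47 .mp ⟨237160275, 0, 0, 0, 0, 463661688, 0, 0, 0, ⟨0, 0⟩, 0⟩ 0 0)) (.cut .s 15007744 (.pos 23 .mp ⟨202550219, 0, 0, 0, 0, 436388280, 0, 0, 0, ⟨0, 0⟩, 0⟩ 0 0) (.pos 23 .mp ⟨178669573, 0, 0, 0, 0, 591810092, 0, 0, 0, ⟨0, 0⟩, 0⟩ 0 0)))) (.cut .s 15007744 (.pos 23 .mp ⟨159130372, 0, 0, 0, 0, 554806226, 0, 0, 0, ⟨0, 0⟩, 0⟩ 0 0) (.pos 23 .mp ⟨168191205, 0, 0, 0, 0, 593608570, 0, 0, 0, ⟨0, 0⟩, 0⟩ 0 0))) (.cut .d (-16384) (.cut .l 1370139 (.cut .l 992651 (.cut .v 17039360 (.cut .l 803907 (.cut .v 16908288 (.pos 53 .mp ⟨0, 0, 0, 0, 0, 841520043,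 0, 0, 0, ⟨0, 0⟩, 0⟩ 0 0) (.cut .d (-24576) (.cut .s 15007744 (.pos 54 .mp ⟨180142938, 0, 0, 0, 0, 518430792, 0, 0, 0, ⟨0, 0⟩, 0⟩ 0 0) (.pos 54 .mp ⟨185248499, 0, 0, 0, 0, 570874726, 0, 0, 0, ⟨0, 0⟩, 0⟩ 0 0)) (.cut .s 15007744 (.pos 54 .mp ⟨190981405, 0, 0, 0, 0, 443350931, 0, 0, 0, ⟨0, 0⟩, 0⟩ 0 0) (.pos 54 .mp ⟨202050463, 0, 0, 0, 0, 473252697, 0, 0, 0, ⟨0, 0⟩, 0⟩ 0 0)))) (.pos 46 .mp ⟨165695500, 0, 0, 0, 0, 513216404, 0, 0, 0, ⟨0, 0⟩, 0⟩ 0 0)) (.pos 47 .mp ⟨434018970, 0, 0, 0, 0, 0, 0, 0, 0, ⟨0, 0⟩, 0⟩ 0 0)) (.pos 23 .mp ⟨201238548, 0, 0, 0, 0, 0, 0, 0, 0, ⟨0, 0⟩, 0⟩ 0 0)) (.pos 23 .mp ⟨0, 0, 0, 0, 0, 0, 0, 0, 0, ⟨0, 0⟩, 0⟩ 0 0)) (.pos 23 .mp ⟨194634498, 0, 0,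 0, 0, 0, 0, 0, 0, ⟨0, 0⟩, 0⟩ 0 0))) (.pos 24 .mp ⟨444542069, 0, 0, 0, 0, 0, 0, 0, 0, ⟨0, 0⟩, 0⟩ 0 0))) (.pos 21 .mp ⟨210627090, 0, 0, 0, 0, 0, 0, 0, 0, ⟨0, 0⟩, 0⟩ 0 0))) (.cut .s 14942208 (.pos 22 .mp ⟨420751457, 0, 0, 0, 0, 0, 0, 0, 0, ⟨0, 0⟩, 0⟩ 0 0) (.pos 22 .mp ⟨475605420, 0, 0, 0, 0, 0, 0, 0, 0, ⟨0, 0⟩, 0⟩ 0 0)))) (.pos 20 .mp ⟨579385472, 0, 0, 0, 0, 0, 0, 0, 0, ⟨0, 0⟩, 0⟩ 0 0)))))) (.void 18 ⟨100000, 0, 0, 0, 0, 0, 0, 0, 0, ⟨0, 0⟩, 0⟩ 0 0))) (.void 16 ⟨100000, 0, 0, 0, 0, 0, 0, 0, 0, ⟨0, 0⟩, 0⟩ 0 0))) (.void 37 ⟨100000, 0, 0, 0, 0, 0, 0, 0, 0, ⟨0, 0⟩, 0⟩ 0 0)) (.void 50 ⟨100000, 0, 0, 0, 0, 0, 0, 0, 0, ⟨0, 0⟩, 0⟩ 0 0)) (.void 75 ⟨88625, 0, 0, 11375, 0, 0,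 0, 0, 0, ⟨0, 0⟩, 0⟩ 0 0))) (.cut .v 16777216 (.cut .v 8388608 (.cut .v 4194304 (.cut .v 2097152 (.cut .v 1048576 (.pos 88 .pm ⟨0, 0, 31341477, 0, 0, 0, 0, 0, 13012589, ⟨0, 0⟩, 1983364⟩ 0 0) (.pos 89 .pm ⟨0, 0, 24218747, 0, 0, 0, 0, 0, 0, ⟨0, 0⟩, 0⟩ 0 0)) (.pos 79 .pm ⟨0, 0, 23764400, 0, 0, 0, 0, 0, 0, ⟨0, 0⟩, 0⟩ 0 0)) (.pos 5 .pm ⟨0, 0, 29903768, 0, 0, 0, 0, 0, 0, ⟨0, 0⟩, 0⟩ 0 0)) (.pos 3 .pm ⟨0, 0, 0, 0, 0, 0, 0, 0, 0, ⟨0, 0⟩, 0⟩ 0 0)) (.cut .v 268435456 (.cut .v 67108864 (.cut .d 1113533 (.cut .v 33554432 (.cut .d 556766 (.cut .d 278383 (.cut .v 25165824 (.cut .v 20971520 (.pos 17 .pp ⟨284560061, 0, 0, 0, 0, 0, 0, 0, 0, ⟨0, 0⟩, 0⟩ 0 0) (.pos 18 .pp ⟨565238480,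 0, 0, 0, 0, 0, 0, 0, 0, ⟨0, 0⟩, 0⟩ 0 0)) (.pos 16 .pp ⟨1047179293, 0, 0, 0, 0, 0, 0, 0, 0, ⟨0, 0⟩, 0⟩ 0 0)) (.pos 14 .pp ⟨320922476, 0, 0, 0, 0, 0, 0, 0, 0, ⟨0, 0⟩, 0⟩ 0 0)) (.pos 14 .pp ⟨0, 0, 0, 0, 0, 0, 0, 0, 0, ⟨0, 0⟩, 0⟩ 0 0)) (.cut .v 50331648 (.cut .d 556766 (.cut .v 41943040 (.pos 86 .pp ⟨1680202224, 0, 0, 0, 0, 0, 0, 0, 0, ⟨0, 0⟩, 0⟩ 0 0) (.pos 87 .pp ⟨3090205837, 2019583784, 0, 0, 0, 0, 0, 0, 0, ⟨0, 0⟩, 0⟩ 0 0)) (.pos 65 .pp ⟨1024059459, 251460796, 0, 0, 0, 0, 0, 0, 0, ⟨0, 0⟩, 0⟩ 0 0)) (.void 66 ⟨79038, 0, 0, 20962, 0, 0, 0, 0, 0, ⟨0, 0⟩, 0⟩ 0 0))) (.pos 36 .pp ⟨0, 0, 0, 0, 0, 0, 0, 0, 0, ⟨0, 0⟩, 0⟩ 0 0)) (.void 50 ⟨78509, 0, 0, 21491, 0, 0, 0, 0, 0,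 ⟨0, 0⟩, 0⟩ 0 0)) (.void 75 ⟨0, 0, 0, 100000, 0, 0, 0, 0, 0, ⟨0, 0⟩, 0⟩ 0 0)))),
    by decide +kernel⟩

def covers25 : cell.Covers table row25.1 :=
  ⟨(.cut .d 0 (.cut .v 16777216 (.cut .v 8388608 (.void 2 ⟨0, 0, 100000, 0, 0, 0, 0, 0, 0, ⟨0, 0⟩, 0⟩ 0 0) (.cut .d (-8388608) (.void 3 ⟨100000, 0, 0, 0, 0, 0, 0, 0, 0, ⟨0, 0⟩, 0⟩ 0 0) (.cut .d (-4194304) (.void 3 ⟨100000, 0, 0, 0, 0, 0, 0, 0, 0, ⟨0, 0⟩, 0⟩ 0 0) (.cut .d (-2097152) (.void 3 ⟨57179, 0, 42821, 0, 0, 0, 0, 0, 0, ⟨0, 0⟩, 0⟩ 0 0) (.cut .d (-1048576) (.void 3 ⟨0, 0, 197, 0, 0, 99806, 0, 0, 0, ⟨0, 0⟩, 0⟩ 0 0) (.cut .d (-524288) (.void 3 ⟨0, 0, 0, 0, 0, 100000, 0, 0, 0, ⟨0, 0⟩, 0⟩ 0 0) (.cut .v 12582912 (.pos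 6 .mm ⟨0, 0, 47394399, 0, 0, 761014978, 0, 0, 0, ⟨0, 0⟩, 0⟩ 0 0) (.cut .d (-262144) (.void 7 ⟨0, 0, 0, 0, 0, 100000, 0, 0, 0, ⟨0, 0⟩, 0⟩ 0 0) (.cut .s 15171584 (.pos 7 .mm ⟨0, 0, 0, 0, 0, 1018449899, 0, 0, 0, ⟨0, 0⟩, 0⟩ 0 0) (.cut .s 15220736 (.pos 7 .mm ⟨0, 0, 0, 0, 0, 1079653128, 0, 0, 0, ⟨0, 0⟩, 0⟩ 0 0) (.pos 7 .mm ⟨0, 0, 0, 0, 0, 1141116123, 0, 0, 0, ⟨0, 0⟩, 0⟩ 0 0))))))))))) (.cut .v 268435456 (.cut .v 67108864 (.cut .v 33554432 (.cut .d (-8388608) (.void 14 ⟨100000, 0, 0, 0, 0, 0, 0, 0, 0, ⟨0, 0⟩, 0⟩ 0 0) (.cut .v 25165824 (.cut .d (-4194304) (.void 15 ⟨100000, 0, 0, 0, 0, 0, 0, 0, 0, ⟨0, 0⟩, 0⟩ 0 0) (.cut .d (-2097152) (.void 15 ⟨100000, 0, 0, 0, 0, 0,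 0, 0, 0, ⟨0, 0⟩, 0⟩ 0 0) (.cut .v 20971520 (.cut .d (-1048576) (.void 17 ⟨100000, 0, 0, 0, 0, 0, 0, 0, 0, ⟨0, 0⟩, 0⟩ 0 0) (.cut .d (-524288) (.void 17 ⟨100000, 0, 0, 0, 0, 0, 0, 0, 0, ⟨0, 0⟩, 0⟩ 0 0) (.cut .d (-262144) (.void 17 ⟨100000, 0, 0, 0, 0, 0, 0, 0, 0, ⟨0, 0⟩, 0⟩ 0 0) (.cut .v 18874368 (.cut .d (-131072) (.cut .v 17825792 (.cut .s 15171584 (.pos 21 .mp ⟨224532155, 0, 0, 0, 0, 770818382, 0, 0, 0, ⟨0, 0⟩, 0⟩ 0 0) (.void 21 ⟨0, 0, 0, 0, 0, 100000, 0, 0, 0, ⟨0, 0⟩, 0⟩ 0 0)) (.void 22 ⟨100000, 0, 0, 0, 0, 0, 0, 0, 0, ⟨0, 0⟩, 0⟩ 0 0)) (.cut .v 17825792 (.cut .d (-65536) (.cut .l 2125114 (.cut .d (-98304) (.void 21 ⟨0, 0, 0, 0, 0, 100000, 0, 0, 0, ⟨0, 0⟩, 0⟩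 0 0) (.cut .l 1370139 (.void 21 ⟨0, 0, 0, 0, 0, 100000, 0, 0, 0, ⟨0, 0⟩, 0⟩ 0 0) (.cut .l 1747626 (.void 21 ⟨0, 0, 0, 0, 0, 100000, 0, 0, 0, ⟨0, 0⟩, 0⟩ 0 0) (.cut .v 17301504 (.pos 23 .mp ⟨0, 0, 0, 0, 0, 1153587798, 0, 0, 0, ⟨0, 0⟩, 0⟩ 0 0) (.cut .s 15171584 (.pos 24 .mp ⟨299091485, 0, 0, 0, 0, 485530197, 0, 0, 0, ⟨0, 0⟩, 0⟩ 0 0) (.pos 24 .mp ⟨335068541, 0, 0, 0, 0, 525281119, 0, 0, 0, ⟨0, 0⟩, 0⟩ 0 0)))))) (.cut .v 17301504 (.cut .s 15171584 (.pos 23 .mp ⟨0, 0, 0, 0, 0, 1044194767, 0, 0, 0, ⟨0, 0⟩, 0⟩ 0 0) (.pos 23 .mp ⟨0, 0, 0, 0, 0, 1159655130, 0, 0, 0, ⟨0, 0⟩, 0⟩ 0 0)) (.cut .s 15171584 (.cut .d (-98304) (.cut .l 2880089 (.pos 24 .mp ⟨236463665, 0, 0, 0, 0,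 688501415, 0, 0, 0, ⟨0, 0⟩, 0⟩ 0 0) (.cut .v 17563648 (.pos 55 .mp ⟨23128029, 0, 0, 0, 0, 1040869807, 0, 0, 0, ⟨0, 0⟩, 0⟩ 0 0) (.cut .s 15122432 (.pos 56 .mp ⟨282837881, 0, 0, 0, 0, 487381606, 0, 0, 0, ⟨0, 0⟩, 0⟩ 0 0) (.cut .s 15147008 (.pos 56 .mp ⟨275347140, 0, 0, 0, 0, 544381870, 0, 0, 0, ⟨0, 0⟩, 0⟩ 0 0) (.pos 56 .mp ⟨282167992, 0, 0, 0, 0, 558357680, 0, 0, 0, ⟨0, 0⟩, 0⟩ 0 0))))) (.cut .s 15122432 (.pos 24 .mp ⟨272991712, 0, 0, 0, 0, 457738736, 0, 0, 0, ⟨0, 0⟩, 0⟩ 0 0) (.pos 24 .mp ⟨287726246, 0, 0, 0, 0, 474530964, 0, 0, 0, ⟨0, 0⟩, 0⟩ 0 0))) (.cut .d (-98304) (.cut .l 2880089 (.pos 24 .mp ⟨260069855, 0, 0, 0, 0, 761878539, 0, 0, 0, ⟨0, 0⟩, 0⟩ 0 0) (.cut .v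 17563648 (.pos 55 .mp ⟨13668005, 0, 0, 0, 0, 1171342006, 0, 0, 0, ⟨0, 0⟩, 0⟩ 0 0) (.cut .s 15220736 (.cut .s 15196160 (.pos 56 .mp ⟨289737239, 0, 0, 0, 0, 571920281, 0, 0, 0, ⟨0, 0⟩, 0⟩ 0 0) (.pos 56 .mp ⟨298127851, 0, 0, 0, 0, 584926730, 0, 0, 0, ⟨0, 0⟩, 0⟩ 0 0)) (.cut .d (-114688) (.pos 56 .mp ⟨275529328, 0, 0, 0, 0, 706948758, 0, 0, 0, ⟨0, 0⟩, 0⟩ 0 0) (.pos 56 .mp ⟨306059579, 0, 0, 0, 0, 593242163, 0, 0, 0, ⟨0, 0⟩, 0⟩ 0 0))))) (.cut .l 2880089 (.cut .s 15220736 (.pos 24 .mp ⟨303483725, 0, 0, 0, 0, 510022903, 0, 0, 0, ⟨0, 0⟩, 0⟩ 0 0) (.pos 24 .mp ⟨320363783, 0, 0, 0, 0, 535113048, 0, 0, 0, ⟨0, 0⟩, 0⟩ 0 0)) (.pos 24 .mp ⟨288011790, 0, 0, 0, 0, 502989226, 0, 0,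 0, ⟨0, 0⟩, 0⟩ 0 0)))))) (.cut .l 2125114 (.cut .v 17301504 (.cut .d (-32768) (.cut .s 15171584 (.cut .l 1370139 (.cut .l 992651 (.pos 23 .mp ⟨205494957, 0, 0, 0, 0, 698554241, 0, 0, 0, ⟨0, 0⟩, 0⟩ 0 0) (.cut .s 15122432 (.pos 23 .mp ⟨190912292, 0, 0, 0, 0, 635390662, 0, 0, 0, ⟨0, 0⟩, 0⟩ 0 0) (.pos 23 .mp ⟨197803704, 0, 0, 0, 0, 674167376, 0, 0, 0, ⟨0, 0⟩, 0⟩ 0 0))) (.cut .s 15122432 (.pos 23 .mp ⟨175719327, 0, 0, 0, 0, 647881618, 0, 0, 0, ⟨0, 0⟩, 0⟩ 0 0) (.pos 23 .mp ⟨181324782, 0, 0, 0, 0, 687142473, 0, 0, 0, ⟨0, 0⟩, 0⟩ 0 0))) (.cut .v 17039360 (.pos 46 .mp ⟨0, 0, 0, 0, 0, 1192211483, 0, 0, 0, ⟨0, 0⟩, 0⟩ 0 0) (.cut .s 15220736 (.cut .l 1370139 (.pos 47 .mp ⟨223292198,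 0, 0, 0, 0, 684902403, 0, 0, 0, ⟨0, 0⟩, 0⟩ 0 0) (.pos 47 .mp ⟨197192311, 0, 0, 0, 0, 711621931, 0, 0, 0, ⟨0, 0⟩, 0⟩ 0 0)) (.cut .l 1370139 (.pos 47 .mp ⟨232669888, 0, 0, 0, 0, 727542067, 0, 0, 0, ⟨0, 0⟩, 0⟩ 0 0) (.pos 47 .mp ⟨206395441, 0, 0, 0, 0, 751647564, 0, 0, 0, ⟨0, 0⟩, 0⟩ 0 0))))) (.cut .d (-16384) (.cut .l 1370139 (.cut .l 992651 (.cut .v 17039360 (.cut .v 16908288 (.pos 53 .mp ⟨0, 0, 0, 0, 0, 1047455498, 0, 0, 0, ⟨0, 0⟩, 0⟩ 0 0) (.cut .s 15171584 (.cut .s 15122432 (.pos 54 .mp ⟨194409366, 0, 0, 0, 0, 590646764, 0, 0, 0, ⟨0, 0⟩, 0⟩ 0 0) (.cut .s 15147008 (.pos 54 .mp ⟨202832141, 0, 0, 0, 0, 601709606, 0, 0, 0, ⟨0, 0⟩, 0⟩ 0 0) (.pos 54 .mp ⟨207213656, 0,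 0, 0, 0, 618884553, 0, 0, 0, ⟨0, 0⟩, 0⟩ 0 0))) (.cut .s 15220736 (.cut .s 15196160 (.pos 54 .mp ⟨211715576, 0, 0, 0, 0, 636741815, 0, 0, 0, ⟨0, 0⟩, 0⟩ 0 0) (.pos 54 .mp ⟨216343546, 0, 0, 0, 0, 655265778, 0, 0, 0, ⟨0, 0⟩, 0⟩ 0 0)) (.pos 54 .mp ⟨215692000, 0, 0, 0, 0, 707740686, 0, 0, 0, ⟨0, 0⟩, 0⟩ 0 0)))) (.cut .s 15171584 (.pos 47 .mp ⟨446375174, 0, 0, 0, 0, 103223993, 0, 0, 0, ⟨0, 0⟩, 0⟩ 0 0) (.pos 47 .mp ⟨512658113, 0, 0, 0, 0, 70426921, 0, 0, 0, ⟨0, 0⟩, 0⟩ 0 0))) (.pos 23 .mp ⟨232519074, 0, 0, 0, 0, 459056502, 0, 0, 0, ⟨0, 0⟩, 0⟩ 0 0)) (.pos 23 .mp ⟨0, 0, 0, 0, 0, 0, 0, 0, 0, ⟨0, 0⟩, 0⟩ 0 0)) (.pos 23 .mp ⟨235523162, 0, 0, 0, 0, 0, 0, 0, 0, ⟨0, 0⟩, 0⟩ 0 0)))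 (.cut .s 15171584 (.pos 24 .mp ⟨498457142, 0, 0, 0, 0, 0, 0, 0, 0, ⟨0, 0⟩, 0⟩ 0 0) (.pos 24 .mp ⟨549302984, 0, 0, 0, 0, 0, 0, 0, 0, ⟨0, 0⟩, 0⟩ 0 0))) (.pos 21 .mp ⟨257386273, 0, 0, 0, 0, 0, 0, 0, 0, ⟨0, 0⟩, 0⟩ 0 0))) (.cut .s 15171584 (.pos 22 .mp ⟨554573221, 0, 0, 0, 0, 0, 0, 0, 0, ⟨0, 0⟩, 0⟩ 0 0) (.pos 22 .mp ⟨609306586, 0, 0, 0, 0, 0, 0, 0, 0, ⟨0, 0⟩, 0⟩ 0 0)))) (.pos 20 .mp ⟨718117812, 0, 0, 0, 0, 0, 0, 0, 0, ⟨0, 0⟩, 0⟩ 0 0))))) (.void 18 ⟨100000, 0, 0, 0, 0, 0, 0, 0, 0, ⟨0, 0⟩, 0⟩ 0 0)))) (.void 16 ⟨100000, 0, 0, 0, 0, 0, 0, 0, 0, ⟨0, 0⟩, 0⟩ 0 0))) (.void 37 ⟨100000, 0, 0, 0, 0, 0, 0, 0, 0, ⟨0, 0⟩, 0⟩ 0 0)) (.void 50 ⟨100000, 0, 0, 0, 0, 0, 0, 0, 0, ⟨0, 0⟩,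 0⟩ 0 0)) (.void 75 ⟨88494, 0, 0, 11506, 0, 0, 0, 0, 0, ⟨0, 0⟩, 0⟩ 0 0))) (.cut .v 16777216 (.cut .v 8388608 (.cut .v 4194304 (.cut .v 2097152 (.cut .v 1048576 (.pos 88 .pm ⟨0, 0, 32542842, 0, 0, 0, 0, 0, 0, ⟨0, 0⟩, 0⟩ 0 0) (.pos 89 .pm ⟨0, 0, 37899446, 0, 0, 0, 0, 0, 0, ⟨0, 0⟩, 0⟩ 0 0)) (.pos 79 .pm ⟨0, 0, 41901342, 0, 0, 0, 0, 0, 0, ⟨0, 0⟩, 0⟩ 0 0)) (.pos 5 .pm ⟨0, 0, 58412198, 0, 0, 0, 0, 0, 0, ⟨0, 0⟩, 0⟩ 0 0)) (.pos 3 .pm ⟨0, 0, 0, 0, 0, 0, 0, 0, 0, ⟨0, 0⟩, 0⟩ 0 0)) (.cut .v 268435456 (.cut .v 67108864 (.cut .d 948278 (.cut .v 33554432 (.cut .d 474139 (.cut .v 25165824 (.cut .v 20971520 (.pos 17 .pp ⟨339583778, 0, 0, 0, 0, 0, 0, 0, 0, ⟨0, 0⟩, 0⟩ 0 0) (.pos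 18 .pp ⟨651652650, 0, 0, 0, 0, 0, 0, 0, 0, ⟨0, 0⟩, 0⟩ 0 0)) (.cut .d 237069 (.pos 16 .pp ⟨1264070460, 0, 0, 0, 0, 0, 0, 0, 0, ⟨0, 0⟩, 0⟩ 0 0) (.pos 16 .pp ⟨837530572, 0, 0, 0, 0, 0, 0, 0, 0, ⟨0, 0⟩, 0⟩ 0 0))) (.pos 14 .pp ⟨0, 0, 0, 0, 0, 0, 0, 0, 0, ⟨0, 0⟩, 0⟩ 0 0)) (.cut .v 50331648 (.cut .d 474139 (.cut .v 41943040 (.pos 86 .pp ⟨2006662536, 0, 0, 0, 0, 0, 0, 0, 0, ⟨0, 0⟩, 0⟩ 0 0) (.pos 87 .pp ⟨3650883772, 2480352312, 0, 0, 0, 0, 0, 0, 0, ⟨0, 0⟩, 0⟩ 0 0)) (.pos 65 .pp ⟨1332098937, 447015238, 0, 0, 0, 0, 0, 0, 0, ⟨0, 0⟩, 0⟩ 0 0)) (.void 66 ⟨78902, 0, 0, 21098, 0, 0, 0, 0, 0, ⟨0, 0⟩, 0⟩ 0 0))) (.pos 36 .pp ⟨0, 0, 0, 0, 0, 0, 0, 0, 0, ⟨0, 0⟩, 0⟩ 0 0)) (.void 50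 ⟨78447, 0, 0, 21553, 0, 0, 0, 0, 0, ⟨0, 0⟩, 0⟩ 0 0)) (.void 75 ⟨0, 0, 0, 100000, 0, 0, 0, 0, 0, ⟨0, 0⟩, 0⟩ 0 0)))),
    by decide +kernel⟩

def covers26 : cell.Covers table row26.1 :=
  ⟨(.cut .d 0 (.cut .v 16777216 (.cut .v 8388608 (.void 2 ⟨0, 0, 100000, 0, 0, 0, 0, 0, 0, ⟨0, 0⟩, 0⟩ 0 0) (.cut .d (-8388608) (.void 3 ⟨100000, 0, 0, 0, 0, 0, 0, 0, 0, ⟨0, 0⟩, 0⟩ 0 0) (.cut .d (-4194304) (.void 3 ⟨100000, 0, 0, 0, 0, 0, 0, 0, 0, ⟨0, 0⟩, 0⟩ 0 0) (.cut .d (-2097152) (.void 3 ⟨56941, 0, 43059, 0, 0, 0, 0, 0, 0, ⟨0, 0⟩, 0⟩ 0 0) (.cut .d (-1048576) (.void 3 ⟨0, 0, 0, 0, 0, 100000, 0, 0, 0, ⟨0, 0⟩, 0⟩ 0 0) (.cut .d (-524288) (.void 3 ⟨0, 0, 0, 0, 0, 100000, 0, 0, 0, ⟨0,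 0⟩, 0⟩ 0 0) (.cut .d (-262144) (.void 3 ⟨0, 0, 0, 0, 0, 100000, 0, 0, 0, ⟨0, 0⟩, 0⟩ 0 0) (.cut .v 12582912 (.pos 6 .mm ⟨0, 0, 64458057, 0, 0, 965019406, 0, 0, 0, ⟨0, 0⟩, 0⟩ 0 0) (.cut .d (-131072) (.void 7 ⟨0, 0, 0, 0, 0, 100000, 0, 0, 0, ⟨0, 0⟩, 0⟩ 0 0) (.cut .d (-65536) (.pos 7 .mm ⟨0, 0, 0, 0, 0, 1497714442, 0, 0, 0, ⟨0, 0⟩, 0⟩ 0 0) (.cut .s 15400960 (.pos 7 .mm ⟨0, 0, 0, 0, 0, 1221254205, 0, 0, 0, ⟨0, 0⟩, 0⟩ 0 0) (.pos 7 .mm ⟨0, 0, 0, 0, 0, 1429919480, 0, 0, 0, ⟨0, 0⟩, 0⟩ 0 0)))))))))))) (.cut .v 268435456 (.cut .v 67108864 (.cut .v 33554432 (.cut .d (-8388608) (.void 14 ⟨100000, 0, 0, 0, 0, 0, 0, 0, 0, ⟨0, 0⟩, 0⟩ 0 0) (.cut .v 25165824 (.cut .d (-4194304)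 (.void 15 ⟨100000, 0, 0, 0, 0, 0, 0, 0, 0, ⟨0, 0⟩, 0⟩ 0 0) (.cut .d (-2097152) (.void 15 ⟨100000, 0, 0, 0, 0, 0, 0, 0, 0, ⟨0, 0⟩, 0⟩ 0 0) (.cut .v 20971520 (.cut .d (-1048576) (.void 17 ⟨100000, 0, 0, 0, 0, 0, 0, 0, 0, ⟨0, 0⟩, 0⟩ 0 0) (.cut .d (-524288) (.void 17 ⟨100000, 0, 0, 0, 0, 0, 0, 0, 0, ⟨0, 0⟩, 0⟩ 0 0) (.cut .d (-262144) (.void 17 ⟨100000, 0, 0, 0, 0, 0, 0, 0, 0, ⟨0, 0⟩, 0⟩ 0 0) (.cut .d (-131072) (.void 17 ⟨0, 0, 0, 0, 0, 100000, 0, 0, 0, ⟨0, 0⟩, 0⟩ 0 0) (.cut .v 18874368 (.cut .v 17825792 (.cut .d (-65536) (.cut .l 2125114 (.cut .v 17301504 (.pos 23 .mp ⟨0, 0, 0, 0, 0, 1698847005, 0, 0, 0, ⟨0, 0⟩, 0⟩ 0 0) (.pos 24 .mp ⟨276857183, 0, 0, 0, 0, 1171342932,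 0, 0, 0, ⟨0, 0⟩, 0⟩ 0 0)) (.cut .s 15400960 (.cut .v 17301504 (.pos 23 .mp ⟨0, 0, 0, 0, 0, 1348728687, 0, 0, 0, ⟨0, 0⟩, 0⟩ 0 0) (.cut .d (-98304) (.cut .d (-114688) (.pos 24 .mp ⟨281447764, 0, 0, 0, 0, 941566155, 0, 0, 0, ⟨0, 0⟩, 0⟩ 0 0) (.cut .l 2880089 (.void 24 ⟨0, 0, 0, 0, 0, 100000, 0, 0, 0, ⟨0, 0⟩, 0⟩ 0 0) (.cut .v 17563648 (.pos 55 .mp ⟨0, 0, 0, 0, 0, 1402906693, 0, 0, 0, ⟨0, 0⟩, 0⟩ 0 0) (.cut .l 3257576 (.pos 56 .mp ⟨361252873, 0, 0, 0, 0, 706627311, 0, 0, 0, ⟨0, 0⟩, 0⟩ 0 0) (.cut .s 15335424 (.pos 56 .mp ⟨332116436, 0, 0, 0, 0, 641190112, 0, 0, 0, ⟨0, 0⟩, 0⟩ 0 0) (.cut .s 15368192 (.pos 56 .mp ⟨333773219, 0, 0, 0, 0, 708660804, 0, 0, 0, ⟨0, 0⟩, 0⟩ 0 0)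 (.pos 56 .mp ⟨313697402, 0, 0, 0, 0, 820686469, 0, 0, 0, ⟨0, 0⟩, 0⟩ 0 0))))))) (.cut .s 15335424 (.cut .l 2880089 (.cut .d (-81920) (.pos 24 .mp ⟨272355534, 0, 0, 0, 0, 809074152, 0, 0, 0, ⟨0, 0⟩, 0⟩ 0 0) (.pos 24 .mp ⟨321571474, 0, 0, 0, 0, 606088788, 0, 0, 0, ⟨0, 0⟩, 0⟩ 0 0)) (.pos 24 .mp ⟨313171930, 0, 0, 0, 0, 608697203, 0, 0, 0, ⟨0, 0⟩, 0⟩ 0 0)) (.cut .v 17563648 (.cut .l 2880089 (.cut .s 15368192 (.pos 55 .mp ⟨255532338, 0, 0, 0, 0, 854926662, 0, 0, 0, ⟨0, 0⟩, 0⟩ 0 0) (.pos 55 .mp ⟨265047907, 0, 0, 0, 0, 887135706, 0, 0, 0, ⟨0, 0⟩, 0⟩ 0 0)) (.pos 55 .mp ⟨225211499, 0, 0, 0, 0, 908169685, 0, 0, 0, ⟨0, 0⟩, 0⟩ 0 0)) (.cut .s 15368192 (.pos 56 .mp ⟨371463198,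 0, 0, 0, 0, 588895164, 0, 0, 0, ⟨0, 0⟩, 0⟩ 0 0) (.pos 56 .mp ⟨386396743, 0, 0, 0, 0, 607035535, 0, 0, 0, ⟨0, 0⟩, 0⟩ 0 0)))))) (.cut .v 17301504 (.pos 23 .mp ⟨0, 0, 0, 0, 0, 1568092769, 0, 0, 0, ⟨0, 0⟩, 0⟩ 0 0) (.cut .s 15466496 (.cut .d (-98304) (.cut .s 15433728 (.pos 24 .mp ⟨305002789, 0, 0, 0, 0, 922318173, 0, 0, 0, ⟨0, 0⟩, 0⟩ 0 0) (.pos 24 .mp ⟨317581627, 0, 0, 0, 0, 956175024, 0, 0, 0, ⟨0, 0⟩, 0⟩ 0 0)) (.cut .v 17563648 (.cut .s 15433728 (.pos 55 .mp ⟨242421672, 0, 0, 0, 0, 981474044, 0, 0, 0, ⟨0, 0⟩, 0⟩ 0 0) (.pos 55 .mp ⟨251533838, 0, 0, 0, 0, 1021988400, 0, 0, 0, ⟨0, 0⟩, 0⟩ 0 0)) (.cut .s 15433728 (.pos 56 .mp ⟨370721116, 0, 0, 0, 0, 713789253, 0, 0, 0,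 ⟨0, 0⟩, 0⟩ 0 0) (.pos 56 .mp ⟨387111492, 0, 0, 0, 0, 738688148, 0, 0, 0, ⟨0, 0⟩, 0⟩ 0 0)))) (.cut .s 15499264 (.cut .v 17563648 (.pos 55 .mp ⟨164065026, 0, 0, 0, 0, 1279984645, 0, 0, 0, ⟨0, 0⟩, 0⟩ 0 0) (.pos 56 .mp ⟨430347569, 0, 0, 0, 0, 745227393, 0, 0, 0, ⟨0, 0⟩, 0⟩ 0 0)) (.pos 24 .mp ⟨282291525, 0, 0, 0, 0, 1139594348, 0, 0, 0, ⟨0, 0⟩, 0⟩ 0 0)))))) (.cut .l 2125114 (.cut .s 15400960 (.cut .v 17301504 (.cut .d (-32768) (.cut .s 15335424 (.cut .v 17039360 (.pos 46 .mp ⟨0, 0, 0, 0, 0, 1323315056, 0, 0, 0, ⟨0, 0⟩, 0⟩ 0 0) (.cut .s 15302656 (.pos 47 .mp ⟨233284588, 0, 0, 0, 0, 769099836, 0, 0, 0, ⟨0, 0⟩, 0⟩ 0 0) (.cut .l 1370139 (.pos 47 .mp ⟨258758219, 0, 0, 0,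 0, 767304390, 0, 0, 0, ⟨0, 0⟩, 0⟩ 0 0) (.pos 47 .mp ⟨221976135, 0, 0, 0, 0, 826098224, 0, 0, 0, ⟨0, 0⟩, 0⟩ 0 0)))) (.cut .l 1370139 (.pos 23 .mp ⟨241998088, 0, 0, 0, 0, 903563262, 0, 0, 0, ⟨0, 0⟩, 0⟩ 0 0) (.cut .s 15368192 (.pos 23 .mp ⟨217378876, 0, 0, 0, 0, 880613260, 0, 0, 0, ⟨0, 0⟩, 0⟩ 0 0) (.pos 23 .mp ⟨223418417, 0, 0, 0, 0, 918585661, 0, 0, 0, ⟨0, 0⟩, 0⟩ 0 0)))) (.cut .d (-16384) (.cut .l 1370139 (.cut .s 15335424 (.cut .v 17039360 (.cut .s 15302656 (.pos 46 .mp ⟨221887870, 0, 0, 0, 0, 748257756, 0, 0, 0, ⟨0, 0⟩, 0⟩ 0 0) (.pos 46 .mp ⟨224687886, 0, 0, 0, 0, 785463420, 0, 0, 0, ⟨0, 0⟩, 0⟩ 0 0)) (.pos 47 .mp ⟨424542948, 0, 0, 0, 0, 339695069, 0, 0, 0, ⟨0,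 0⟩, 0⟩ 0 0)) (.cut .l 992651 (.cut .v 17039360 (.cut .s 15368192 (.pos 46 .mp ⟨233072218, 0, 0, 0, 0, 815225058, 0, 0, 0, ⟨0, 0⟩, 0⟩ 0 0) (.pos 46 .mp ⟨239229692, 0, 0, 0, 0, 851727029, 0, 0, 0, ⟨0, 0⟩, 0⟩ 0 0)) (.pos 47 .mp ⟨474598099, 0, 0, 0, 0, 350143634, 0, 0, 0, ⟨0, 0⟩, 0⟩ 0 0)) (.pos 23 .mp ⟨275164919, 0, 0, 0, 0, 673003879, 0, 0, 0, ⟨0, 0⟩, 0⟩ 0 0))) (.pos 23 .mp ⟨0, 0, 0, 0, 0, 0, 0, 0, 0, ⟨0, 0⟩, 0⟩ 0 0)) (.pos 23 .mp ⟨266285537, 0, 0, 0, 0, 0, 0, 0, 0, ⟨0, 0⟩, 0⟩ 0 0))) (.pos 24 .mp ⟨628055310, 0, 0, 0, 0, 12284472, 0, 0, 0, ⟨0, 0⟩, 0⟩ 0 0)) (.cut .v 17301504 (.cut .d (-32768) (.cut .v 17039360 (.pos 46 .mp ⟨0, 0, 0, 0, 0, 1561207221, 0, 0, 0, ⟨0, 0⟩,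 0⟩ 0 0) (.cut .s 15466496 (.cut .s 15433728 (.pos 47 .mp ⟨248536520, 0, 0, 0, 0, 937099157, 0, 0, 0, ⟨0, 0⟩, 0⟩ 0 0) (.pos 47 .mp ⟨258068819, 0, 0, 0, 0, 975711540, 0, 0, 0, ⟨0, 0⟩, 0⟩ 0 0)) (.cut .s 15499264 (.pos 47 .mp ⟨270724591, 0, 0, 0, 0, 1011339296, 0, 0, 0, ⟨0, 0⟩, 0⟩ 0 0) (.pos 47 .mp ⟨286992697, 0, 0, 0, 0, 1043025426, 0, 0, 0, ⟨0, 0⟩, 0⟩ 0 0)))) (.cut .l 1370139 (.cut .d (-16384) (.cut .s 15466496 (.cut .l 992651 (.cut .v 17039360 (.cut .s 15433728 (.pos 46 .mp ⟨246557690, 0, 0, 0, 0, 888760074, 0, 0, 0, ⟨0, 0⟩, 0⟩ 0 0) (.pos 46 .mp ⟨255238410, 0, 0, 0, 0, 925959453, 0, 0, 0, ⟨0, 0⟩, 0⟩ 0 0)) (.pos 47 .mp ⟨532011417, 0, 0, 0, 0, 335105415, 0, 0, 0,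 ⟨0, 0⟩, 0⟩ 0 0)) (.pos 23 .mp ⟨294454406, 0, 0, 0, 0, 727353317, 0, 0, 0, ⟨0, 0⟩, 0⟩ 0 0)) (.cut .v 17039360 (.pos 46 .mp ⟨206910628, 0, 0, 0, 0, 1121630306, 0, 0, 0, ⟨0, 0⟩, 0⟩ 0 0) (.pos 47 .mp ⟨348156940, 0, 0, 0, 0, 816890835, 0, 0, 0, ⟨0, 0⟩, 0⟩ 0 0))) (.cut .v 17039360 (.pos 46 .mp ⟨256118632, 0, 0, 0, 0, 741523899, 0, 0, 0, ⟨0, 0⟩, 0⟩ 0 0) (.pos 47 .mp ⟨624803534, 0, 0, 0, 0, 0, 0, 0, 0, ⟨0, 0⟩, 0⟩ 0 0))) (.pos 23 .mp ⟨296088581, 0, 0, 0, 0, 0, 0, 0, 0, ⟨0, 0⟩, 0⟩ 0 0))) (.cut .s 15466496 (.pos 24 .mp ⟨555866208, 0, 0, 0, 0, 310537880, 0, 0, 0, ⟨0, 0⟩, 0⟩ 0 0) (.pos 24 .mp ⟨632851709, 0, 0, 0, 0, 272883107, 0, 0, 0, ⟨0, 0⟩, 0⟩ 0 0)))) (.cut .d (-32768)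 (.cut .v 17301504 (.pos 23 .mp ⟨0, 0, 0, 0, 0, 1217019214, 0, 0, 0, ⟨0, 0⟩, 0⟩ 0 0) (.cut .s 15400960 (.pos 24 .mp ⟨319901732, 0, 0, 0, 0, 573977534, 0, 0, 0, ⟨0, 0⟩, 0⟩ 0 0) (.pos 24 .mp ⟨372178810, 0, 0, 0, 0, 638353884, 0, 0, 0, ⟨0, 0⟩, 0⟩ 0 0))) (.pos 21 .mp ⟨0, 0, 0, 0, 0, 0, 0, 0, 0, ⟨0, 0⟩, 0⟩ 0 0)))) (.cut .d (-65536) (.cut .s 15400960 (.pos 22 .mp ⟨722069553, 0, 0, 0, 0, 0, 0, 0, 0, ⟨0, 0⟩, 0⟩ 0 0) (.pos 22 .mp ⟨826267647, 0, 0, 0, 0, 0, 0, 0, 0, ⟨0, 0⟩, 0⟩ 0 0)) (.pos 22 .mp ⟨684689763, 0, 0, 0, 0, 0, 0, 0, 0, ⟨0, 0⟩, 0⟩ 0 0))) (.pos 20 .mp ⟨852197219, 0, 0, 0, 0, 0, 0, 0, 0, ⟨0, 0⟩, 0⟩ 0 0)))))) (.void 18 ⟨100000, 0, 0, 0, 0, 0, 0, 0, 0, ⟨0, 0⟩, 0⟩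 0 0)))) (.void 16 ⟨100000, 0, 0, 0, 0, 0, 0, 0, 0, ⟨0, 0⟩, 0⟩ 0 0))) (.void 37 ⟨100000, 0, 0, 0, 0, 0, 0, 0, 0, ⟨0, 0⟩, 0⟩ 0 0)) (.void 50 ⟨100000, 0, 0, 0, 0, 0, 0, 0, 0, ⟨0, 0⟩, 0⟩ 0 0)) (.void 75 ⟨88319, 0, 0, 11681, 0, 0, 0, 0, 0, ⟨0, 0⟩, 0⟩ 0 0))) (.cut .v 16777216 (.cut .v 8388608 (.cut .v 4194304 (.cut .v 2097152 (.cut .v 1048576 (.pos 88 .pm ⟨0, 0, 40202614, 0, 0, 0, 0, 0, 0, ⟨0, 0⟩, 0⟩ 0 0) (.pos 89 .pm ⟨0, 0, 55031348, 0, 0, 0, 0, 0, 0, ⟨0, 0⟩, 0⟩ 0 0)) (.pos 79 .pm ⟨0, 0, 67029991, 0, 0, 0, 0, 0, 0, ⟨0, 0⟩, 0⟩ 0 0)) (.pos 5 .pm ⟨0, 0, 101929012, 0, 0, 0, 0, 0, 0, ⟨0, 0⟩, 0⟩ 0 0)) (.pos 3 .pm ⟨0, 0, 0, 0, 0, 0, 0, 0, 0, ⟨0, 0⟩, 0⟩ 0 0)) (.cut .v 268435456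 (.cut .v 67108864 (.cut .d 828061 (.cut .v 33554432 (.cut .d 414030 (.cut .v 25165824 (.cut .v 20971520 (.pos 17 .pp ⟨421951495, 0, 0, 0, 0, 0, 0, 0, 0, ⟨0, 0⟩, 0⟩ 0 0) (.pos 18 .pp ⟨807581407, 0, 0, 0, 0, 0, 0, 0, 0, ⟨0, 0⟩, 0⟩ 0 0)) (.cut .d 207015 (.pos 16 .pp ⟨1615438846, 0, 0, 0, 0, 0, 0, 0, 0, ⟨0, 0⟩, 0⟩ 0 0) (.pos 16 .pp ⟨1029490825, 0, 0, 0, 0, 0, 0, 0, 0, ⟨0, 0⟩, 0⟩ 0 0))) (.pos 14 .pp ⟨0, 0, 0, 0, 0, 0, 0, 0, 0, ⟨0, 0⟩, 0⟩ 0 0)) (.cut .v 50331648 (.cut .d 414030 (.cut .v 41943040 (.pos 86 .pp ⟨2513554634, 0, 0, 0, 0, 0, 0, 0, 0, ⟨0, 0⟩, 0⟩ 0 0) (.pos 87 .pp ⟨4578084450, 3005791063, 0, 0, 0, 0, 0, 0, 0, ⟨0, 0⟩, 0⟩ 0 0)) (.pos 65 .pp ⟨1658739091, 679549324,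 0, 0, 0, 0, 0, 0, 0, ⟨0, 0⟩, 0⟩ 0 0)) (.void 66 ⟨78676, 0, 0, 21324, 0, 0, 0, 0, 0, ⟨0, 0⟩, 0⟩ 0 0))) (.pos 36 .pp ⟨0, 0, 0, 0, 0, 0, 0, 0, 0, ⟨0, 0⟩, 0⟩ 0 0)) (.void 50 ⟨78274, 0, 0, 21726, 0, 0, 0, 0, 0, ⟨0, 0⟩, 0⟩ 0 0)) (.void 75 ⟨0, 0, 0, 100000, 0, 0, 0, 0, 0, ⟨0, 0⟩, 0⟩ 0 0)))),
    by decide +kernel⟩

def covers27 : cell.Covers table row27.1 :=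
  ⟨(.cut .d 0 (.cut .v 16777216 (.cut .v 8388608 (.void 2 ⟨0, 0, 100000, 0, 0, 0, 0, 0, 0, ⟨0, 0⟩, 0⟩ 0 0) (.cut .d (-8388608) (.void 3 ⟨100000, 0, 0, 0, 0, 0, 0, 0, 0, ⟨0, 0⟩, 0⟩ 0 0) (.cut .d (-4194304) (.void 3 ⟨100000, 0, 0, 0, 0, 0, 0, 0, 0, ⟨0, 0⟩, 0⟩ 0 0) (.cut .d (-2097152) (.void 3 ⟨100000, 0, 0, 0, 0, 0, 0, 0, 0, ⟨0, 0⟩, 0⟩ 0 0) (.cut .d (-1048576) (.void 3 ⟨0, 0, 0, 0, 0, 100000, 0, 0, 0, ⟨0, 0⟩, 0⟩ 0 0) (.cut .d (-524288) (.void 3 ⟨0, 0, 0, 0, 0, 100000, 0, 0, 0, ⟨0, 0⟩, 0⟩ 0 0) (.cut .d (-262144) (.void 3 ⟨0, 0, 0, 0, 0, 100000, 0, 0, 0, ⟨0, 0⟩, 0⟩ 0 0) (.cut .d (-131072) (.void 3 ⟨0, 0, 0, 0, 0, 100000, 0, 0, 0, ⟨0, 0⟩, 0⟩ 0 0) (.cut .v 12582912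 (.pos 6 .mm ⟨0, 0, 91670836, 0, 0, 1299449561, 0, 0, 0, ⟨0, 0⟩, 0⟩ 0 0) (.cut .d (-65536) (.pos 7 .mm ⟨0, 0, 0, 0, 0, 2153758092, 0, 0, 0, ⟨0, 0⟩, 0⟩ 0 0) (.cut .s 15654912 (.pos 7 .mm ⟨0, 0, 0, 0, 0, 1710728014, 0, 0, 0, ⟨0, 0⟩, 0⟩ 0 0) (.cut .s 15716352 (.pos 7 .mm ⟨0, 0, 0, 0, 0, 1889432998, 0, 0, 0, ⟨0, 0⟩, 0⟩ 0 0) (.pos 7 .mm ⟨0, 0, 0, 0, 0, 2064133837, 0, 0, 0, ⟨0, 0⟩, 0⟩ 0 0))))))))))))) (.cut .v 268435456 (.cut .v 67108864 (.cut .v 33554432 (.cut .d (-8388608) (.void 14 ⟨100000, 0, 0, 0, 0, 0, 0, 0, 0, ⟨0, 0⟩, 0⟩ 0 0) (.cut .d (-4194304) (.void 14 ⟨100000, 0, 0, 0, 0, 0, 0, 0, 0, ⟨0, 0⟩, 0⟩ 0 0) (.cut .v 25165824 (.cut .d (-2097152) (.void 15 ⟨100000,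 0, 0, 0, 0, 0, 0, 0, 0, ⟨0, 0⟩, 0⟩ 0 0) (.cut .v 20971520 (.cut .d (-1048576) (.void 17 ⟨100000, 0, 0, 0, 0, 0, 0, 0, 0, ⟨0, 0⟩, 0⟩ 0 0) (.cut .d (-524288) (.void 17 ⟨100000, 0, 0, 0, 0, 0, 0, 0, 0, ⟨0, 0⟩, 0⟩ 0 0) (.cut .d (-262144) (.void 17 ⟨100000, 0, 0, 0, 0, 0, 0, 0, 0, ⟨0, 0⟩, 0⟩ 0 0) (.cut .d (-131072) (.void 17 ⟨0, 0, 0, 0, 0, 100000, 0, 0, 0, ⟨0, 0⟩, 0⟩ 0 0) (.cut .v 18874368 (.cut .d (-65536) (.cut .d (-98304) (.void 19 ⟨0, 0, 0, 0, 0, 100000, 0, 0, 0, ⟨0, 0⟩, 0⟩ 0 0) (.cut .v 17825792 (.cut .l 2125114 (.void 21 ⟨0, 0, 0, 0, 0, 100000, 0, 0, 0, ⟨0, 0⟩, 0⟩ 0 0) (.cut .s 15654912 (.cut .v 17301504 (.pos 23 .mp ⟨0, 0, 0, 0, 0, 1915694993, 0, 0, 0, ⟨0,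 0⟩, 0⟩ 0 0) (.cut .l 2880089 (.pos 24 .mp ⟨353086367, 0, 0, 0, 0, 1306264881, 0, 0, 0, ⟨0, 0⟩, 0⟩ 0 0) (.cut .s 15593472 (.cut .d (-81920) (.pos 24 .mp ⟨345850934, 0, 0, 0, 0, 1173424519, 0, 0, 0, ⟨0, 0⟩, 0⟩ 0 0) (.pos 24 .mp ⟨399002741, 0, 0, 0, 0, 919250107, 0, 0, 0, ⟨0, 0⟩, 0⟩ 0 0)) (.cut .d (-81920) (.pos 24 .mp ⟨358879721, 0, 0, 0, 0, 1304586090, 0, 0, 0, ⟨0, 0⟩, 0⟩ 0 0) (.cut .v 17563648 (.pos 55 .mp ⟨67034269, 0, 0, 0, 0, 1790343947, 0, 0, 0, ⟨0, 0⟩, 0⟩ 0 0) (.pos 56 .mp ⟨451690623, 0, 0, 0, 0, 975020920, 0, 0, 0, ⟨0, 0⟩, 0⟩ 0 0)))))) (.cut .l 2880089 (.pos 21 .mp ⟨364881548, 0, 0, 0, 0, 1629184190, 0, 0, 0, ⟨0, 0⟩, 0⟩ 0 0) (.cut .v 17301504 (.pos 23 .mp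 ⟨0, 0, 0, 0, 0, 2153953430, 0, 0, 0, ⟨0, 0⟩, 0⟩ 0 0) (.cut .s 15716352 (.cut .d (-81920) (.cut .s 15685632 (.pos 24 .mp ⟨391099904, 0, 0, 0, 0, 1324555456, 0, 0, 0, ⟨0, 0⟩, 0⟩ 0 0) (.pos 24 .mp ⟨409624408, 0, 0, 0, 0, 1371404264, 0, 0, 0, ⟨0, 0⟩, 0⟩ 0 0)) (.cut .v 17563648 (.cut .s 15685632 (.pos 55 .mp ⟨173798674, 0, 0, 0, 0, 1673790941, 0, 0, 0, ⟨0, 0⟩, 0⟩ 0 0) (.pos 55 .mp ⟨182597762, 0, 0, 0, 0, 1739107766, 0, 0, 0, ⟨0, 0⟩, 0⟩ 0 0)) (.cut .s 15685632 (.pos 56 .mp ⟨472358061, 0, 0, 0, 0, 1037248362, 0, 0, 0, ⟨0, 0⟩, 0⟩ 0 0) (.pos 56 .mp ⟨487497731, 0, 0, 0, 0, 1091914811, 0, 0, 0, ⟨0, 0⟩, 0⟩ 0 0)))) (.cut .s 15747072 (.cut .s 15731712 (.cut .d (-81920) (.void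 24 ⟨0, 0, 0, 0, 0, 100000, 0, 0, 0, ⟨0, 0⟩, 0⟩ 0 0) (.pos 24 .mp ⟨381279148, 0, 0, 0, 0, 1429659440, 0, 0, 0, ⟨0, 0⟩, 0⟩ 0 0)) (.pos 24 .mp ⟨389884943, 0, 0, 0, 0, 1479794338, 0, 0, 0, ⟨0, 0⟩, 0⟩ 0 0)) (.pos 24 .mp ⟨398725807, 0, 0, 0, 0, 1543925553, 0, 0, 0, ⟨0, 0⟩, 0⟩ 0 0))))))) (.pos 22 .mp ⟨1088411553, 0, 0, 0, 0, 0, 0, 0, 0, ⟨0, 0⟩, 0⟩ 0 0))) (.cut .v 17825792 (.cut .s 15654912 (.cut .v 17301504 (.cut .s 15593472 (.cut .l 2125114 (.cut .d (-32768) (.pos 23 .mp ⟨257957291, 0, 0, 0, 0, 1250413028, 0, 0, 0, ⟨0, 0⟩, 0⟩ 0 0) (.cut .d (-16384) (.cut .v 17039360 (.pos 46 .mp ⟨236928549, 0, 0, 0, 0, 1205251628, 0, 0, 0, ⟨0, 0⟩, 0⟩ 0 0) (.pos 47 .mp ⟨373903536, 0,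 0, 0, 0, 903000378, 0, 0, 0, ⟨0, 0⟩, 0⟩ 0 0)) (.pos 23 .mp ⟨323640631, 0, 0, 0, 0, 902702199, 0, 0, 0, ⟨0, 0⟩, 0⟩ 0 0))) (.pos 23 .mp ⟨0, 0, 0, 0, 0, 1605853511, 0, 0, 0, ⟨0, 0⟩, 0⟩ 0 0)) (.cut .l 2125114 (.cut .d (-32768) (.cut .s 15624192 (.pos 23 .mp ⟨277842815, 0, 0, 0, 0, 1285252133, 0, 0, 0, ⟨0, 0⟩, 0⟩ 0 0) (.pos 23 .mp ⟨288428724, 0, 0, 0, 0, 1330699218, 0, 0, 0, ⟨0, 0⟩, 0⟩ 0 0)) (.cut .l 1370139 (.cut .d (-16384) (.cut .v 17039360 (.cut .s 15624192 (.pos 46 .mp ⟨294708868, 0, 0, 0, 0, 1166447025, 0, 0, 0, ⟨0, 0⟩, 0⟩ 0 0) (.pos 46 .mp ⟨295368543, 0, 0, 0, 0, 1238522031, 0, 0, 0, ⟨0, 0⟩, 0⟩ 0 0)) (.cut .s 15624192 (.pos 47 .mp ⟨387869100, 0, 0, 0, 0, 975762139,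 0, 0, 0, ⟨0, 0⟩, 0⟩ 0 0) (.pos 47 .mp ⟨402659964, 0, 0, 0, 0, 1013482367, 0, 0, 0, ⟨0, 0⟩, 0⟩ 0 0))) (.cut .s 15624192 (.pos 23 .mp ⟨334771433, 0, 0, 0, 0, 986164900, 0, 0, 0, ⟨0, 0⟩, 0⟩ 0 0) (.cut .s 15639552 (.pos 23 .mp ⟨340550681, 0, 0, 0, 0, 1035279233, 0, 0, 0, ⟨0, 0⟩, 0⟩ 0 0) (.pos 23 .mp ⟨346480312, 0, 0, 0, 0, 1058986499, 0, 0, 0, ⟨0, 0⟩, 0⟩ 0 0)))) (.pos 23 .mp ⟨343066806, 0, 0, 0, 0, 973730127, 0, 0, 0, ⟨0, 0⟩, 0⟩ 0 0))) (.pos 23 .mp ⟨0, 0, 0, 0, 0, 1734410848, 0, 0, 0, ⟨0, 0⟩, 0⟩ 0 0))) (.cut .d (-32768) (.cut .v 17563648 (.cut .l 2125114 (.cut .d (-49152) (.pos 55 .mp ⟨381853186, 0, 0, 0, 0, 1198741222, 0, 0, 0, ⟨0, 0⟩, 0⟩ 0 0) (.pos 55 .mp ⟨708177222,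 0, 0, 0, 0, 343249688, 0, 0, 0, ⟨0, 0⟩, 0⟩ 0 0)) (.cut .s 15593472 (.pos 55 .mp ⟨390093541, 0, 0, 0, 0, 896259179, 0, 0, 0, ⟨0, 0⟩, 0⟩ 0 0) (.cut .s 15624192 (.pos 55 .mp ⟨406819881, 0, 0, 0, 0, 960139701, 0, 0, 0, ⟨0, 0⟩, 0⟩ 0 0) (.pos 55 .mp ⟨424542239, 0, 0, 0, 0, 991353634, 0, 0, 0, ⟨0, 0⟩, 0⟩ 0 0)))) (.pos 56 .mp ⟨855241523, 0, 0, 0, 0, 0, 0, 0, 0, ⟨0, 0⟩, 0⟩ 0 0)) (.pos 24 .mp ⟨785464689, 0, 0, 0, 0, 0, 0, 0, 0, ⟨0, 0⟩, 0⟩ 0 0))) (.cut .d (-32768) (.cut .l 2125114 (.cut .l 1370139 (.void 21 ⟨0, 0, 0, 0, 0, 100000, 0, 0, 0, ⟨0, 0⟩, 0⟩ 0 0) (.cut .d (-49152) (.void 21 ⟨0, 0, 0, 0, 0, 100000, 0, 0, 0, ⟨0, 0⟩, 0⟩ 0 0) (.cut .v 17301504 (.cut .s 15716352 (.cut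 .s 15685632 (.pos 23 .mp ⟨299490737, 0, 0, 0, 0, 1356964921, 0, 0, 0, ⟨0, 0⟩, 0⟩ 0 0) (.pos 23 .mp ⟨311069350, 0, 0, 0, 0, 1415944694, 0, 0, 0, ⟨0, 0⟩, 0⟩ 0 0)) (.pos 23 .mp ⟨323209752, 0, 0, 0, 0, 1530223957, 0, 0, 0, ⟨0, 0⟩, 0⟩ 0 0)) (.pos 24 .mp ⟨1008018934, 0, 0, 0, 0, 0, 0, 0, 0, ⟨0, 0⟩, 0⟩ 0 0)))) (.cut .v 17301504 (.cut .d (-49152) (.pos 23 .mp ⟨0, 0, 0, 0, 0, 2102289869, 0, 0, 0, ⟨0, 0⟩, 0⟩ 0 0) (.pos 23 .mp ⟨0, 0, 0, 0, 0, 1889734540, 0, 0, 0, ⟨0, 0⟩, 0⟩ 0 0)) (.cut .d (-49152) (.cut .l 2880089 (.cut .v 17563648 (.cut .s 15716352 (.cut .s 15685632 (.pos 55 .mp ⟨443344472, 0, 0, 0, 0, 1051632291, 0, 0, 0, ⟨0, 0⟩, 0⟩ 0 0) (.pos 55 .mp ⟨351319414, 0, 0,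 0, 0, 1376075531, 0, 0, 0, ⟨0, 0⟩, 0⟩ 0 0)) (.pos 55 .mp ⟨366197207, 0, 0, 0, 0, 1483013861, 0, 0, 0, ⟨0, 0⟩, 0⟩ 0 0)) (.pos 56 .mp ⟨1040727293, 0, 0, 0, 0, 0, 0, 0, 0, ⟨0, 0⟩, 0⟩ 0 0)) (.cut .s 15716352 (.pos 24 .mp ⟨429603611, 0, 0, 0, 0, 1026856394, 0, 0, 0, ⟨0, 0⟩, 0⟩ 0 0) (.pos 24 .mp ⟨456757737, 0, 0, 0, 0, 1131545412, 0, 0, 0, ⟨0, 0⟩, 0⟩ 0 0))) (.pos 24 .mp ⟨468498891, 0, 0, 0, 0, 951880594, 0, 0, 0, ⟨0, 0⟩, 0⟩ 0 0)))) (.cut .l 2125114 (.cut .v 17301504 (.cut .l 1370139 (.cut .d (-16384) (.cut .s 15716352 (.cut .v 17039360 (.cut .s 15685632 (.pos 46 .mp ⟨289225306, 0, 0, 0, 0, 1340841755, 0, 0, 0, ⟨0, 0⟩, 0⟩ 0 0) (.pos 46 .mp ⟨299319667, 0, 0, 0, 0, 1399553784,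 0, 0, 0, ⟨0, 0⟩, 0⟩ 0 0)) (.cut .s 15685632 (.pos 47 .mp ⟨418345628, 0, 0, 0, 0, 1055842738, 0, 0, 0, ⟨0, 0⟩, 0⟩ 0 0) (.pos 47 .mp ⟨435003644, 0, 0, 0, 0, 1102947971, 0, 0, 0, ⟨0, 0⟩, 0⟩ 0 0))) (.cut .v 17039360 (.pos 46 .mp ⟨179170093, 0, 0, 0, 0, 1797986328, 0, 0, 0, ⟨0, 0⟩, 0⟩ 0 0) (.cut .s 15747072 (.pos 47 .mp ⟨452720816, 0, 0, 0, 0, 1154898017, 0, 0, 0, ⟨0, 0⟩, 0⟩ 0 0) (.pos 47 .mp ⟨471594620, 0, 0, 0, 0, 1211786118, 0, 0, 0, ⟨0, 0⟩, 0⟩ 0 0)))) (.cut .v 17039360 (.cut .v 16908288 (.pos 53 .mp ⟨0, 0, 0, 0, 0, 1826623303, 0, 0, 0, ⟨0, 0⟩, 0⟩ 0 0) (.cut .s 15716352 (.cut .s 15685632 (.pos 54 .mp ⟨351796541, 0, 0, 0, 0, 1113480798, 0, 0, 0, ⟨0, 0⟩, 0⟩ 0 0) (.pos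 54 .mp ⟨364540273, 0, 0, 0, 0, 1165278852, 0, 0, 0, ⟨0, 0⟩, 0⟩ 0 0)) (.pos 54 .mp ⟨392270772, 0, 0, 0, 0, 1207856471, 0, 0, 0, ⟨0, 0⟩, 0⟩ 0 0))) (.pos 47 .mp ⟨875295251, 0, 0, 0, 0, 0, 0, 0, 0, ⟨0, 0⟩, 0⟩ 0 0))) (.cut .s 15716352 (.pos 23 .mp ⟨370449974, 0, 0, 0, 0, 1055312645, 0, 0, 0, ⟨0, 0⟩, 0⟩ 0 0) (.pos 23 .mp ⟨395185739, 0, 0, 0, 0, 1163963633, 0, 0, 0, ⟨0, 0⟩, 0⟩ 0 0))) (.pos 24 .mp ⟨951950592, 0, 0, 0, 0, 0, 0, 0, 0, ⟨0, 0⟩, 0⟩ 0 0)) (.pos 21 .mp ⟨376631410, 0, 0, 0, 0, 0, 0, 0, 0, ⟨0, 0⟩, 0⟩ 0 0)))) (.cut .s 15654912 (.pos 22 .mp ⟨880310920, 0, 0, 0, 0, 0, 0, 0, 0, ⟨0, 0⟩, 0⟩ 0 0) (.pos 22 .mp ⟨1025616607, 0, 0, 0, 0, 0, 0, 0, 0, ⟨0, 0⟩, 0⟩ 0 0)))) (.pos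 20 .mp ⟨1195193081, 0, 0, 0, 0, 0, 0, 0, 0, ⟨0, 0⟩, 0⟩ 0 0)))))) (.void 18 ⟨100000, 0, 0, 0, 0, 0, 0, 0, 0, ⟨0, 0⟩, 0⟩ 0 0))) (.void 16 ⟨100000, 0, 0, 0, 0, 0, 0, 0, 0, ⟨0, 0⟩, 0⟩ 0 0)))) (.void 37 ⟨100000, 0, 0, 0, 0, 0, 0, 0, 0, ⟨0, 0⟩, 0⟩ 0 0)) (.void 50 ⟨88186, 0, 0, 11814, 0, 0, 0, 0, 0, ⟨0, 0⟩, 0⟩ 0 0)) (.void 75 ⟨88156, 0, 0, 11844, 0, 0, 0, 0, 0, ⟨0, 0⟩, 0⟩ 0 0))) (.cut .v 16777216 (.cut .v 8388608 (.cut .v 4194304 (.cut .v 2097152 (.cut .v 1048576 (.pos 88 .pm ⟨0, 0, 56180542, 0, 0, 0, 0, 0, 0, ⟨0, 0⟩, 0⟩ 0 0) (.pos 89 .pm ⟨0, 0, 84711724, 0, 0, 0, 0, 0, 0, ⟨0, 0⟩, 0⟩ 0 0)) (.pos 79 .pm ⟨0, 0, 116226651, 0, 0, 0, 0, 0, 0, ⟨0, 0⟩, 0⟩ 0 0)) (.pos 5 .pm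 ⟨0, 0, 207390066, 0, 0, 0, 0, 0, 0, ⟨0, 0⟩, 0⟩ 0 0)) (.pos 3 .pm ⟨0, 0, 0, 0, 0, 0, 0, 0, 0, ⟨0, 0⟩, 0⟩ 0 0)) (.cut .v 268435456 (.cut .v 67108864 (.cut .d 672505 (.cut .v 33554432 (.cut .d 336252 (.cut .v 25165824 (.cut .v 20971520 (.pos 17 .pp ⟨551347994, 0, 0, 0, 0, 0, 0, 0, 0, ⟨0, 0⟩, 0⟩ 0 0) (.pos 18 .pp ⟨1083272527, 0, 0, 0, 0, 0, 0, 0, 0, ⟨0, 0⟩, 0⟩ 0 0)) (.cut .d 168126 (.pos 16 .pp ⟨2160946847, 0, 0, 0, 0, 0, 0, 0, 0, ⟨0, 0⟩, 0⟩ 0 0) (.pos 16 .pp ⟨1389938055, 0, 0, 0, 0, 0, 0, 0, 0, ⟨0, 0⟩, 0⟩ 0 0))) (.pos 14 .pp ⟨0, 0, 0, 0, 0, 0, 0, 0, 0, ⟨0, 0⟩, 0⟩ 0 0)) (.cut .v 50331648 (.cut .d 336252 (.cut .v 41943040 (.pos 86 .pp ⟨3308443055, 0, 0, 0, 0, 0, 0,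 0, 0, ⟨0, 0⟩, 0⟩ 0 0) (.pos 87 .pp ⟨5835155292, 3361858565, 0, 0, 0, 0, 0, 0, 0, ⟨0, 0⟩, 0⟩ 0 0)) (.pos 65 .pp ⟨2291186758, 1146109776, 0, 0, 0, 0, 0, 0, 0, ⟨0, 0⟩, 0⟩ 0 0)) (.void 66 ⟨78488, 0, 0, 21512, 0, 0, 0, 0, 0, ⟨0, 0⟩, 0⟩ 0 0))) (.pos 36 .pp ⟨0, 169203930, 0, 0, 0, 0, 0, 0, 0, ⟨0, 0⟩, 0⟩ 0 0)) (.void 50 ⟨0, 0, 0, 100000, 0, 0, 0, 0, 0, ⟨0, 0⟩, 0⟩ 0 0)) (.void 75 ⟨0, 0, 0, 100000, 0, 0, 0, 0, 0, ⟨0, 0⟩, 0⟩ 0 0)))),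
    by decide +kernel⟩

def covers28 : cell.Covers table row28.1 :=
  ⟨(.cut .d 0 (.cut .v 16777216 (.cut .v 8388608 (.void 2 ⟨0, 0, 100000, 0, 0, 0, 0, 0, 0, ⟨0, 0⟩, 0⟩ 0 0) (.cut .d (-8388608) (.void 3 ⟨100000, 0, 0, 0, 0, 0, 0, 0, 0, ⟨0, 0⟩, 0⟩ 0 0) (.cut .d (-4194304) (.void 3 ⟨100000, 0, 0, 0, 0, 0, 0, 0, 0, ⟨0, 0⟩, 0⟩ 0 0) (.cut .d (-2097152) (.void 3 ⟨100000, 0, 0, 0, 0, 0, 0, 0, 0, ⟨0, 0⟩, 0⟩ 0 0) (.cut .d (-1048576) (.void 3 ⟨56334, 0, 43666, 0, 0, 0, 0, 0, 0, ⟨0, 0⟩, 0⟩ 0 0) (.cut .d (-524288) (.void 3 ⟨0, 0, 0, 0, 0, 100000, 0, 0, 0, ⟨0, 0⟩, 0⟩ 0 0) (.cut .d (-262144) (.void 3 ⟨0, 0, 0, 0, 0, 100000, 0, 0, 0, ⟨0, 0⟩, 0⟩ 0 0) (.cut .d (-131072) (.void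 3 ⟨0, 0, 0, 0, 0, 100000, 0, 0, 0, ⟨0, 0⟩, 0⟩ 0 0) (.cut .d (-65536) (.pos 3 .mm ⟨0, 0, 0, 0, 0, 3069854670, 0, 0, 0, ⟨0, 0⟩, 0⟩ 0 0) (.cut .v 12582912 (.pos 6 .mm ⟨0, 0, 0, 0, 0, 1412822258, 0, 0, 0, ⟨0, 0⟩, 0⟩ 0 0) (.cut .v 14680064 (.pos 8 .mm ⟨0, 0, 0, 0, 0, 2142394539, 0, 0, 0, ⟨0, 0⟩, 0⟩ 0 0) (.cut .v 15728640 (.pos 12 .mm ⟨0, 0, 0, 0, 0, 2406406002, 0, 0, 0, ⟨0, 0⟩, 0⟩ 0 0) (.cut .s 15876096 (.cut .s 15826944 (.pos 13 .mm ⟨0, 0, 0, 0, 0, 2241958774, 0, 0, 0, ⟨0, 0⟩, 0⟩ 0 0) (.pos 13 .mm ⟨0, 0, 0, 0, 0, 2425288160, 0, 0, 0, ⟨0, 0⟩, 0⟩ 0 0)) (.cut .s 15925248 (.pos 13 .mm ⟨0, 0, 0, 0, 0, 2633971459, 0, 0, 0, ⟨0, 0⟩, 0⟩ 0 0) (.pos 13 .mm ⟨0, 0, 0, 0, 0, 2867777784,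 0, 0, 0, ⟨0, 0⟩, 0⟩ 0 0))))))))))))))) (.cut .v 268435456 (.cut .v 67108864 (.cut .v 33554432 (.cut .d (-8388608) (.void 14 ⟨100000, 0, 0, 0, 0, 0, 0, 0, 0, ⟨0, 0⟩, 0⟩ 0 0) (.cut .d (-4194304) (.void 14 ⟨100000, 0, 0, 0, 0, 0, 0, 0, 0, ⟨0, 0⟩, 0⟩ 0 0) (.cut .v 25165824 (.cut .d (-2097152) (.void 15 ⟨100000, 0, 0, 0, 0, 0, 0, 0, 0, ⟨0, 0⟩, 0⟩ 0 0) (.cut .v 20971520 (.cut .d (-1048576) (.void 17 ⟨100000, 0, 0, 0, 0, 0, 0, 0, 0, ⟨0, 0⟩, 0⟩ 0 0) (.cut .d (-524288) (.void 17 ⟨100000, 0, 0, 0, 0, 0, 0, 0, 0, ⟨0, 0⟩, 0⟩ 0 0) (.cut .d (-262144) (.void 17 ⟨100000, 0, 0, 0, 0, 0, 0, 0, 0, ⟨0, 0⟩, 0⟩ 0 0) (.cut .d (-131072) (.void 17 ⟨100000, 0, 0, 0, 0, 0, 0, 0, 0, ⟨0,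 0⟩, 0⟩ 0 0) (.cut .v 18874368 (.cut .d (-65536) (.cut .v 17825792 (.cut .d (-98304) (.void 21 ⟨0, 0, 0, 0, 0, 100000, 0, 0, 0, ⟨0, 0⟩, 0⟩ 0 0) (.cut .l 2125114 (.void 21 ⟨0, 0, 0, 0, 0, 100000, 0, 0, 0, ⟨0, 0⟩, 0⟩ 0 0) (.cut .d (-81920) (.void 21 ⟨0, 0, 0, 0, 0, 100000, 0, 0, 0, ⟨0, 0⟩, 0⟩ 0 0) (.cut .l 2880089 (.void 21 ⟨0, 0, 0, 0, 0, 100000, 0, 0, 0, ⟨0, 0⟩, 0⟩ 0 0) (.cut .d (-73728) (.pos 21 .mp ⟨411650844, 0, 0, 0, 0, 2397074735, 0, 0, 0, ⟨0, 0⟩, 0⟩ 0 0) (.cut .l 3257576 (.pos 21 .mp ⟨410487862, 0, 0, 0, 0, 2379521555, 0, 0, 0, ⟨0, 0⟩, 0⟩ 0 0) (.cut .v 17301504 (.pos 23 .mp ⟨0, 0, 0, 0, 0, 2842342093, 0, 0, 0, ⟨0, 0⟩, 0⟩ 0 0) (.cut .s 15876096 (.cut .s 15826944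 (.pos 24 .mp ⟨445463236, 0, 0, 0, 0, 1627429676, 0, 0, 0, ⟨0, 0⟩, 0⟩ 0 0) (.cut .s 15851520 (.pos 24 .mp ⟨454543019, 0, 0, 0, 0, 1746544364, 0, 0, 0, ⟨0, 0⟩, 0⟩ 0 0) (.cut .s 15863808 (.pos 24 .mp ⟨474531324, 0, 0, 0, 0, 1756939850, 0, 0, 0, ⟨0, 0⟩, 0⟩ 0 0) (.pos 24 .mp ⟨484987688, 0, 0, 0, 0, 1786112386, 0, 0, 0, ⟨0, 0⟩, 0⟩ 0 0)))) (.cut .s 15925248 (.cut .s 15900672 (.pos 24 .mp ⟨495731015, 0, 0, 0, 0, 1852396197, 0, 0, 0, ⟨0, 0⟩, 0⟩ 0 0) (.void 24 ⟨0, 0, 0, 0, 0, 100000, 0, 0, 0, ⟨0, 0⟩, 0⟩ 0 0)) (.void 24 ⟨0, 0, 0, 0, 0, 100000, 0, 0, 0, ⟨0, 0⟩, 0⟩ 0 0)))))))))) (.pos 22 .mp ⟨1667524080, 0, 0, 0, 0, 0, 0, 0, 0, ⟨0, 0⟩, 0⟩ 0 0)) (.cut .v 17825792 (.cut .s 15876096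 (.cut .d (-32768) (.cut .l 2125114 (.cut .l 1370139 (.void 21 ⟨0, 0, 0, 0, 0, 100000, 0, 0, 0, ⟨0, 0⟩, 0⟩ 0 0) (.cut .d (-49152) (.void 21 ⟨0, 0, 0, 0, 0, 100000, 0, 0, 0, ⟨0, 0⟩, 0⟩ 0 0) (.cut .d (-40960) (.pos 21 .mp ⟨407471929, 0, 0, 0, 0, 2248315602, 0, 0, 0, ⟨0, 0⟩, 0⟩ 0 0) (.cut .v 17301504 (.cut .s 15826944 (.pos 23 .mp ⟨349418383, 0, 0, 0, 0, 1719090077, 0, 0, 0, ⟨0, 0⟩, 0⟩ 0 0) (.pos 23 .mp ⟨375550616, 0, 0, 0, 0, 1829990228, 0, 0, 0, ⟨0, 0⟩, 0⟩ 0 0)) (.pos 24 .mp ⟨813966199, 0, 0, 0, 0, 828440117, 0, 0, 0, ⟨0, 0⟩, 0⟩ 0 0))))) (.cut .v 17301504 (.cut .s 15826944 (.pos 23 .mp ⟨0, 0, 0, 0, 0, 2358388995, 0, 0, 0, ⟨0, 0⟩, 0⟩ 0 0) (.pos 23 .mp ⟨0, 0, 0, 0,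 0, 2541073393, 0, 0, 0, ⟨0, 0⟩, 0⟩ 0 0)) (.cut .s 15826944 (.cut .s 15802368 (.pos 24 .mp ⟨546536261, 0, 0, 0, 0, 1196740321, 0, 0, 0, ⟨0, 0⟩, 0⟩ 0 0) (.cut .l 2880089 (.cut .d (-49152) (.pos 24 .mp ⟨446696953, 0, 0, 0, 0, 1624446667, 0, 0, 0, ⟨0, 0⟩, 0⟩ 0 0) (.pos 24 .mp ⟨505972924, 0, 0, 0, 0, 1352259153, 0, 0, 0, ⟨0, 0⟩, 0⟩ 0 0)) (.pos 24 .mp ⟨510869515, 0, 0, 0, 0, 1345844270, 0, 0, 0, ⟨0, 0⟩, 0⟩ 0 0))) (.cut .s 15851520 (.cut .v 17563648 (.cut .d (-49152) (.pos 55 .mp ⟨376645541, 0, 0, 0, 0, 1801277078, 0, 0, 0, ⟨0, 0⟩, 0⟩ 0 0) (.pos 55 .mp ⟨507374948, 0, 0, 0, 0, 1418275949, 0, 0, 0, ⟨0, 0⟩, 0⟩ 0 0)) (.pos 56 .mp ⟨605480323, 0, 0, 0, 0, 1289385644, 0, 0,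 0, ⟨0, 0⟩, 0⟩ 0 0)) (.cut .d (-49152) (.cut .l 2880089 (.pos 24 .mp ⟨466915239, 0, 0, 0, 0, 1794068719, 0, 0, 0, ⟨0, 0⟩, 0⟩ 0 0) (.cut .v 17563648 (.pos 55 .mp ⟨263506133, 0, 0, 0, 0, 2118803253, 0, 0, 0, ⟨0, 0⟩, 0⟩ 0 0) (.pos 56 .mp ⟨576590718, 0, 0, 0, 0, 1451828131, 0, 0, 0, ⟨0, 0⟩, 0⟩ 0 0))) (.pos 24 .mp ⟨547820241, 0, 0, 0, 0, 1415753796, 0, 0, 0, ⟨0, 0⟩, 0⟩ 0 0)))))) (.cut .l 2125114 (.cut .v 17301504 (.cut .d (-16384) (.cut .s 15826944 (.cut .l 1370139 (.cut .v 17039360 (.pos 46 .mp ⟨332589155, 0, 0, 0, 0, 1683786417, 0, 0, 0, ⟨0, 0⟩, 0⟩ 0 0) (.pos 47 .mp ⟨505609768, 0, 0, 0, 0, 1306010408, 0, 0, 0, ⟨0, 0⟩, 0⟩ 0 0)) (.pos 23 .mp ⟨430523133, 0, 0, 0, 0,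 1344496194, 0, 0, 0, ⟨0, 0⟩, 0⟩ 0 0)) (.cut .l 1370139 (.cut .v 17039360 (.pos 46 .mp ⟨299654639, 0, 0, 0, 0, 1925179298, 0, 0, 0, ⟨0, 0⟩, 0⟩ 0 0) (.cut .s 15851520 (.pos 47 .mp ⟨524184108, 0, 0, 0, 0, 1371378002, 0, 0, 0, ⟨0, 0⟩, 0⟩ 0 0) (.pos 47 .mp ⟨543926820, 0, 0, 0, 0, 1424634907, 0, 0, 0, ⟨0, 0⟩, 0⟩ 0 0))) (.cut .s 15851520 (.pos 23 .mp ⟨336773047, 0, 0, 0, 0, 1766846627, 0, 0, 0, ⟨0, 0⟩, 0⟩ 0 0) (.cut .d (-24576) (.pos 23 .mp ⟨358162938, 0, 0, 0, 0, 1854760662, 0, 0, 0, ⟨0, 0⟩, 0⟩ 0 0) (.pos 23 .mp ⟨429275947, 0, 0, 0, 0, 1332334682, 0, 0, 0, ⟨0, 0⟩, 0⟩ 0 0))))) (.cut .d (-8192) (.cut .l 1370139 (.cut .v 17039360 (.cut .l 992651 (.cut .s 15826944 (.pos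 46 .mp ⟨331779492, 0, 0, 0, 0, 1626538372, 0, 0, 0, ⟨0, 0⟩, 0⟩ 0 0) (.cut .s 15851520 (.pos 46 .mp ⟨362963711, 0, 0, 0, 0, 1673480318, 0, 0, 0, ⟨0, 0⟩, 0⟩ 0 0) (.pos 46 .mp ⟨370922876, 0, 0, 0, 0, 1750276549, 0, 0, 0, ⟨0, 0⟩, 0⟩ 0 0))) (.pos 46 .mp ⟨0, 0, 0, 0, 0, 0, 0, 0, 0, ⟨0, 0⟩, 0⟩ 0 0)) (.pos 47 .mp ⟨1066655313, 0, 0, 0, 0, 0, 0, 0, 0, ⟨0, 0⟩, 0⟩ 0 0)) (.pos 23 .mp ⟨0, 0, 0, 0, 0, 0, 0, 0, 0, ⟨0, 0⟩, 0⟩ 0 0)) (.pos 23 .mp ⟨421018400, 0, 0, 0, 0, 0, 0, 0, 0, ⟨0, 0⟩, 0⟩ 0 0))) (.pos 24 .mp ⟨1142006640, 0, 0, 0, 0, 0, 0, 0, 0, ⟨0, 0⟩, 0⟩ 0 0)) (.pos 21 .mp ⟨439752170, 0, 0, 0, 0, 0, 0, 0, 0, ⟨0, 0⟩, 0⟩ 0 0))) (.cut .d (-32768) (.cut .l 2125114 (.cut .l 1370139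 (.void 21 ⟨0, 0, 0, 0, 0, 100000, 0, 0, 0, ⟨0, 0⟩, 0⟩ 0 0) (.cut .d (-49152) (.void 21 ⟨0, 0, 0, 0, 0, 100000, 0, 0, 0, ⟨0, 0⟩, 0⟩ 0 0) (.cut .l 1747626 (.void 21 ⟨0, 0, 0, 0, 0, 100000, 0, 0, 0, ⟨0, 0⟩, 0⟩ 0 0) (.cut .d (-40960) (.void 21 ⟨0, 0, 0, 0, 0, 100000, 0, 0, 0, ⟨0, 0⟩, 0⟩ 0 0) (.cut .v 17301504 (.cut .s 15925248 (.pos 23 .mp ⟨404236425, 0, 0, 0, 0, 1934073010, 0, 0, 0, ⟨0, 0⟩, 0⟩ 0 0) (.pos 23 .mp ⟨435919193, 0, 0, 0, 0, 2094158387, 0, 0, 0, ⟨0, 0⟩, 0⟩ 0 0)) (.pos 24 .mp ⟨1311954187, 0, 0, 0, 0, 148167011, 0, 0, 0, ⟨0, 0⟩, 0⟩ 0 0)))))) (.cut .v 17301504 (.cut .s 15925248 (.pos 23 .mp ⟨0, 0, 0, 0, 0, 2748795779, 0, 0, 0, ⟨0, 0⟩, 0⟩ 0 0) (.pos 23 .mp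 ⟨0, 0, 0, 0, 0, 2981347659, 0, 0, 0, ⟨0, 0⟩, 0⟩ 0 0)) (.cut .s 15925248 (.cut .d (-49152) (.cut .l 2880089 (.pos 24 .mp ⟨486171845, 0, 0, 0, 0, 1958945366, 0, 0, 0, ⟨0, 0⟩, 0⟩ 0 0) (.cut .v 17563648 (.cut .s 15900672 (.pos 55 .mp ⟨272890045, 0, 0, 0, 0, 2202374466, 0, 0, 0, ⟨0, 0⟩, 0⟩ 0 0) (.pos 55 .mp ⟨293565019, 0, 0, 0, 0, 2270775552, 0, 0, 0, ⟨0, 0⟩, 0⟩ 0 0)) (.cut .s 15900672 (.pos 56 .mp ⟨598055182, 0, 0, 0, 0, 1511446928, 0, 0, 0, ⟨0, 0⟩, 0⟩ 0 0) (.pos 56 .mp ⟨619991053, 0, 0, 0, 0, 1579320356, 0, 0, 0, ⟨0, 0⟩, 0⟩ 0 0)))) (.cut .s 15900672 (.cut .s 15888384 (.pos 24 .mp ⟨559059107, 0, 0, 0, 0, 1473081655, 0, 0, 0, ⟨0, 0⟩, 0⟩ 0 0) (.pos 24 .mp ⟨570634881,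 0, 0, 0, 0, 1501252598, 0, 0, 0, ⟨0, 0⟩, 0⟩ 0 0)) (.pos 24 .mp ⟨594855365, 0, 0, 0, 0, 1521204116, 0, 0, 0, ⟨0, 0⟩, 0⟩ 0 0))) (.cut .d (-49152) (.cut .s 15949824 (.cut .v 17563648 (.pos 55 .mp ⟨443983878, 0, 0, 0, 0, 2104491990, 0, 0, 0, ⟨0, 0⟩, 0⟩ 0 0) (.pos 56 .mp ⟨698834035, 0, 0, 0, 0, 1546157538, 0, 0, 0, ⟨0, 0⟩, 0⟩ 0 0)) (.pos 24 .mp ⟨483061712, 0, 0, 0, 0, 2218219398, 0, 0, 0, ⟨0, 0⟩, 0⟩ 0 0)) (.cut .s 15949824 (.pos 24 .mp ⟨620606759, 0, 0, 0, 0, 1586966897, 0, 0, 0, ⟨0, 0⟩, 0⟩ 0 0) (.pos 24 .mp ⟨648029443, 0, 0, 0, 0, 1662392043, 0, 0, 0, ⟨0, 0⟩, 0⟩ 0 0)))))) (.cut .l 2125114 (.cut .v 17301504 (.cut .d (-16384) (.cut .s 15925248 (.cut .l 1370139 (.cut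 .v 17039360 (.pos 46 .mp ⟨0, 0, 0, 0, 0, 2856209291, 0, 0, 0, ⟨0, 0⟩, 0⟩ 0 0) (.cut .s 15900672 (.pos 47 .mp ⟨564935815, 0, 0, 0, 0, 1483857764, 0, 0, 0, ⟨0, 0⟩, 0⟩ 0 0) (.pos 47 .mp ⟨587320309, 0, 0, 0, 0, 1549130511, 0, 0, 0, ⟨0, 0⟩, 0⟩ 0 0))) (.cut .s 15900672 (.cut .d (-24576) (.pos 23 .mp ⟨370849141, 0, 0, 0, 0, 1929047143, 0, 0, 0, ⟨0, 0⟩, 0⟩ 0 0) (.pos 23 .mp ⟨435941538, 0, 0, 0, 0, 1613046938, 0, 0, 0, ⟨0, 0⟩, 0⟩ 0 0)) (.pos 23 .mp ⟨368631719, 0, 0, 0, 0, 2003775615, 0, 0, 0, ⟨0, 0⟩, 0⟩ 0 0))) (.cut .v 17039360 (.pos 46 .mp ⟨0, 0, 0, 0, 0, 3067713591, 0, 0, 0, ⟨0, 0⟩, 0⟩ 0 0) (.cut .l 1370139 (.cut .s 15949824 (.pos 47 .mp ⟨445004471, 0, 0, 0, 0, 2035798613,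 0, 0, 0, ⟨0, 0⟩, 0⟩ 0 0) (.pos 47 .mp ⟨470007859, 0, 0, 0, 0, 2113415217, 0, 0, 0, ⟨0, 0⟩, 0⟩ 0 0)) (.pos 47 .mp ⟨378057138, 0, 0, 0, 0, 2147750623, 0, 0, 0, ⟨0, 0⟩, 0⟩ 0 0)))) (.cut .l 1370139 (.cut .d (-8192) (.cut .l 992651 (.cut .v 17039360 (.cut .s 15925248 (.cut .s 15900672 (.pos 46 .mp ⟨381422767, 0, 0, 0, 0, 1828439797, 0, 0, 0, ⟨0, 0⟩, 0⟩ 0 0) (.pos 46 .mp ⟨394918981, 0, 0, 0, 0, 1907061185, 0, 0, 0, ⟨0, 0⟩, 0⟩ 0 0)) (.pos 46 .mp ⟨397902489, 0, 0, 0, 0, 2069061446, 0, 0, 0, ⟨0, 0⟩, 0⟩ 0 0)) (.pos 47 .mp ⟨1305912362, 0, 0, 0, 0, 0, 0, 0, 0, ⟨0, 0⟩, 0⟩ 0 0)) (.pos 23 .mp ⟨436241297, 0, 0, 0, 0, 1600082193, 0, 0, 0, ⟨0, 0⟩, 0⟩ 0 0)) (.pos 23 .mp ⟨479502294,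 0, 0, 0, 0, 0, 0, 0, 0, ⟨0, 0⟩, 0⟩ 0 0)) (.pos 23 .mp ⟨0, 0, 0, 0, 0, 0, 0, 0, 0, ⟨0, 0⟩, 0⟩ 0 0))) (.pos 24 .mp ⟨1328767638, 0, 0, 0, 0, 0, 0, 0, 0, ⟨0, 0⟩, 0⟩ 0 0)) (.pos 21 .mp ⟨512574647, 0, 0, 0, 0, 0, 0, 0, 0, ⟨0, 0⟩, 0⟩ 0 0)))) (.cut .s 15876096 (.pos 22 .mp ⟨1233281415, 0, 0, 0, 0, 0, 0, 0, 0, ⟨0, 0⟩, 0⟩ 0 0) (.pos 22 .mp ⟨1418667506, 0, 0, 0, 0, 0, 0, 0, 0, ⟨0, 0⟩, 0⟩ 0 0)))) (.pos 20 .mp ⟨1658133266, 0, 0, 0, 0, 0, 0, 0, 0, ⟨0, 0⟩, 0⟩ 0 0)))))) (.void 18 ⟨100000, 0, 0, 0, 0, 0, 0, 0, 0, ⟨0, 0⟩, 0⟩ 0 0))) (.void 16 ⟨100000, 0, 0, 0, 0, 0, 0, 0, 0, ⟨0, 0⟩, 0⟩ 0 0)))) (.void 37 ⟨100000, 0, 0, 0, 0, 0, 0, 0, 0, ⟨0, 0⟩, 0⟩ 0 0)) (.void 50 ⟨88048, 0, 0, 11952,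 0, 0, 0, 0, 0, ⟨0, 0⟩, 0⟩ 0 0)) (.void 75 ⟨88027, 0, 0, 11973, 0, 0, 0, 0, 0, ⟨0, 0⟩, 0⟩ 0 0))) (.cut .v 16777216 (.cut .v 8388608 (.cut .v 4194304 (.cut .v 2097152 (.cut .v 1048576 (.cut .v 524288 (.pos 92 .pm ⟨0, 0, 56121910, 0, 0, 0, 0, 0, 0, ⟨0, 0⟩, 0⟩ 0 0) (.pos 93 .pm ⟨0, 0, 88729281, 0, 0, 0, 0, 0, 0, ⟨0, 0⟩, 0⟩ 0 0)) (.pos 89 .pm ⟨0, 0, 129961661, 0, 0, 0, 0, 0, 0, ⟨0, 0⟩, 0⟩ 0 0)) (.pos 79 .pm ⟨0, 0, 199453652, 0, 0, 0, 0, 0, 0, ⟨0, 0⟩, 0⟩ 0 0)) (.pos 5 .pm ⟨0, 0, 391323697, 0, 0, 0, 0, 0, 0, ⟨0, 0⟩, 0⟩ 0 0)) (.pos 3 .pm ⟨0, 0, 0, 0, 0, 0, 0, 0, 0, ⟨0, 0⟩, 0⟩ 0 0)) (.cut .v 268435456 (.cut .v 67108864 (.cut .d 531367 (.cut .v 33554432 (.cut .d 265683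 (.cut .v 25165824 (.cut .v 20971520 (.pos 17 .pp ⟨706756130, 0, 0, 0, 0, 0, 0, 0, 0, ⟨0, 0⟩, 0⟩ 0 0) (.pos 18 .pp ⟨1472296346, 0, 0, 0, 0, 0, 0, 0, 0, ⟨0, 0⟩, 0⟩ 0 0)) (.cut .d 132841 (.pos 16 .pp ⟨2876915639, 0, 0, 0, 0, 0, 0, 0, 0, ⟨0, 0⟩, 0⟩ 0 0) (.pos 16 .pp ⟨1908083910, 0, 0, 0, 0, 0, 0, 0, 0, ⟨0, 0⟩, 0⟩ 0 0))) (.pos 14 .pp ⟨0, 0, 0, 0, 0, 0, 0, 0, 0, ⟨0, 0⟩, 0⟩ 0 0)) (.cut .v 50331648 (.cut .d 265683 (.cut .v 41943040 (.pos 86 .pp ⟨4378274932, 0, 0, 0, 0, 0, 0, 0, 0, ⟨0, 0⟩, 0⟩ 0 0) (.pos 87 .pp ⟨7414206663, 3559393979, 0, 0, 0, 0, 0, 0, 0, ⟨0, 0⟩, 0⟩ 0 0)) (.cut .v 41943040 (.pos 86 .pp ⟨2704530513, 818968523, 0, 0, 0, 0, 0, 0, 0, ⟨0, 0⟩, 0⟩ 0 0) (.pos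 87 .pp ⟨4356044868, 2885521956, 0, 0, 0, 0, 0, 0, 0, ⟨0, 0⟩, 0⟩ 0 0))) (.void 66 ⟨78348, 0, 0, 21652, 0, 0, 0, 0, 0, ⟨0, 0⟩, 0⟩ 0 0))) (.pos 36 .pp ⟨0, 1026302239, 0, 0, 0, 0, 0, 0, 0, ⟨0, 0⟩, 0⟩ 0 0)) (.void 50 ⟨0, 0, 0, 100000, 0, 0, 0, 0, 0, ⟨0, 0⟩, 0⟩ 0 0)) (.void 75 ⟨0, 0, 0, 100000, 0, 0, 0, 0, 0, ⟨0, 0⟩, 0⟩ 0 0)))),
    by decide +kernel⟩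

def covers29 : cell.Covers table row29.1 :=
  ⟨(.cut .d 0 (.cut .v 16777216 (.cut .v 8388608 (.void 2 ⟨0, 0, 100000, 0, 0, 0, 0, 0, 0, ⟨0, 0⟩, 0⟩ 0 0) (.cut .d (-8388608) (.void 3 ⟨100000, 0, 0, 0, 0, 0, 0, 0, 0, ⟨0, 0⟩, 0⟩ 0 0) (.cut .d (-4194304) (.void 3 ⟨100000, 0, 0, 0, 0, 0, 0, 0, 0, ⟨0, 0⟩, 0⟩ 0 0) (.cut .d (-2097152) (.void 3 ⟨100000, 0, 0, 0, 0, 0, 0, 0, 0, ⟨0, 0⟩, 0⟩ 0 0) (.cut .d (-1048576) (.void 3 ⟨100000, 0, 0, 0, 0, 0, 0, 0, 0, ⟨0, 0⟩, 0⟩ 0 0) (.cut .d (-524288) (.void 3 ⟨0, 0, 0, 0, 0, 100000, 0, 0, 0, ⟨0, 0⟩, 0⟩ 0 0) (.cut .d (-262144) (.void 3 ⟨0, 0, 0, 0, 0, 100000, 0, 0, 0, ⟨0, 0⟩, 0⟩ 0 0) (.cut .d (-131072) (.void 3 ⟨0, 0, 0, 0, 0, 100000,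 0, 0, 0, ⟨0, 0⟩, 0⟩ 0 0) (.cut .d (-65536) (.void 3 ⟨0, 0, 0, 0, 0, 100000, 0, 0, 0, ⟨0, 0⟩, 0⟩ 0 0) (.cut .v 12582912 (.cut .v 10485760 (.pos 61 .mm ⟨0, 0, 207131886, 0, 0, 1969681718, 0, 0, 0, ⟨0, 0⟩, 0⟩ 0 0) (.pos 62 .mm ⟨0, 0, 0, 0, 0, 2328004908, 0, 0, 0, ⟨0, 0⟩, 0⟩ 0 0)) (.cut .s 16056320 (.cut .d (-32768) (.pos 7 .mm ⟨0, 0, 0, 0, 0, 3404175437, 0, 0, 0, ⟨0, 0⟩, 0⟩ 0 0) (.pos 7 .mm ⟨0, 0, 0, 0, 0, 3047423567, 0, 0, 0, ⟨0, 0⟩, 0⟩ 0 0)) (.pos 7 .mm ⟨0, 0, 0, 0, 0, 3857019350, 0, 0, 0, ⟨0, 0⟩, 0⟩ 0 0)))))))))))) (.cut .v 268435456 (.cut .v 67108864 (.cut .v 33554432 (.cut .d (-8388608) (.void 14 ⟨100000, 0, 0, 0, 0, 0, 0, 0, 0, ⟨0, 0⟩, 0⟩ 0 0) (.cut .d (-4194304)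 (.void 14 ⟨100000, 0, 0, 0, 0, 0, 0, 0, 0, ⟨0, 0⟩, 0⟩ 0 0) (.cut .v 25165824 (.cut .d (-2097152) (.void 15 ⟨100000, 0, 0, 0, 0, 0, 0, 0, 0, ⟨0, 0⟩, 0⟩ 0 0) (.cut .v 20971520 (.cut .d (-1048576) (.void 17 ⟨100000, 0, 0, 0, 0, 0, 0, 0, 0, ⟨0, 0⟩, 0⟩ 0 0) (.cut .d (-524288) (.void 17 ⟨100000, 0, 0, 0, 0, 0, 0, 0, 0, ⟨0, 0⟩, 0⟩ 0 0) (.cut .d (-262144) (.void 17 ⟨100000, 0, 0, 0, 0, 0, 0, 0, 0, ⟨0, 0⟩, 0⟩ 0 0) (.cut .v 18874368 (.cut .d (-131072) (.void 19 ⟨100000, 0, 0, 0, 0, 0, 0, 0, 0, ⟨0, 0⟩, 0⟩ 0 0) (.cut .d (-65536) (.void 19 ⟨0, 0, 0, 0, 0, 100000, 0, 0, 0, ⟨0, 0⟩, 0⟩ 0 0) (.cut .s 16056320 (.cut .v 17825792 (.cut .s 16015360 (.cut .d (-32768) (.cut .l 2125114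 (.pos 21 .mp ⟨512688415, 0, 0, 0, 0, 2406603781, 0, 0, 0, ⟨0, 0⟩, 0⟩ 0 0) (.pos 21 .mp ⟨425929211, 0, 0, 0, 0, 2359579387, 0, 0, 0, ⟨0, 0⟩, 0⟩ 0 0)) (.cut .s 15994880 (.cut .v 17301504 (.cut .d (-16384) (.pos 23 .mp ⟨407076690, 0, 0, 0, 0, 2310392228, 0, 0, 0, ⟨0, 0⟩, 0⟩ 0 0) (.pos 23 .mp ⟨524220377, 0, 0, 0, 0, 1870012269, 0, 0, 0, ⟨0, 0⟩, 0⟩ 0 0)) (.pos 24 .mp ⟨736298961, 0, 0, 0, 0, 1593154334, 0, 0, 0, ⟨0, 0⟩, 0⟩ 0 0)) (.pos 21 .mp ⟨704412379, 0, 0, 0, 0, 1682228363, 0, 0, 0, ⟨0, 0⟩, 0⟩ 0 0))) (.cut .d (-32768) (.pos 21 .mp ⟨0, 0, 0, 0, 0, 22092382157, 0, 0, 0, ⟨0, 0⟩, 0⟩ 0 0) (.pos 21 .mp ⟨755615724, 0, 0, 0, 0, 1752055811, 0, 0, 0, ⟨0, 0⟩, 0⟩ 0 0))) (.pos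 22 .mp ⟨1656682581, 0, 0, 0, 0, 0, 0, 0, 0, ⟨0, 0⟩, 0⟩ 0 0)) (.cut .d (-32768) (.pos 19 .mp ⟨866493388, 0, 0, 0, 0, 39743282171, 0, 0, 0, ⟨0, 0⟩, 0⟩ 0 0) (.pos 19 .mp ⟨1012605425, 0, 0, 0, 0, 1670033910, 0, 0, 0, ⟨0, 0⟩, 0⟩ 0 0))))) (.pos 20 .mp ⟨2568589128, 0, 0, 0, 0, 0, 0, 0, 0, ⟨0, 0⟩, 0⟩ 0 0))))) (.void 18 ⟨100000, 0, 0, 0, 0, 0, 0, 0, 0, ⟨0, 0⟩, 0⟩ 0 0))) (.void 16 ⟨100000, 0, 0, 0, 0, 0, 0, 0, 0, ⟨0, 0⟩, 0⟩ 0 0)))) (.void 37 ⟨100000, 0, 0, 0, 0, 0, 0, 0, 0, ⟨0, 0⟩, 0⟩ 0 0)) (.void 50 ⟨87935, 0, 0, 12065, 0, 0, 0, 0, 0, ⟨0, 0⟩, 0⟩ 0 0)) (.void 75 ⟨87919, 0, 0, 12081, 0, 0, 0, 0, 0, ⟨0, 0⟩, 0⟩ 0 0))) (.cut .v 16777216 (.cut .v 8388608 (.cut .v 4194304 (.cut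 .v 2097152 (.cut .v 1048576 (.cut .v 524288 (.pos 92 .pm ⟨0, 0, 70339098, 0, 0, 0, 0, 0, 0, ⟨0, 0⟩, 0⟩ 0 0) (.pos 93 .pm ⟨0, 0, 125870449, 0, 0, 0, 0, 0, 0, ⟨0, 0⟩, 0⟩ 0 0)) (.pos 89 .pm ⟨0, 0, 194471748, 0, 0, 0, 0, 0, 0, ⟨0, 0⟩, 0⟩ 0 0)) (.pos 79 .pm ⟨0, 0, 319439725, 0, 0, 0, 0, 0, 0, ⟨0, 0⟩, 0⟩ 0 0)) (.pos 5 .pm ⟨0, 0, 651379788, 0, 0, 0, 0, 0, 0, ⟨0, 0⟩, 0⟩ 0 0)) (.pos 3 .pm ⟨0, 0, 3015094, 0, 0, 0, 0, 0, 0, ⟨0, 0⟩, 0⟩ 0 0)) (.cut .v 268435456 (.cut .v 67108864 (.cut .d 421582 (.cut .v 33554432 (.cut .d 210791 (.cut .v 25165824 (.cut .v 20971520 (.pos 17 .pp ⟨772704622, 0, 0, 0, 0, 0, 0, 0, 0, ⟨0, 0⟩, 0⟩ 0 0) (.pos 18 .pp ⟨1962007795, 0, 0, 0, 0, 0, 0, 0,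 0, ⟨0, 0⟩, 0⟩ 0 0)) (.cut .d 105395 (.pos 16 .pp ⟨3787996328, 0, 0, 0, 0, 0, 0, 0, 0, ⟨0, 0⟩, 0⟩ 0 0) (.pos 16 .pp ⟨2569910776, 0, 0, 0, 0, 0, 0, 0, 0, ⟨0, 0⟩, 0⟩ 0 0))) (.pos 14 .pp ⟨0, 0, 0, 0, 0, 0, 0, 0, 0, ⟨0, 0⟩, 0⟩ 0 0)) (.cut .v 50331648 (.cut .d 210791 (.cut .v 41943040 (.pos 86 .pp ⟨5845160117, 0, 0, 0, 0, 0, 0, 0, 0, ⟨0, 0⟩, 0⟩ 0 0) (.pos 87 .pp ⟨10812480219, 2587199344, 0, 0, 0, 0, 0, 0, 0, ⟨0, 0⟩, 0⟩ 0 0)) (.cut .v 41943040 (.pos 86 .pp ⟨3635885853, 610786894, 0, 0, 0, 0, 0, 0, 0, ⟨0, 0⟩, 0⟩ 0 0) (.pos 87 .pp ⟨6332327994, 3993156114, 0, 0, 0, 0, 0, 0, 0, ⟨0, 0⟩, 0⟩ 0 0))) (.void 66 ⟨78230, 0, 0, 21770, 0, 0, 0, 0, 0, ⟨0, 0⟩, 0⟩ 0 0))) (.pos 36 .pp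 ⟨0, 2290768243, 0, 0, 0, 0, 0, 0, 0, ⟨0, 0⟩, 0⟩ 0 0)) (.void 50 ⟨0, 0, 0, 100000, 0, 0, 0, 0, 0, ⟨0, 0⟩, 0⟩ 0 0)) (.void 75 ⟨0, 0, 0, 100000, 0, 0, 0, 0, 0, ⟨0, 0⟩, 0⟩ 0 0)))),
    by decide +kernel⟩

def covers30 : cell.Covers table row30.1 :=
  ⟨(.cut .d 0 (.cut .v 16777216 (.cut .v 8388608 (.void 2 ⟨0, 0, 100000, 0, 0, 0, 0, 0, 0, ⟨0, 0⟩, 0⟩ 0 0) (.cut .d (-8388608) (.void 3 ⟨100000, 0, 0, 0, 0, 0, 0, 0, 0, ⟨0, 0⟩, 0⟩ 0 0) (.cut .d (-4194304) (.void 3 ⟨100000, 0, 0, 0, 0, 0, 0, 0, 0, ⟨0, 0⟩, 0⟩ 0 0) (.cut .d (-2097152) (.void 3 ⟨100000, 0, 0, 0, 0, 0, 0, 0, 0, ⟨0, 0⟩, 0⟩ 0 0) (.cut .d (-1048576) (.void 3 ⟨100000, 0, 0, 0, 0, 0, 0, 0, 0, ⟨0, 0⟩, 0⟩ 0 0) (.cut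 .v 12582912 (.pos 6 .mm ⟨0, 0, 153469954, 0, 0, 5151574428, 0, 0, 0, ⟨0, 0⟩, 0⟩ 0 0) (.cut .d (-524288) (.void 7 ⟨100000, 0, 0, 0, 0, 0, 0, 0, 0, ⟨0, 0⟩, 0⟩ 0 0) (.pos 7 .mm ⟨0, 0, 0, 0, 0, 6361579683, 0, 0, 0, ⟨0, 0⟩, 0⟩ 0 0)))))))) (.cut .v 268435456 (.cut .v 67108864 (.cut .v 33554432 (.cut .d (-8388608) (.void 14 ⟨100000, 0, 0, 0, 0, 0, 0, 0, 0, ⟨0, 0⟩, 0⟩ 0 0) (.cut .d (-4194304) (.void 14 ⟨100000, 0, 0, 0, 0, 0, 0, 0, 0, ⟨0, 0⟩, 0⟩ 0 0) (.cut .v 25165824 (.cut .d (-2097152) (.void 15 ⟨100000, 0, 0, 0, 0, 0, 0, 0, 0, ⟨0, 0⟩, 0⟩ 0 0) (.cut .v 20971520 (.cut .d (-1048576) (.void 17 ⟨100000, 0, 0, 0, 0, 0, 0, 0, 0, ⟨0, 0⟩, 0⟩ 0 0) (.cut .v 18874368 (.cut .d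 (-524288) (.void 19 ⟨100000, 0, 0, 0, 0, 0, 0, 0, 0, ⟨0, 0⟩, 0⟩ 0 0) (.cut .v 17825792 (.cut .s 16203776 (.pos 21 .mp ⟨574463838, 0, 0, 0, 0, 4668820904, 0, 0, 0, ⟨0, 0⟩, 0⟩ 0 0) (.cut .s 16236544 (.pos 21 .mp ⟨641606253, 0, 0, 0, 0, 5043019232, 0, 0, 0, ⟨0, 0⟩, 0⟩ 0 0) (.pos 21 .mp ⟨679853452, 0, 0, 0, 0, 5531240519, 0, 0, 0, ⟨0, 0⟩, 0⟩ 0 0))) (.pos 22 .mp ⟨40304307342, 0, 0, 0, 0, 0, 0, 0, 0, ⟨0, 0⟩, 0⟩ 0 0))) (.pos 20 .mp ⟨46697882372, 0, 0, 0, 0, 0, 0, 0, 0, ⟨0, 0⟩, 0⟩ 0 0))) (.void 18 ⟨100000, 0, 0, 0, 0, 0, 0, 0, 0, ⟨0, 0⟩, 0⟩ 0 0))) (.void 16 ⟨100000, 0, 0, 0, 0, 0, 0, 0, 0, ⟨0, 0⟩, 0⟩ 0 0)))) (.void 37 ⟨100000, 0, 0, 0, 0, 0, 0, 0, 0, ⟨0, 0⟩, 0⟩ 0 0))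 (.void 50 ⟨87845, 0, 0, 12155, 0, 0, 0, 0, 0, ⟨0, 0⟩, 0⟩ 0 0)) (.void 75 ⟨87832, 0, 0, 12168, 0, 0, 0, 0, 0, ⟨0, 0⟩, 0⟩ 0 0))) (.cut .v 16777216 (.cut .v 8388608 (.cut .v 4194304 (.cut .v 2097152 (.cut .v 1048576 (.cut .v 524288 (.pos 92 .pm ⟨0, 0, 91603926, 0, 0, 0, 0, 0, 0, ⟨0, 0⟩, 0⟩ 0 0) (.pos 93 .pm ⟨0, 0, 181412108, 0, 0, 0, 0, 0, 0, ⟨0, 0⟩, 0⟩ 0 0)) (.pos 89 .pm ⟨0, 0, 293667628, 0, 0, 0, 0, 0, 0, ⟨0, 0⟩, 0⟩ 0 0)) (.pos 79 .pm ⟨0, 0, 509825291, 0, 0, 0, 0, 0, 0, ⟨0, 0⟩, 0⟩ 0 0)) (.pos 5 .pm ⟨0, 0, 1071406023, 0, 0, 0, 0, 0, 0, ⟨0, 0⟩, 0⟩ 0 0)) (.pos 3 .pm ⟨0, 0, 47406622, 0, 0, 0, 0, 0, 0, ⟨0, 0⟩, 0⟩ 0 0)) (.cut .v 268435456 (.cut .v 67108864 (.cut .d 332139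 (.cut .v 33554432 (.cut .d 166069 (.cut .v 25165824 (.pos 15 .pp ⟨1951601212, 0, 0, 0, 0, 0, 0, 0, 0, ⟨0, 0⟩, 0⟩ 0 0) (.pos 16 .pp ⟨4737528690, 0, 0, 0, 0, 0, 0, 0, 0, ⟨0, 0⟩, 0⟩ 0 0)) (.pos 14 .pp ⟨0, 0, 0, 0, 0, 0, 0, 0, 0, ⟨0, 0⟩, 0⟩ 0 0)) (.cut .v 50331648 (.cut .v 41943040 (.cut .d 166069 (.pos 86 .pp ⟨8331046705, 337021780, 0, 0, 0, 0, 0, 0, 0, ⟨0, 0⟩, 0⟩ 0 0) (.pos 86 .pp ⟨5327842230, 2268354628, 0, 0, 0, 0, 0, 0, 0, ⟨0, 0⟩, 0⟩ 0 0)) (.pos 87 .pp ⟨61774255700, 105997904300, 0, 0, 0, 0, 0, 0, 0, ⟨0, 0⟩, 0⟩ 0 0)) (.void 66 ⟨78137, 0, 0, 21863, 0, 0, 0, 0, 0, ⟨0, 0⟩, 0⟩ 0 0))) (.pos 36 .pp ⟨0, 4110294023, 0, 0, 0, 0, 0, 0, 0, ⟨0, 0⟩, 0⟩ 0 0)) (.void 50 ⟨0,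 0, 0, 100000, 0, 0, 0, 0, 0, ⟨0, 0⟩, 0⟩ 0 0)) (.void 75 ⟨0, 0, 0, 100000, 0, 0, 0, 0, 0, ⟨0, 0⟩, 0⟩ 0 0)))),
    by decide +kernel⟩

def covers31 : cell.Covers table row31.1 :=
  ⟨(.cut .d 0 (.cut .v 16777216 (.cut .v 8388608 (.void 2 ⟨0, 0, 100000, 0, 0, 0, 0, 0, 0, ⟨0, 0⟩, 0⟩ 0 0) (.cut .d (-8388608) (.void 3 ⟨100000, 0, 0, 0, 0, 0, 0, 0, 0, ⟨0, 0⟩, 0⟩ 0 0) (.cut .d (-4194304) (.void 3 ⟨100000, 0, 0, 0, 0, 0, 0, 0, 0, ⟨0, 0⟩, 0⟩ 0 0) (.cut .d (-2097152) (.void 3 ⟨100000, 0, 0, 0, 0, 0, 0, 0, 0, ⟨0, 0⟩, 0⟩ 0 0) (.cut .d (-1048576) (.void 3 ⟨100000, 0, 0, 0, 0, 0, 0, 0, 0, ⟨0, 0⟩, 0⟩ 0 0) (.cut .v 12582912 (.pos 6 .mm ⟨0, 0, 212784184, 0, 0, 5997387782, 0, 0,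 0, ⟨0, 0⟩, 0⟩ 0 0) (.pos 7 .mm ⟨0, 0, 0, 0, 0, 8480693457, 0, 0, 0, ⟨0, 0⟩, 0⟩ 0 0))))))) (.cut .v 268435456 (.cut .v 67108864 (.cut .v 33554432 (.cut .d (-8388608) (.void 14 ⟨100000, 0, 0, 0, 0, 0, 0, 0, 0, ⟨0, 0⟩, 0⟩ 0 0) (.cut .d (-4194304) (.void 14 ⟨100000, 0, 0, 0, 0, 0, 0, 0, 0, ⟨0, 0⟩, 0⟩ 0 0) (.cut .v 25165824 (.cut .d (-2097152) (.void 15 ⟨100000, 0, 0, 0, 0, 0, 0, 0, 0, ⟨0, 0⟩, 0⟩ 0 0) (.cut .d (-1048576) (.void 15 ⟨100000, 0, 0, 0, 0, 0, 0, 0, 0, ⟨0, 0⟩, 0⟩ 0 0) (.cut .d (-524288) (.void 15 ⟨100000, 0, 0, 0, 0, 0, 0, 0, 0, ⟨0, 0⟩, 0⟩ 0 0) (.cut .v 20971520 (.cut .v 18874368 (.pos 19 .mp ⟨873961377, 0, 0, 0, 0, 5622947924, 0, 0, 0, ⟨0, 0⟩, 0⟩ 0 0) (.pos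 20 .mp ⟨33042123941, 0, 0, 0, 0, 0, 0, 0, 0, ⟨0, 0⟩, 0⟩ 0 0)) (.void 18 ⟨100000, 0, 0, 0, 0, 0, 0, 0, 0, ⟨0, 0⟩, 0⟩ 0 0))))) (.void 16 ⟨100000, 0, 0, 0, 0, 0, 0, 0, 0, ⟨0, 0⟩, 0⟩ 0 0)))) (.void 37 ⟨100000, 0, 0, 0, 0, 0, 0, 0, 0, ⟨0, 0⟩, 0⟩ 0 0)) (.void 50 ⟨87777, 0, 0, 12223, 0, 0, 0, 0, 0, ⟨0, 0⟩, 0⟩ 0 0)) (.void 75 ⟨87768, 0, 0, 12232, 0, 0, 0, 0, 0, ⟨0, 0⟩, 0⟩ 0 0))) (.cut .v 16777216 (.cut .v 8388608 (.cut .v 4194304 (.cut .v 2097152 (.cut .v 1048576 (.cut .v 524288 (.pos 92 .pm ⟨0, 0, 100136171, 0, 0, 0, 0, 0, 0, ⟨0, 0⟩, 0⟩ 0 0) (.pos 93 .pm ⟨0, 0, 199971400, 0, 0, 0, 0, 0, 0, ⟨0, 0⟩, 0⟩ 0 0)) (.pos 89 .pm ⟨0, 0, 336491952, 0, 0, 0, 0, 0, 0, ⟨0, 0⟩, 0⟩ 0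 0)) (.pos 79 .pm ⟨0, 0, 625327064, 0, 0, 0, 0, 0, 0, ⟨0, 0⟩, 0⟩ 0 0)) (.pos 5 .pm ⟨0, 0, 1557900600, 0, 0, 0, 0, 0, 0, ⟨0, 0⟩, 0⟩ 0 0)) (.pos 3 .pm ⟨0, 0, 64460372, 0, 0, 0, 0, 0, 0, ⟨0, 0⟩, 0⟩ 0 0)) (.cut .v 268435456 (.cut .v 67108864 (.cut .d 261881 (.cut .v 33554432 (.cut .v 25165824 (.pos 15 .pp ⟨2047158602, 0, 0, 0, 0, 0, 0, 0, 0, ⟨0, 0⟩, 0⟩ 0 0) (.pos 16 .pp ⟨4761765395, 0, 0, 0, 0, 0, 0, 0, 0, ⟨0, 0⟩, 0⟩ 0 0)) (.cut .v 50331648 (.cut .v 41943040 (.cut .d 130940 (.pos 86 .pp ⟨11074534098, 0, 0, 0, 0, 0, 0, 0, 0, ⟨0, 0⟩, 0⟩ 0 0) (.pos 86 .pp ⟨6812314398, 0, 0, 0, 0, 0, 0, 0, 0, ⟨0, 0⟩, 0⟩ 0 0)) (.pos 87 .pp ⟨62026254817, 105745905183, 0, 0, 0, 0, 0, 0, 0,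 ⟨0, 0⟩, 0⟩ 0 0)) (.void 66 ⟨78069, 0, 0, 21931, 0, 0, 0, 0, 0, ⟨0, 0⟩, 0⟩ 0 0))) (.pos 36 .pp ⟨0, 6769448291, 0, 0, 0, 0, 0, 0, 0, ⟨0, 0⟩, 0⟩ 0 0)) (.void 50 ⟨0, 0, 0, 100000, 0, 0, 0, 0, 0, ⟨0, 0⟩, 0⟩ 0 0)) (.void 75 ⟨0, 0, 0, 100000, 0, 0, 0, 0, 0, ⟨0, 0⟩, 0⟩ 0 0)))),
    by decide +kernel⟩

def covers32 : cell.Covers table row32.1 :=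
  ⟨(.cut .d 0 (.cut .v 16777216 (.cut .v 8388608 (.void 2 ⟨0, 0, 100000, 0, 0, 0, 0, 0, 0, ⟨0, 0⟩, 0⟩ 0 0) (.cut .d (-8388608) (.void 3 ⟨100000, 0, 0, 0, 0, 0, 0, 0, 0, ⟨0, 0⟩, 0⟩ 0 0) (.pos 3 .mm ⟨0, 0, 2790484581, 0, 0, 32366783904, 0, 0, 0, ⟨0, 0⟩, 0⟩ 0 0))) (.cut .v 268435456 (.cut .v 67108864 (.cut .v 33554432 (.cut .d (-8388608) (.void 14 ⟨100000, 0, 0, 0, 0, 0, 0, 0, 0, ⟨0, 0⟩, 0⟩ 0 0) (.cut .d (-4194304) (.void 14 ⟨100000, 0, 0, 0, 0, 0, 0, 0, 0, ⟨0, 0⟩, 0⟩ 0 0) (.pos 14 .mp ⟨0, 0, 0, 0, 0, 46825690155, 0, 0, 0, ⟨0, 0⟩, 0⟩ 0 0))) (.void 37 ⟨100000, 0, 0, 0, 0, 0, 0, 0, 0, ⟨0, 0⟩, 0⟩ 0 0)) (.void 50 ⟨87721, 0, 0, 12279, 0, 0, 0, 0, 0, ⟨0, 0⟩, 0⟩ 0 0)) (.void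 75 ⟨87714, 0, 0, 12286, 0, 0, 0, 0, 0, ⟨0, 0⟩, 0⟩ 0 0))) (.cut .v 16777216 (.cut .v 8388608 (.cut .v 4194304 (.cut .v 2097152 (.cut .v 1048576 (.cut .v 524288 (.pos 92 .pm ⟨0, 0, 122610632, 0, 0, 0, 0, 0, 0, ⟨0, 0⟩, 0⟩ 0 0) (.pos 93 .pm ⟨0, 0, 265549111, 0, 0, 0, 0, 0, 0, ⟨0, 0⟩, 0⟩ 0 0)) (.pos 89 .pm ⟨0, 0, 475019550, 0, 0, 0, 0, 0, 0, ⟨0, 0⟩, 0⟩ 0 0)) (.pos 79 .pm ⟨0, 0, 870655879, 0, 0, 0, 0, 0, 0, ⟨0, 0⟩, 0⟩ 0 0)) (.pos 5 .pm ⟨0, 0, 1607965104, 0, 0, 0, 0, 0, 0, ⟨0, 0⟩, 0⟩ 0 0)) (.pos 3 .pm ⟨0, 0, 2011662570, 0, 0, 0, 0, 0, 0, ⟨0, 0⟩, 0⟩ 0 0)) (.cut .v 268435456 (.cut .v 67108864 (.cut .v 33554432 (.pos 14 .pp ⟨0, 0, 0, 0, 0, 0, 0, 0, 0, ⟨0, 0⟩, 0⟩ 0 0) (.pos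 37 .pp ⟨17989933741, 20992621219, 0, 0, 0, 0, 0, 0, 0, ⟨0, 0⟩, 0⟩ 0 0)) (.void 50 ⟨0, 0, 0, 100000, 0, 0, 0, 0, 0, ⟨0, 0⟩, 0⟩ 0 0)) (.void 75 ⟨0, 0, 0, 100000, 0, 0, 0, 0, 0, ⟨0, 0⟩, 0⟩ 0 0)))),
    by decide +kernel⟩

def covers33 : cell.Covers table row33.1 :=
  ⟨(.cut .d 0 (.cut .v 16777216 (.cut .v 8388608 (.void 2 ⟨0, 0, 100000, 0, 0, 0, 0, 0, 0, ⟨0, 0⟩, 0⟩ 0 0) (.cut .d (-8388608) (.void 3 ⟨100000, 0, 0, 0, 0, 0, 0, 0, 0, ⟨0, 0⟩, 0⟩ 0 0) (.pos 3 .mm ⟨0, 0, 4005863366, 0, 0, 42591716540, 0, 0, 0, ⟨0, 0⟩, 0⟩ 0 0))) (.cut .v 268435456 (.cut .v 67108864 (.cut .v 33554432 (.cut .d (-8388608) (.void 14 ⟨100000, 0, 0, 0, 0, 0, 0, 0, 0, ⟨0, 0⟩, 0⟩ 0 0) (.pos 14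 .mp ⟨0, 0, 0, 0, 0, 94850265133, 0, 0, 0, ⟨0, 0⟩, 0⟩ 0 0)) (.void 37 ⟨100000, 0, 0, 0, 0, 0, 0, 0, 0, ⟨0, 0⟩, 0⟩ 0 0)) (.void 50 ⟨87677, 0, 0, 12323, 0, 0, 0, 0, 0, ⟨0, 0⟩, 0⟩ 0 0)) (.void 75 ⟨87671, 0, 0, 12329, 0, 0, 0, 0, 0, ⟨0, 0⟩, 0⟩ 0 0))) (.cut .v 16777216 (.cut .v 8388608 (.cut .v 4194304 (.cut .v 2097152 (.cut .v 1048576 (.cut .v 524288 (.pos 92 .pm ⟨0, 0, 164533220, 0, 0, 0, 0, 0, 0, ⟨0, 0⟩, 0⟩ 0 0) (.pos 93 .pm ⟨0, 0, 371437760, 0, 0, 0, 0, 0, 0, ⟨0, 0⟩, 0⟩ 0 0)) (.pos 89 .pm ⟨0, 0, 677512054, 0, 0, 0, 0, 0, 0, ⟨0, 0⟩, 0⟩ 0 0)) (.pos 79 .pm ⟨0, 0, 1258222938, 0, 0, 0, 0, 0, 0, ⟨0, 0⟩, 0⟩ 0 0)) (.pos 5 .pm ⟨0, 0, 2332350286, 0, 0, 0, 0, 0, 0, ⟨0, 0⟩,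 0⟩ 0 0)) (.pos 3 .pm ⟨0, 0, 2857751511, 0, 0, 0, 0, 0, 0, ⟨0, 0⟩, 0⟩ 0 0)) (.cut .v 268435456 (.cut .v 67108864 (.cut .v 33554432 (.pos 14 .pp ⟨0, 0, 0, 0, 0, 0, 0, 0, 0, ⟨0, 0⟩, 0⟩ 0 0) (.pos 37 .pp ⟨24130665717, 27805471975, 0, 0, 0, 0, 0, 0, 0, ⟨0, 0⟩, 0⟩ 0 0)) (.void 50 ⟨0, 0, 0, 100000, 0, 0, 0, 0, 0, ⟨0, 0⟩, 0⟩ 0 0)) (.void 75 ⟨0, 0, 0, 100000, 0, 0, 0, 0, 0, ⟨0, 0⟩, 0⟩ 0 0)))),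
    by decide +kernel⟩

def covers34 : cell.Covers table row34.1 :=
  ⟨(.cut .d 0 (.cut .v 16777216 (.cut .v 8388608 (.void 2 ⟨0, 0, 100000, 0, 0, 0, 0, 0, 0, ⟨0, 0⟩, 0⟩ 0 0) (.cut .d (-8388608) (.void 3 ⟨100000, 0, 0, 0, 0, 0, 0, 0, 0, ⟨0, 0⟩, 0⟩ 0 0) (.pos 3 .mm ⟨0, 0, 5731449325, 0, 0, 54527840961, 0, 0, 0, ⟨0, 0⟩, 0⟩ 0 0))) (.cut .v 4294967296 (.cut .v 268435456 (.cut .v 67108864 (.cut .d (-8388608) (.void 36 ⟨100000, 0, 0, 0, 0, 0, 0, 0, 0, ⟨0, 0⟩, 0⟩ 0 0) (.cut .v 33554432 (.pos 14 .mp ⟨0, 0, 0, 0, 0, 122184484279, 0, 0, 0, ⟨0, 0⟩, 0⟩ 0 0) (.void 37 ⟨100000, 0, 0, 0, 0, 0, 0, 0, 0, ⟨0, 0⟩, 0⟩ 0 0))) (.void 50 ⟨87643, 0, 0, 12357, 0, 0, 0, 0, 0, ⟨0, 0⟩, 0⟩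 0 0)) (.void 75 ⟨87639, 0, 0, 12361, 0, 0, 0, 0, 0, ⟨0, 0⟩, 0⟩ 0 0)) (.void 98 ⟨87639, 0, 0, 12361, 0, 0, 0, 0, 0, ⟨0, 0⟩, 0⟩ 0 0))) (.cut .v 16777216 (.cut .v 8388608 (.cut .v 4194304 (.cut .v 2097152 (.cut .v 1048576 (.cut .v 524288 (.pos 92 .pm ⟨0, 0, 218755451, 0, 0, 0, 0, 0, 0, ⟨0, 0⟩, 0⟩ 0 0) (.pos 93 .pm ⟨0, 0, 507903330, 0, 0, 0, 0, 0, 0, ⟨0, 0⟩, 0⟩ 0 0)) (.pos 89 .pm ⟨0, 0, 945550421, 0, 0, 0, 0, 0, 0, ⟨0, 0⟩, 0⟩ 0 0)) (.pos 79 .pm ⟨0, 0, 1777999845, 0, 0, 0, 0, 0, 0, ⟨0, 0⟩, 0⟩ 0 0)) (.pos 5 .pm ⟨0, 0, 3320763653, 0, 0, 0, 0, 0, 0, ⟨0, 0⟩, 0⟩ 0 0)) (.pos 3 .pm ⟨0, 0, 4051217828, 0, 0, 0, 0, 0, 0, ⟨0, 0⟩, 0⟩ 0 0)) (.cut .v 4294967296 (.cut .v 268435456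 (.cut .v 67108864 (.cut .v 33554432 (.pos 14 .pp ⟨0, 0, 0, 0, 0, 0, 0, 0, 0, ⟨0, 0⟩, 0⟩ 0 0) (.pos 37 .pp ⟨32114985185, 36253890798, 0, 0, 0, 0, 0, 0, 0, ⟨0, 0⟩, 0⟩ 0 0)) (.void 50 ⟨0, 0, 0, 100000, 0, 0, 0, 0, 0, ⟨0, 0⟩, 0⟩ 0 0)) (.void 75 ⟨0, 0, 0, 100000, 0, 0, 0, 0, 0, ⟨0, 0⟩, 0⟩ 0 0)) (.void 98 ⟨0, 0, 0, 100000, 0, 0, 0, 0, 0, ⟨0, 0⟩, 0⟩ 0 0)))),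
    by decide +kernel⟩

def covers35 : cell.Covers table row35.1 :=
  ⟨(.cut .d 0 (.cut .v 16777216 (.cut .v 8388608 (.void 2 ⟨0, 0, 100000, 0, 0, 0, 0, 0, 0, ⟨0, 0⟩, 0⟩ 0 0) (.cut .d (-8388608) (.void 3 ⟨100000, 0, 0, 0, 0, 0, 0, 0, 0, ⟨0, 0⟩, 0⟩ 0 0) (.pos 3 .mm ⟨0, 0, 7977052222, 0, 0, 75057744031, 0, 0, 0, ⟨0, 0⟩, 0⟩ 0 0))) (.cut .v 4294967296 (.cut .v 268435456 (.cut .v 67108864 (.cut .d (-8388608) (.void 36 ⟨100000, 0, 0, 0, 0, 0, 0, 0, 0, ⟨0, 0⟩, 0⟩ 0 0) (.cut .v 33554432 (.pos 14 .mp ⟨0, 0, 0, 0, 0, 167765369156, 0, 0, 0, ⟨0, 0⟩, 0⟩ 0 0) (.void 37 ⟨100000, 0, 0, 0, 0, 0, 0, 0, 0, ⟨0, 0⟩, 0⟩ 0 0))) (.void 50 ⟨87611, 0, 0, 12389, 0, 0, 0, 0, 0, ⟨0, 0⟩, 0⟩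 0 0)) (.void 75 ⟨87607, 0, 0, 12393, 0, 0, 0, 0, 0, ⟨0, 0⟩, 0⟩ 0 0)) (.void 98 ⟨87607, 0, 0, 12393, 0, 0, 0, 0, 0, ⟨0, 0⟩, 0⟩ 0 0))) (.cut .v 16777216 (.cut .v 8388608 (.cut .v 4194304 (.cut .v 2097152 (.cut .v 1048576 (.cut .v 524288 (.cut .v 262144 (.pos 99 .pm ⟨0, 0, 181340446, 0, 0, 0, 0, 0, 0, ⟨0, 0⟩, 0⟩ 0 0) (.pos 100 .pm ⟨0, 0, 399886104, 0, 0, 0, 0, 0, 0, ⟨0, 0⟩, 0⟩ 0 0)) (.pos 93 .pm ⟨0, 0, 729102958, 0, 0, 0, 0, 0, 0, ⟨0, 0⟩, 0⟩ 0 0)) (.pos 89 .pm ⟨0, 0, 1360543115, 0, 0, 0, 0, 0, 0, ⟨0, 0⟩, 0⟩ 0 0)) (.pos 79 .pm ⟨0, 0, 2540003185, 0, 0, 0, 0, 0, 0, ⟨0, 0⟩, 0⟩ 0 0)) (.pos 5 .pm ⟨0, 0, 4662889134, 0, 0, 0, 0, 0, 0, ⟨0, 0⟩, 0⟩ 0 0)) (.pos 3 .pm ⟨0, 0,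 5596346124, 0, 0, 0, 0, 0, 0, ⟨0, 0⟩, 0⟩ 0 0)) (.cut .v 4294967296 (.cut .v 268435456 (.cut .v 67108864 (.cut .v 33554432 (.pos 14 .pp ⟨0, 0, 0, 0, 0, 0, 0, 0, 0, ⟨0, 0⟩, 0⟩ 0 0) (.pos 37 .pp ⟨43990221801, 50524912203, 0, 0, 0, 0, 0, 0, 0, ⟨0, 0⟩, 0⟩ 0 0)) (.void 50 ⟨0, 0, 0, 100000, 0, 0, 0, 0, 0, ⟨0, 0⟩, 0⟩ 0 0)) (.void 75 ⟨0, 0, 0, 100000, 0, 0, 0, 0, 0, ⟨0, 0⟩, 0⟩ 0 0)) (.void 98 ⟨0, 0, 0, 100000, 0, 0, 0, 0, 0, ⟨0, 0⟩, 0⟩ 0 0)))),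
    by decide +kernel⟩

def covers36 : cell.Covers table row36.1 :=
  ⟨(.cut .d 0 (.cut .v 16777216 (.cut .d (-8388608) (.void 1 ⟨0, 0, 0, 0, 0, 100000, 0, 0, 0, ⟨0, 0⟩, 0⟩ 0 0) (.cut .v 8388608 (.void 2 ⟨0, 0, 100000, 0, 0, 0, 0, 0, 0, ⟨0, 0⟩, 0⟩ 0 0) (.pos 3 .mm ⟨0, 0, 11364718645, 0, 0, 97356684350, 0, 0, 0, ⟨0, 0⟩, 0⟩ 0 0))) (.cut .v 4294967296 (.cut .v 268435456 (.cut .v 67108864 (.cut .d (-8388608) (.void 36 ⟨100000, 0, 0, 0, 0, 0, 0, 0, 0, ⟨0, 0⟩, 0⟩ 0 0) (.cut .v 33554432 (.cut .d (-4194304) (.void 14 ⟨100000, 0, 0, 0, 0, 0, 0, 0, 0, ⟨0, 0⟩, 0⟩ 0 0) (.pos 14 .mp ⟨0, 0, 0, 0, 0, 147616944749, 0, 0, 0, ⟨0, 0⟩, 0⟩ 0 0)) (.void 37 ⟨100000, 0, 0, 0, 0, 0, 0,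 0, 0, ⟨0, 0⟩, 0⟩ 0 0))) (.void 50 ⟨87588, 0, 0, 12412, 0, 0, 0, 0, 0, ⟨0, 0⟩, 0⟩ 0 0)) (.void 75 ⟨87586, 0, 0, 12414, 0, 0, 0, 0, 0, ⟨0, 0⟩, 0⟩ 0 0)) (.void 98 ⟨87586, 0, 0, 12414, 0, 0, 0, 0, 0, ⟨0, 0⟩, 0⟩ 0 0))) (.cut .v 16777216 (.cut .v 8388608 (.cut .v 4194304 (.cut .v 2097152 (.cut .v 1048576 (.cut .v 524288 (.cut .v 262144 (.pos 99 .pm ⟨0, 0, 250405379, 0, 0, 0, 0, 0, 0, ⟨0, 0⟩, 0⟩ 0 0) (.pos 100 .pm ⟨0, 0, 560080617, 0, 0, 0, 0, 0, 0, ⟨0, 0⟩, 0⟩ 0 0)) (.pos 93 .pm ⟨0, 0, 1029196963, 0, 0, 0, 0, 0, 0, ⟨0, 0⟩, 0⟩ 0 0)) (.pos 89 .pm ⟨0, 0, 1953321921, 0, 0, 0, 0, 0, 0, ⟨0, 0⟩, 0⟩ 0 0)) (.pos 79 .pm ⟨0, 0, 3697951104, 0, 0, 0, 0, 0, 0, ⟨0, 0⟩, 0⟩ 0 0)) (.pos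 5 .pm ⟨0, 0, 6886581995, 0, 0, 0, 0, 0, 0, ⟨0, 0⟩, 0⟩ 0 0)) (.pos 3 .pm ⟨0, 0, 8401455015, 0, 0, 0, 0, 0, 0, ⟨0, 0⟩, 0⟩ 0 0)) (.cut .v 4294967296 (.cut .v 268435456 (.cut .v 67108864 (.cut .v 33554432 (.pos 14 .pp ⟨0, 0, 0, 0, 0, 0, 0, 0, 0, ⟨0, 0⟩, 0⟩ 0 0) (.pos 37 .pp ⟨61101374981, 67821918455, 0, 0, 0, 0, 0, 0, 0, ⟨0, 0⟩, 0⟩ 0 0)) (.void 50 ⟨0, 0, 0, 100000, 0, 0, 0, 0, 0, ⟨0, 0⟩, 0⟩ 0 0)) (.void 75 ⟨0, 0, 0, 100000, 0, 0, 0, 0, 0, ⟨0, 0⟩, 0⟩ 0 0)) (.void 98 ⟨0, 0, 0, 100000, 0, 0, 0, 0, 0, ⟨0, 0⟩, 0⟩ 0 0)))),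
    by decide +kernel⟩

def covers37 : cell.Covers table row37.1 :=
  ⟨(.cut .d 0 (.cut .v 16777216 (.cut .d (-8388608) (.void 1 ⟨0, 0, 0, 0, 0, 100020, 0, 0, 0, ⟨0, 0⟩, 0⟩ 0 0) (.cut .v 8388608 (.void 2 ⟨0, 0, 100000, 0, 0, 0, 0, 0, 0, ⟨0, 0⟩, 0⟩ 0 0) (.pos 3 .mm ⟨0, 0, 14288198625, 0, 0, 113354743548, 0, 0, 0, ⟨0, 0⟩, 0⟩ 0 0))) (.cut .v 4294967296 (.cut .v 268435456 (.cut .v 67108864 (.cut .d (-8388608) (.void 36 ⟨100000, 0, 0, 0, 0, 0, 0, 0, 0, ⟨0, 0⟩, 0⟩ 0 0) (.cut .v 33554432 (.cut .d (-4194304) (.void 14 ⟨100000, 0, 0, 0, 0, 0, 0, 0, 0, ⟨0, 0⟩, 0⟩ 0 0) (.pos 14 .mp ⟨8839459758, 0, 0, 0, 0, 158932700242, 0, 0, 0, ⟨0, 0⟩, 0⟩ 0 0)) (.void 37 ⟨100000, 0, 0,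 0, 0, 0, 0, 0, 0, ⟨0, 0⟩, 0⟩ 0 0))) (.void 50 ⟨87576, 0, 0, 12424, 0, 0, 0, 0, 0, ⟨0, 0⟩, 0⟩ 0 0)) (.void 75 ⟨87575, 0, 0, 12425, 0, 0, 0, 0, 0, ⟨0, 0⟩, 0⟩ 0 0)) (.void 98 ⟨87575, 0, 0, 12425, 0, 0, 0, 0, 0, ⟨0, 0⟩, 0⟩ 0 0))) (.cut .v 16777216 (.cut .v 8388608 (.cut .v 4194304 (.cut .v 2097152 (.cut .v 1048576 (.cut .v 524288 (.cut .v 262144 (.cut .v 131072 (.pos 101 .pm ⟨0, 0, 179816042, 0, 0, 0, 0, 0, 0, ⟨0, 0⟩, 0⟩ 0 0) (.pos 102 .pm ⟨0, 0, 403491960, 0, 0, 0, 0, 0, 0, ⟨0, 0⟩, 0⟩ 0 0)) (.pos 100 .pm ⟨0, 0, 701665509, 0, 0, 0, 0, 0, 0, ⟨0, 0⟩, 0⟩ 0 0)) (.pos 93 .pm ⟨0, 0, 1302094963, 0, 0, 0, 0, 0, 0, ⟨0, 0⟩, 0⟩ 0 0)) (.pos 89 .pm ⟨0, 0, 2520858063, 0, 0, 0,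 0, 0, 0, ⟨0, 0⟩, 0⟩ 0 0)) (.pos 79 .pm ⟨0, 0, 4879943099, 0, 0, 0, 0, 0, 0, ⟨0, 0⟩, 0⟩ 0 0)) (.pos 5 .pm ⟨0, 0, 9361573984, 0, 0, 0, 0, 0, 0, ⟨0, 0⟩, 0⟩ 0 0)) (.pos 3 .pm ⟨0, 0, 11851737123, 0, 0, 0, 0, 0, 0, ⟨0, 0⟩, 0⟩ 0 0)) (.cut .v 4294967296 (.cut .v 268435456 (.cut .v 67108864 (.cut .v 33554432 (.pos 14 .pp ⟨0, 0, 0, 0, 0, 0, 0, 0, 0, ⟨0, 0⟩, 0⟩ 0 0) (.pos 37 .pp ⟨77966342423, 81112454705, 0, 0, 0, 0, 0, 0, 0, ⟨0, 0⟩, 0⟩ 0 0)) (.void 50 ⟨0, 0, 0, 100000, 0, 0, 0, 0, 0, ⟨0, 0⟩, 0⟩ 0 0)) (.void 75 ⟨0, 0, 0, 100000, 0, 0, 0, 0, 0, ⟨0, 0⟩, 0⟩ 0 0)) (.void 98 ⟨0, 0, 0, 100000, 0, 0, 0, 0, 0, ⟨0, 0⟩, 0⟩ 0 0)))),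
    by decide +kernel⟩

def covers38 : cell.Covers table row38.1 :=
  ⟨(.cut .d 0 (.cut .v 16777216 (.cut .d (-8388608) (.void 1 ⟨0, 0, 0, 0, 0, 100009, 0, 0, 0, ⟨0, 0⟩, 0⟩ 0 0) (.cut .d (-4194304) (.void 1 ⟨0, 0, 0, 0, 0, 100000, 0, 0, 0, ⟨0, 0⟩, 0⟩ 0 0) (.cut .v 8388608 (.void 2 ⟨0, 0, 100000, 0, 0, 0, 0, 0, 0, ⟨0, 0⟩, 0⟩ 0 0) (.pos 3 .mm ⟨0, 0, 15938431484, 0, 0, 116591325369, 0, 0, 0, ⟨0, 0⟩, 0⟩ 0 0)))) (.cut .v 4294967296 (.cut .v 268435456 (.cut .v 67108864 (.cut .d (-8388608) (.void 36 ⟨100000, 0, 0, 0, 0, 0, 0, 0, 0, ⟨0, 0⟩, 0⟩ 0 0) (.cut .d (-4194304) (.void 36 ⟨100000, 0, 0, 0, 0, 0, 0, 0, 0, ⟨0, 0⟩, 0⟩ 0 0) (.cut .v 33554432 (.pos 14 .mp ⟨131598105804,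 0, 0, 0, 0, 36174054196, 0, 0, 0, ⟨0, 0⟩, 0⟩ 0 0) (.void 37 ⟨100000, 0, 0, 0, 0, 0, 0, 0, 0, ⟨0, 0⟩, 0⟩ 0 0)))) (.void 50 ⟨87556, 0, 0, 12444, 0, 0, 0, 0, 0, ⟨0, 0⟩, 0⟩ 0 0)) (.void 75 ⟨87553, 0, 0, 12447, 0, 0, 0, 0, 0, ⟨0, 0⟩, 0⟩ 0 0)) (.void 98 ⟨87553, 0, 0, 12447, 0, 0, 0, 0, 0, ⟨0, 0⟩, 0⟩ 0 0))) (.cut .v 16777216 (.cut .v 8388608 (.cut .v 4194304 (.cut .v 2097152 (.cut .v 1048576 (.cut .v 524288 (.cut .v 262144 (.cut .v 131072 (.cut .v 65536 (.pos 103 .pm ⟨0, 0, 145908333, 0, 0, 0, 0, 0, 0, ⟨0, 0⟩, 0⟩ 0 0) (.pos 104 .pm ⟨0, 0, 351054570, 0, 0, 0, 0, 0, 0, ⟨0, 0⟩, 0⟩ 0 0)) (.pos 102 .pm ⟨0, 0, 593395876, 0, 0, 0, 0, 0, 0, ⟨0, 0⟩, 0⟩ 0 0)) (.pos 100 .pm ⟨0,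 0, 1032492302, 0, 0, 0, 0, 0, 0, ⟨0, 0⟩, 0⟩ 0 0)) (.pos 93 .pm ⟨0, 0, 1926611974, 0, 0, 0, 0, 0, 0, ⟨0, 0⟩, 0⟩ 0 0)) (.pos 89 .pm ⟨0, 0, 3643693077, 0, 0, 0, 0, 0, 0, ⟨0, 0⟩, 0⟩ 0 0)) (.pos 79 .pm ⟨0, 0, 6745493771, 0, 0, 0, 0, 0, 0, ⟨0, 0⟩, 0⟩ 0 0)) (.pos 5 .pm ⟨0, 0, 12094948906, 0, 0, 0, 0, 0, 0, ⟨0, 0⟩, 0⟩ 0 0)) (.pos 3 .pm ⟨0, 0, 14552777669, 0, 0, 0, 0, 0, 0, ⟨0, 0⟩, 0⟩ 0 0)) (.cut .v 4294967296 (.cut .v 268435456 (.cut .v 67108864 (.cut .v 33554432 (.pos 14 .pp ⟨0, 0, 0, 0, 0, 0, 0, 0, 0, ⟨0, 0⟩, 0⟩ 0 0) (.pos 37 .pp ⟨107203551227, 49947332912, 0, 10621275861, 0, 0, 0, 0, 0, ⟨0, 0⟩, 0⟩ 0 0)) (.void 50 ⟨0, 0, 0, 100000, 0, 0, 0, 0, 0, ⟨0, 0⟩, 0⟩ 0 0)) (.void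 75 ⟨0, 0, 0, 100000, 0, 0, 0, 0, 0, ⟨0, 0⟩, 0⟩ 0 0)) (.void 98 ⟨0, 0, 0, 100000, 0, 0, 0, 0, 0, ⟨0, 0⟩, 0⟩ 0 0)))),
    by decide +kernel⟩

def covers39 : cell.Covers table row39.1 :=
  ⟨(.cut .d 0 (.cut .v 16777216 (.cut .d (-8388608) (.void 1 ⟨0, 0, 0, 0, 0, 100000, 0, 0, 0, ⟨0, 0⟩, 0⟩ 0 0) (.cut .v 8388608 (.void 2 ⟨0, 0, 99945, 0, 0, 0, 0, 0, 0, ⟨0, 0⟩, 0⟩ 0 0) (.cut .d (-4194304) (.void 3 ⟨100000, 0, 0, 0, 0, 0, 0, 0, 0, ⟨0, 0⟩, 0⟩ 0 0) (.pos 3 .mm ⟨10867963305, 0, 32557825202, 0, 0, 124346371493, 0, 0, 0, ⟨0, 0⟩, 0⟩ 0 0)))) (.cut .v 4294967296 (.cut .v 268435456 (.cut .v 67108864 (.cut .d (-8388608) (.void 36 ⟨100000, 0, 0, 0, 0, 0, 0, 0, 0, ⟨0, 0⟩, 0⟩ 0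 0) (.cut .d (-4194304) (.void 36 ⟨100000, 0, 0, 0, 0, 0, 0, 0, 0, ⟨0, 0⟩, 0⟩ 0 0) (.cut .v 33554432 (.cut .d (-2097152) (.void 14 ⟨100000, 0, 0, 0, 0, 0, 0, 0, 0, ⟨0, 0⟩, 0⟩ 0 0) (.pos 14 .mp ⟨125234136281, 0, 0, 0, 0, 42538023719, 0, 0, 0, ⟨0, 0⟩, 0⟩ 0 0)) (.void 37 ⟨100000, 0, 0, 0, 0, 0, 0, 0, 0, ⟨0, 0⟩, 0⟩ 0 0)))) (.void 50 ⟨87544, 0, 0, 12456, 0, 0, 0, 0, 0, ⟨0, 0⟩, 0⟩ 0 0)) (.void 75 ⟨87543, 0, 0, 12457, 0, 0, 0, 0, 0, ⟨0, 0⟩, 0⟩ 0 0)) (.void 98 ⟨87543, 0, 0, 12457, 0, 0, 0, 0, 0, ⟨0, 0⟩, 0⟩ 0 0))) (.cut .v 16777216 (.cut .v 8388608 (.cut .v 4194304 (.cut .v 2097152 (.cut .v 1048576 (.cut .v 524288 (.cut .v 262144 (.cut .v 131072 (.cut .v 65536 (.pos 103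 .pm ⟨0, 0, 210803267, 0, 0, 0, 0, 0, 0, ⟨0, 0⟩, 0⟩ 0 0) (.pos 104 .pm ⟨0, 0, 498940941, 0, 0, 0, 0, 0, 0, ⟨0, 0⟩, 0⟩ 0 0)) (.pos 102 .pm ⟨0, 0, 862686554, 0, 0, 0, 0, 0, 0, ⟨0, 0⟩, 0⟩ 0 0)) (.pos 100 .pm ⟨0, 0, 1522786885, 0, 0, 0, 0, 0, 0, ⟨0, 0⟩, 0⟩ 0 0)) (.pos 93 .pm ⟨0, 0, 2835564223, 0, 0, 0, 0, 0, 0, ⟨0, 0⟩, 0⟩ 0 0)) (.pos 89 .pm ⟨0, 0, 5454606790, 0, 0, 0, 0, 0, 0, ⟨0, 0⟩, 0⟩ 0 0)) (.pos 79 .pm ⟨0, 0, 10388210040, 0, 0, 0, 0, 0, 0, ⟨0, 0⟩, 0⟩ 0 0)) (.pos 5 .pm ⟨0, 0, 19363468051, 0, 0, 0, 0, 0, 0, ⟨0, 0⟩, 0⟩ 0 0)) (.pos 3 .pm ⟨0, 0, 24374448281, 0, 0, 0, 0, 0, 0, ⟨0, 0⟩, 0⟩ 0 0)) (.cut .v 4294967296 (.cut .v 268435456 (.cut .v 67108864 (.cut .v 33554432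 (.pos 14 .pp ⟨0, 0, 0, 0, 0, 0, 0, 0, 0, ⟨0, 0⟩, 0⟩ 0 0) (.pos 37 .pp ⟨142618222804, 0, 0, 25153937196, 0, 0, 0, 0, 0, ⟨0, 0⟩, 0⟩ 0 0)) (.void 50 ⟨0, 0, 0, 100000, 0, 0, 0, 0, 0, ⟨0, 0⟩, 0⟩ 0 0)) (.void 75 ⟨0, 0, 0, 100000, 0, 0, 0, 0, 0, ⟨0, 0⟩, 0⟩ 0 0)) (.void 98 ⟨0, 0, 0, 100000, 0, 0, 0, 0, 0, ⟨0, 0⟩, 0⟩ 0 0)))),
    by decide +kernel⟩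

def covers40 : cell.Covers table row40.1 :=
  ⟨(.cut .d 0 (.cut .v 16777216 (.cut .d (-8388608) (.void 1 ⟨0, 0, 0, 0, 0, 100013, 0, 0, 0, ⟨0, 0⟩, 0⟩ 0 0) (.cut .v 8388608 (.void 2 ⟨0, 0, 96813, 0, 0, 0, 0, 0, 0, ⟨0, 0⟩, 0⟩ 0 0) (.cut .d (-4194304) (.void 3 ⟨100000, 0, 0, 0, 0, 0, 0, 0, 0, ⟨0, 0⟩, 0⟩ 0 0) (.cut .v 12582912 (.pos 6 .mm ⟨30859999164, 0, 65183245075, 0, 0, 71728915761, 0, 0, 0, ⟨0, 0⟩, 0⟩ 0 0) (.pos 7 .mm ⟨115774695606, 0, 0, 0, 0, 51997464394, 0, 0, 0, ⟨0, 0⟩, 0⟩ 0 0))))) (.cut .v 4294967296 (.cut .v 268435456 (.cut .v 67108864 (.cut .d (-8388608) (.void 36 ⟨100000, 0, 0, 0, 0, 0, 0, 0, 0, ⟨0, 0⟩, 0⟩ 0 0) (.cut .d (-4194304) (.void 36 ⟨100000, 0,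 0, 0, 0, 0, 0, 0, 0, ⟨0, 0⟩, 0⟩ 0 0) (.cut .v 33554432 (.cut .d (-2097152) (.void 14 ⟨100000, 0, 0, 0, 0, 0, 0, 0, 0, ⟨0, 0⟩, 0⟩ 0 0) (.cut .v 25165824 (.pos 15 .mp ⟨158301428370, 0, 0, 0, 0, 9470731630, 0, 0, 0, ⟨0, 0⟩, 0⟩ 0 0) (.void 16 ⟨100000, 0, 0, 0, 0, 0, 0, 0, 0, ⟨0, 0⟩, 0⟩ 0 0))) (.void 37 ⟨100000, 0, 0, 0, 0, 0, 0, 0, 0, ⟨0, 0⟩, 0⟩ 0 0)))) (.void 50 ⟨87533, 0, 0, 12467, 0, 0, 0, 0, 0, ⟨0, 0⟩, 0⟩ 0 0)) (.void 75 ⟨87532, 0, 0, 12468, 0, 0, 0, 0, 0, ⟨0, 0⟩, 0⟩ 0 0)) (.void 98 ⟨87532, 0, 0, 12468, 0, 0, 0, 0, 0, ⟨0, 0⟩, 0⟩ 0 0))) (.cut .v 16777216 (.cut .v 8388608 (.cut .v 4194304 (.cut .v 2097152 (.cut .v 1048576 (.cut .v 524288 (.cut .v 262144 (.cut .v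 131072 (.cut .v 65536 (.cut .v 32768 (.pos 105 .pm ⟨0, 0, 168930052, 0, 0, 0, 0, 0, 0, ⟨0, 0⟩, 0⟩ 0 0) (.pos 106 .pm ⟨0, 0, 416050112, 0, 0, 0, 0, 0, 0, ⟨0, 0⟩, 0⟩ 0 0)) (.pos 104 .pm ⟨0, 0, 726352992, 0, 0, 0, 0, 0, 0, ⟨0, 0⟩, 0⟩ 0 0)) (.pos 102 .pm ⟨0, 0, 1265519337, 0, 0, 0, 0, 0, 0, ⟨0, 0⟩, 0⟩ 0 0)) (.pos 100 .pm ⟨0, 0, 2235452668, 0, 0, 0, 0, 0, 0, ⟨0, 0⟩, 0⟩ 0 0)) (.pos 93 .pm ⟨0, 0, 4187574159, 0, 0, 0, 0, 0, 0, ⟨0, 0⟩, 0⟩ 0 0)) (.pos 89 .pm ⟨0, 0, 7990346652, 0, 0, 0, 0, 0, 0, ⟨0, 0⟩, 0⟩ 0 0)) (.pos 79 .pm ⟨0, 0, 15008954526, 0, 0, 0, 0, 0, 0, ⟨0, 0⟩, 0⟩ 0 0)) (.pos 5 .pm ⟨0, 0, 27377099009, 0, 0, 0, 0, 0, 0, ⟨0, 0⟩, 0⟩ 0 0)) (.pos 3 .pm ⟨0, 0, 34274992453,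 0, 0, 0, 0, 0, 0, ⟨0, 0⟩, 0⟩ 0 0)) (.cut .v 4294967296 (.cut .v 268435456 (.cut .v 67108864 (.cut .v 33554432 (.pos 14 .pp ⟨0, 0, 0, 0, 0, 0, 0, 0, 0, ⟨0, 0⟩, 0⟩ 0 0) (.pos 37 .pp ⟨127862754241, 0, 0, 39909405759, 0, 0, 0, 0, 0, ⟨0, 0⟩, 0⟩ 0 0)) (.void 50 ⟨0, 0, 0, 100000, 0, 0, 0, 0, 0, ⟨0, 0⟩, 0⟩ 0 0)) (.void 75 ⟨0, 0, 0, 100000, 0, 0, 0, 0, 0, ⟨0, 0⟩, 0⟩ 0 0)) (.void 98 ⟨0, 0, 0, 100000, 0, 0, 0, 0, 0, ⟨0, 0⟩, 0⟩ 0 0)))),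
    by decide +kernel⟩

def covers41 : cell.Covers table row41.1 :=
  ⟨(.cut .d 0 (.cut .v 16777216 (.cut .d (-8388608) (.cut .s 16736256 (.void 1 ⟨0, 0, 88460, 12203, 0, 0, 0, 1180, 0, ⟨(-1), 13663062⟩, 0⟩ 0 128) (.void 1 ⟨0, 0, 381, 0, 0, 99624, 0, 0, 0, ⟨0, 0⟩, 0⟩ 0 0)) (.cut .d (-4194304) (.void 1 ⟨0, 0, 0, 0, 0, 100000, 0, 0, 0, ⟨0, 0⟩, 0⟩ 0 0) (.cut .d (-2097152) (.void 1 ⟨0, 0, 0, 0, 0, 214852, 0, 0, 0, ⟨0, 0⟩, 0⟩ 0 0) (.cut .d (-1048576) (.void 1 ⟨0, 0, 10, 0, 0, 100109, 0, 0, 0, ⟨0, 0⟩, 0⟩ 0 0) (.cut .v 8388608 (.pos 2 .mm ⟨0, 0, 167772160000, 0, 0, 0, 0, 0, 0, ⟨0, 0⟩, 0⟩ 0 0) (.cut .v 12582912 (.pos 6 .mm ⟨73416639891, 0, 94355520109, 0, 0, 0, 0, 0,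 0, ⟨0, 0⟩, 0⟩ 0 0) (.pos 7 .mm ⟨156835787579, 0, 0, 0, 0, 10936372421, 0, 0, 0, ⟨0, 0⟩, 0⟩ 0 0))))))) (.cut .v 4294967296 (.cut .v 268435456 (.cut .v 67108864 (.cut .d (-8388608) (.void 36 ⟨100000, 0, 0, 0, 0, 0, 0, 0, 0, ⟨0, 0⟩, 0⟩ 0 0) (.cut .d (-4194304) (.void 36 ⟨100000, 0, 0, 0, 0, 0, 0, 0, 0, ⟨0, 0⟩, 0⟩ 0 0) (.cut .d (-2097152) (.void 36 ⟨100000, 0, 0, 0, 0, 0, 0, 0, 0, ⟨0, 0⟩, 0⟩ 0 0) (.cut .v 33554432 (.cut .d (-1048576) (.void 14 ⟨100000, 0, 0, 0, 0, 0, 0, 0, 0, ⟨0, 0⟩, 0⟩ 0 0) (.cut .d (-524288) (.void 14 ⟨100000, 0, 0, 0, 0, 0, 0, 0, 0, ⟨0, 0⟩, 0⟩ 0 0) (.cut .v 25165824 (.cut .v 20971520 (.cut .d (-262144) (.void 17 ⟨100000, 0, 0, 0, 0, 0, 0, 0, 0,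 ⟨0, 0⟩, 0⟩ 0 0) (.cut .d (-131072) (.void 17 ⟨100000, 0, 0, 0, 0, 0, 0, 0, 0, ⟨0, 0⟩, 0⟩ 0 0) (.pos 17 .mp ⟨167047991510, 0, 0, 0, 0, 724168490, 0, 0, 0, ⟨0, 0⟩, 0⟩ 0 0))) (.void 18 ⟨100000, 0, 0, 0, 0, 0, 0, 0, 0, ⟨0, 0⟩, 0⟩ 0 0)) (.void 16 ⟨100000, 0, 0, 0, 0, 0, 0, 0, 0, ⟨0, 0⟩, 0⟩ 0 0)))) (.void 37 ⟨100000, 0, 0, 0, 0, 0, 0, 0, 0, ⟨0, 0⟩, 0⟩ 0 0))))) (.void 50 ⟨87523, 0, 0, 12477, 0, 0, 0, 0, 0, ⟨0, 0⟩, 0⟩ 0 0)) (.void 75 ⟨87521, 0, 0, 12479, 0, 0, 0, 0, 0, ⟨0, 0⟩, 0⟩ 0 0)) (.void 98 ⟨87521, 0, 0, 12479, 0, 0, 0, 0, 0, ⟨0, 0⟩, 0⟩ 0 0))) (.cut .v 16777216 (.cut .v 8388608 (.cut .v 4194304 (.cut .v 2097152 (.cut .v 1048576 (.cut .v 524288 (.cut .v 262144 (.cut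 .v 131072 (.cut .v 65536 (.cut .v 32768 (.cut .v 16384 (.cut .d 24649 (.void 107 ⟨0, 0, 100000, 0, 0, 0, 0, 0, 0, ⟨0, 0⟩, 0⟩ 0 0) (.pos 107 .pm ⟨0, 0, 95033732, 0, 0, 0, 0, 0, 0, ⟨0, 0⟩, 0⟩ 0 0)) (.pos 108 .pm ⟨0, 0, 390349810, 0, 0, 0, 0, 0, 0, ⟨0, 0⟩, 0⟩ 0 0)) (.pos 106 .pm ⟨0, 0, 685761354, 0, 0, 0, 0, 0, 0, ⟨0, 0⟩, 0⟩ 0 0)) (.pos 104 .pm ⟨0, 0, 1211244563, 0, 0, 0, 0, 0, 0, ⟨0, 0⟩, 0⟩ 0 0)) (.pos 102 .pm ⟨0, 0, 2117120299, 0, 0, 0, 0, 0, 0, ⟨0, 0⟩, 0⟩ 0 0)) (.pos 100 .pm ⟨0, 0, 3722181046, 0, 0, 0, 0, 0, 0, ⟨0, 0⟩, 0⟩ 0 0)) (.pos 93 .pm ⟨0, 0, 6979030392, 0, 0, 0, 0, 0, 0, ⟨0, 0⟩, 0⟩ 0 0)) (.pos 89 .pm ⟨0, 0, 13364895838, 0, 0, 0, 0, 0, 0, ⟨0, 0⟩, 0⟩ 0 0))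 (.pos 79 .pm ⟨0, 0, 24416607783, 0, 0, 0, 0, 0, 0, ⟨0, 0⟩, 0⟩ 0 0)) (.pos 5 .pm ⟨0, 0, 42726695446, 0, 0, 0, 0, 0, 0, ⟨0, 0⟩, 0⟩ 0 0)) (.pos 3 .pm ⟨0, 0, 53134172784, 0, 0, 0, 0, 0, 0, ⟨0, 0⟩, 0⟩ 0 0)) (.cut .v 4294967296 (.cut .v 268435456 (.cut .v 67108864 (.cut .v 33554432 (.pos 14 .pp ⟨0, 0, 0, 0, 0, 0, 0, 0, 0, ⟨0, 0⟩, 0⟩ 0 0) (.cut .v 50331648 (.pos 65 .pp ⟨167772160000, 0, 0, 0, 0, 0, 0, 0, 0, ⟨0, 0⟩, 0⟩ 0 0) (.void 66 ⟨77786, 0, 0, 22214, 0, 0, 0, 0, 0, ⟨0, 0⟩, 0⟩ 0 0))) (.void 50 ⟨0, 0, 0, 100000, 0, 0, 0, 0, 0, ⟨0, 0⟩, 0⟩ 0 0)) (.void 75 ⟨0, 0, 0, 100000, 0, 0, 0, 0, 0, ⟨0, 0⟩, 0⟩ 0 0)) (.void 98 ⟨0, 0, 0, 100000, 0, 0, 0, 0, 0, ⟨0, 0⟩, 0⟩ 0 0)))),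
    by decide +kernel⟩

def covers42 : cell.Covers table row42.1 :=
  ⟨(.cut .d 0 (.cut .v 16777216 (.cut .d (-8388608) (.void 1 ⟨0, 0, 0, 0, 0, 99999, 0, 0, 0, ⟨0, 0⟩, 0⟩ 0 0) (.cut .d (-4194304) (.void 1 ⟨0, 0, 12, 0, 0, 99988, 0, 0, 0, ⟨0, 0⟩, 0⟩ 0 0) (.cut .d (-2097152) (.void 1 ⟨0, 0, 0, 0, 0, 99992, 0, 0, 0, ⟨0, 0⟩, 0⟩ 0 0) (.cut .d (-1048576) (.void 1 ⟨0, 0, 0, 0, 0, 100000, 0, 0, 0, ⟨0, 0⟩, 0⟩ 0 0) (.cut .d (-524288) (.void 1 ⟨0, 0, 0, 519, 0, 99367, 0, 0, 0, ⟨0, 0⟩, 0⟩ 0 0) (.cut .v 8388608 (.void 2 ⟨0, 0, 100000, 0, 0, 0, 0, 0, 0, ⟨0, 0⟩, 0⟩ 0 0) (.cut .d (-262144) (.void 3 ⟨100000, 0, 0, 0, 0, 0, 0, 0, 0, ⟨0, 0⟩, 0⟩ 0 0) (.cut .d (-131072) (.void 3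 ⟨100000, 0, 0, 0, 0, 0, 0, 0, 0, ⟨0, 0⟩, 0⟩ 0 0) (.cut .d (-65536) (.void 3 ⟨100000, 0, 0, 0, 0, 0, 0, 0, 0, ⟨0, 0⟩, 0⟩ 0 0) (.cut .d (-32768) (.void 3 ⟨55231, 0, 44769, 0, 0, 0, 0, 0, 0, ⟨0, 0⟩, 0⟩ 0 0) (.cut .d (-16384) (.void 3 ⟨0, 0, 0, 0, 0, 100000, 0, 0, 0, ⟨0, 0⟩, 0⟩ 0 0) (.pos 3 .mm ⟨60263067041, 0, 0, 0, 0, 107509092959, 0, 0, 0, ⟨0, 0⟩, 0⟩ 0 0)))))))))))) (.cut .v 4294967296 (.cut .v 268435456 (.cut .v 67108864 (.cut .d (-8388608) (.void 36 ⟨100000, 0, 0, 0, 0, 0, 0, 0, 0, ⟨0, 0⟩, 0⟩ 0 0) (.cut .d (-4194304) (.void 36 ⟨100000, 0, 0, 0, 0, 0, 0, 0, 0, ⟨0, 0⟩, 0⟩ 0 0) (.cut .d (-2097152) (.void 36 ⟨100000, 0, 0, 0, 0, 0, 0, 0, 0, ⟨0, 0⟩, 0⟩ 0 0) (.cut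 .v 33554432 (.cut .d (-1048576) (.void 14 ⟨100000, 0, 0, 0, 0, 0, 0, 0, 0, ⟨0, 0⟩, 0⟩ 0 0) (.cut .d (-524288) (.void 14 ⟨100000, 0, 0, 0, 0, 0, 0, 0, 0, ⟨0, 0⟩, 0⟩ 0 0) (.cut .d (-262144) (.void 14 ⟨100000, 0, 0, 0, 0, 0, 0, 0, 0, ⟨0, 0⟩, 0⟩ 0 0) (.cut .d (-131072) (.void 14 ⟨100000, 0, 0, 0, 0, 0, 0, 0, 0, ⟨0, 0⟩, 0⟩ 0 0) (.cut .d (-65536) (.void 14 ⟨100000, 0, 0, 0, 0, 0, 0, 0, 0, ⟨0, 0⟩, 0⟩ 0 0) (.cut .d (-32768) (.void 14 ⟨100000, 0, 0, 0, 0, 0, 0, 0, 0, ⟨0, 0⟩, 0⟩ 0 0) (.cut .d (-16384) (.void 14 ⟨100000, 0, 0, 0, 0, 0, 0, 0, 0, ⟨0, 0⟩, 0⟩ 0 0) (.cut .d (-8192) (.void 14 ⟨100000, 0, 0, 0, 0, 0, 0, 0, 0, ⟨0, 0⟩, 0⟩ 0 0) (.pos 14 .mp ⟨167772160000, 0, 0, 0,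 0, 0, 0, 0, 0, ⟨0, 0⟩, 0⟩ 0 0))))))))) (.void 37 ⟨100000, 0, 0, 0, 0, 0, 0, 0, 0, ⟨0, 0⟩, 0⟩ 0 0))))) (.void 50 ⟨66802, 0, 0, 8327, 0, 0, 0, 0, 0, ⟨0, 0⟩, 0⟩ 0 0)) (.void 75 ⟨87513, 0, 0, 12487, 0, 0, 0, 0, 0, ⟨0, 0⟩, 0⟩ 0 0)) (.void 98 ⟨87513, 0, 0, 12487, 0, 0, 0, 0, 0, ⟨0, 0⟩, 0⟩ 0 0))) (.cut .v 16777216 (.cut .v 8388608 (.cut .v 4194304 (.cut .v 2097152 (.cut .v 1048576 (.cut .v 524288 (.cut .v 262144 (.cut .v 131072 (.cut .v 65536 (.cut .v 32768 (.cut .d 16417 (.void 105 ⟨0, 0, 100000, 0, 0, 0, 0, 0, 0, ⟨0, 0⟩, 0⟩ 0 0) (.cut .v 16384 (.cut .v 8192 (.pos 109 .pm ⟨0, 0, 88124048, 0, 0, 0, 0, 0, 0, ⟨0, 0⟩, 0⟩ 0 0) (.pos 110 .pm ⟨0, 0, 226985433, 0, 0, 0, 0,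 0, 0, ⟨0, 0⟩, 0⟩ 0 0)) (.pos 108 .pm ⟨0, 0, 374291670, 0, 0, 0, 0, 0, 0, ⟨0, 0⟩, 0⟩ 0 0))) (.pos 106 .pm ⟨0, 0, 1280899988, 0, 0, 0, 0, 0, 0, ⟨0, 0⟩, 0⟩ 0 0)) (.pos 104 .pm ⟨0, 0, 2284551809, 0, 0, 0, 0, 0, 0, ⟨0, 0⟩, 0⟩ 0 0)) (.pos 102 .pm ⟨0, 0, 4003259825, 0, 0, 0, 0, 0, 0, ⟨0, 0⟩, 0⟩ 0 0)) (.pos 100 .pm ⟨0, 0, 7007653858, 0, 0, 0, 0, 0, 0, ⟨0, 0⟩, 0⟩ 0 0)) (.pos 93 .pm ⟨0, 0, 13083761143, 0, 0, 0, 0, 0, 0, ⟨0, 0⟩, 0⟩ 0 0)) (.pos 89 .pm ⟨0, 0, 25222067199, 0, 0, 0, 0, 0, 0, ⟨0, 0⟩, 0⟩ 0 0)) (.pos 79 .pm ⟨0, 0, 45622078417, 0, 0, 0, 0, 0, 0, ⟨0, 0⟩, 0⟩ 0 0)) (.pos 5 .pm ⟨0, 0, 77914719427, 0, 0, 0, 0, 0, 0, ⟨0, 0⟩, 0⟩ 0 0)) (.pos 3 .pm ⟨0, 0, 98389610156, 0,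 0, 0, 0, 0, 0, ⟨0, 0⟩, 0⟩ 0 0)) (.cut .v 4294967296 (.cut .v 268435456 (.cut .v 67108864 (.cut .v 33554432 (.pos 14 .pp ⟨0, 0, 0, 0, 0, 0, 0, 0, 0, ⟨0, 0⟩, 0⟩ 0 0) (.cut .v 50331648 (.pos 65 .pp ⟨167772160000, 0, 0, 0, 0, 0, 0, 0, 0, ⟨0, 0⟩, 0⟩ 0 0) (.void 66 ⟨77782, 0, 0, 22218, 0, 0, 0, 0, 0, ⟨0, 0⟩, 0⟩ 0 0))) (.void 50 ⟨0, 0, 0, 100000, 0, 0, 0, 0, 0, ⟨0, 0⟩, 0⟩ 0 0)) (.void 75 ⟨0, 0, 0, 100000, 0, 0, 0, 0, 0, ⟨0, 0⟩, 0⟩ 0 0)) (.void 98 ⟨0, 0, 0, 100000, 0, 0, 0, 0, 0, ⟨0, 0⟩, 0⟩ 0 0)))),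
    by decide +kernel⟩

def covers43 : cell.Covers table row43.1 :=
  ⟨(.cut .d 0 (.cut .v 16777216 (.cut .d (-8388608) (.void 1 ⟨0, 0, 0, 0, 0, 100001, 0, 0, 0, ⟨0, 0⟩, 0⟩ 0 0) (.cut .d (-4194304) (.void 1 ⟨0, 0, 100000, 0, 0, 0, 0, 0, 0, ⟨0, 0⟩, 0⟩ 0 0) (.cut .d (-2097152) (.void 1 ⟨0, 0, 39, 0, 0, 100090, 0, 0, 0, ⟨0, 0⟩, 0⟩ 0 0) (.cut .d (-1048576) (.void 1 ⟨0, 0, 0, 0, 0, 100016, 0, 0, 0, ⟨0, 0⟩, 0⟩ 0 0) (.cut .d (-524288) (.void 1 ⟨0, 0, 0, 0, 0, 1000000000, 0, 0, 0, ⟨0, 0⟩, 0⟩ 0 0) (.cut .v 8388608 (.cut .v 4194304 (.cut .v 2097152 (.void 78 ⟨0, 0, 100000, 0, 0, 0, 0, 0, 0, ⟨0, 0⟩, 0⟩ 0 0) (.void 79 ⟨0, 0, 100000, 0, 0, 0, 0, 0, 0, ⟨0, 0⟩, 0⟩ 0 0)) (.void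 5 ⟨0, 0, 100000, 0, 0, 0, 0, 0, 0, ⟨0, 0⟩, 0⟩ 0 0)) (.cut .d (-262144) (.void 3 ⟨100000, 0, 0, 0, 0, 0, 0, 0, 0, ⟨0, 0⟩, 0⟩ 0 0) (.cut .d (-131072) (.void 3 ⟨100000, 0, 0, 0, 0, 0, 0, 0, 0, ⟨0, 0⟩, 0⟩ 0 0) (.cut .d (-65536) (.void 3 ⟨100000, 0, 0, 0, 0, 0, 0, 0, 0, ⟨0, 0⟩, 0⟩ 0 0) (.cut .d (-32768) (.void 3 ⟨100000, 0, 0, 0, 0, 0, 0, 0, 0, ⟨0, 0⟩, 0⟩ 0 0) (.cut .d (-16384) (.void 3 ⟨55220, 0, 44780, 0, 0, 0, 0, 0, 0, ⟨0, 0⟩, 0⟩ 0 0) (.cut .d (-8192) (.void 3 ⟨0, 0, 0, 0, 0, 100000, 0, 0, 0, ⟨0, 0⟩, 0⟩ 0 0) (.pos 3 .mm ⟨111341884221, 0, 56430275779, 0, 0, 0, 0, 0, 0, ⟨0, 0⟩, 0⟩ 0 0))))))))))))) (.cut .v 4294967296 (.cut .v 268435456 (.cut .d (-8388608) (.void 49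 ⟨100000, 0, 0, 0, 0, 0, 0, 0, 0, ⟨0, 0⟩, 0⟩ 0 0) (.cut .v 67108864 (.cut .d (-4194304) (.void 36 ⟨100000, 0, 0, 0, 0, 0, 0, 0, 0, ⟨0, 0⟩, 0⟩ 0 0) (.cut .d (-2097152) (.void 36 ⟨100000, 0, 0, 0, 0, 0, 0, 0, 0, ⟨0, 0⟩, 0⟩ 0 0) (.cut .d (-1048576) (.void 36 ⟨100000, 0, 0, 0, 0, 0, 0, 0, 0, ⟨0, 0⟩, 0⟩ 0 0) (.cut .v 33554432 (.cut .d (-524288) (.void 14 ⟨100000, 0, 0, 0, 0, 0, 0, 0, 0, ⟨0, 0⟩, 0⟩ 0 0) (.cut .d (-262144) (.void 14 ⟨100000, 0, 0, 0, 0, 0, 0, 0, 0, ⟨0, 0⟩, 0⟩ 0 0) (.cut .d (-131072) (.void 14 ⟨100000, 0, 0, 0, 0, 0, 0, 0, 0, ⟨0, 0⟩, 0⟩ 0 0) (.cut .d (-65536) (.void 14 ⟨100000, 0, 0, 0, 0, 0, 0, 0, 0, ⟨0, 0⟩, 0⟩ 0 0) (.cut .d (-32768) (.void 14 ⟨100000,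 0, 0, 0, 0, 0, 0, 0, 0, ⟨0, 0⟩, 0⟩ 0 0) (.cut .d (-16384) (.void 14 ⟨100000, 0, 0, 0, 0, 0, 0, 0, 0, ⟨0, 0⟩, 0⟩ 0 0) (.cut .d (-8192) (.void 14 ⟨100000, 0, 0, 0, 0, 0, 0, 0, 0, ⟨0, 0⟩, 0⟩ 0 0) (.cut .d (-4096) (.void 14 ⟨100000, 0, 0, 0, 0, 0, 0, 0, 0, ⟨0, 0⟩, 0⟩ 0 0) (.pos 14 .mp ⟨167772160000, 0, 0, 0, 0, 0, 0, 0, 0, ⟨0, 0⟩, 0⟩ 0 0))))))))) (.void 37 ⟨100000, 0, 0, 0, 0, 0, 0, 0, 0, ⟨0, 0⟩, 0⟩ 0 0))))) (.void 50 ⟨82364, 0, 0, 17636, 0, 0, 0, 0, 0, ⟨0, 0⟩, 0⟩ 0 0))) (.void 75 ⟨87508, 0, 0, 12492, 0, 0, 0, 0, 0, ⟨0, 0⟩, 0⟩ 0 0)) (.void 98 ⟨87508, 0, 0, 12492, 0, 0, 0, 0, 0, ⟨0, 0⟩, 0⟩ 0 0))) (.cut .v 16777216 (.cut .v 8388608 (.cut .v 4194304 (.cut .v 2097152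 (.cut .v 1048576 (.cut .v 524288 (.cut .v 262144 (.cut .v 131072 (.cut .v 65536 (.cut .v 32768 (.cut .d 10254 (.void 105 ⟨0, 0, 100000, 0, 0, 0, 0, 0, 0, ⟨0, 0⟩, 0⟩ 0 0) (.cut .v 16384 (.cut .v 8192 (.cut .v 4096 (.pos 111 .pm ⟨0, 0, 93444584, 0, 0, 0, 0, 0, 0, ⟨0, 0⟩, 0⟩ 0 0) (.pos 112 .pm ⟨0, 0, 235834576, 0, 0, 0, 0, 0, 0, ⟨0, 0⟩, 0⟩ 0 0)) (.pos 110 .pm ⟨0, 0, 390466175, 0, 0, 0, 0, 0, 0, ⟨0, 0⟩, 0⟩ 0 0)) (.pos 108 .pm ⟨0, 0, 685143264, 0, 0, 0, 0, 0, 0, ⟨0, 0⟩, 0⟩ 0 0))) (.pos 106 .pm ⟨0, 0, 2606753784, 0, 0, 0, 0, 0, 0, ⟨0, 0⟩, 0⟩ 0 0)) (.pos 104 .pm ⟨0, 0, 4674288804, 0, 0, 0, 0, 0, 0, ⟨0, 0⟩, 0⟩ 0 0)) (.pos 102 .pm ⟨0, 0, 8195339497, 0, 0, 0, 0, 0, 0, ⟨0,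 0⟩, 0⟩ 0 0)) (.pos 100 .pm ⟨0, 0, 14278757397, 0, 0, 0, 0, 0, 0, ⟨0, 0⟩, 0⟩ 0 0)) (.pos 93 .pm ⟨0, 0, 26558246184, 0, 0, 0, 0, 0, 0, ⟨0, 0⟩, 0⟩ 0 0)) (.pos 89 .pm ⟨0, 0, 51027892642, 0, 0, 0, 0, 0, 0, ⟨0, 0⟩, 0⟩ 0 0)) (.pos 79 .pm ⟨0, 0, 92562441246, 0, 0, 0, 0, 0, 0, ⟨0, 0⟩, 0⟩ 0 0)) (.pos 5 .pm ⟨0, 0, 155532782949, 0, 0, 0, 0, 0, 0, ⟨0, 0⟩, 0⟩ 0 0)) (.pos 3 .pm ⟨0, 0, 167772160000, 0, 0, 0, 0, 0, 0, ⟨0, 0⟩, 0⟩ 0 0)) (.cut .v 4294967296 (.cut .v 268435456 (.cut .v 67108864 (.cut .v 33554432 (.pos 14 .pp ⟨0, 0, 0, 0, 0, 0, 0, 0, 0, ⟨0, 0⟩, 0⟩ 0 0) (.cut .v 50331648 (.pos 65 .pp ⟨167772160000, 0, 0, 0, 0, 0, 0, 0, 0, ⟨0, 0⟩, 0⟩ 0 0) (.void 66 ⟨77780, 0, 0, 22220,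 0, 0, 0, 0, 0, ⟨0, 0⟩, 0⟩ 0 0))) (.void 50 ⟨0, 0, 0, 100000, 0, 0, 0, 0, 0, ⟨0, 0⟩, 0⟩ 0 0)) (.void 75 ⟨0, 0, 0, 100000, 0, 0, 0, 0, 0, ⟨0, 0⟩, 0⟩ 0 0)) (.void 98 ⟨0, 0, 0, 100000, 0, 0, 0, 0, 0, ⟨0, 0⟩, 0⟩ 0 0)))),
    by decide +kernel⟩

def covers44 : cell.Covers table row44.1 :=
  ⟨(.cut .d 0 (.cut .v 16777216 (.cut .d (-8388608) (.cut .d (-12582912) (.void 1 ⟨0, 0, 0, 0, 0, 1000000000, 0, 0, 0, ⟨0, 0⟩, 0⟩ 0 0) (.void 1 ⟨0, 0, 0, 0, 0, 1000000000, 0, 0, 0, ⟨0, 0⟩, 0⟩ 0 0)) (.cut .d (-4194304) (.void 1 ⟨0, 0, 133634, 0, 0, 0, 0, 0, 0, ⟨0, 0⟩, 0⟩ 0 0) (.cut .d (-2097152) (.void 1 ⟨0, 0, 0, 0, 0, 100001, 0, 0, 0, ⟨0, 0⟩, 0⟩ 0 0) (.cut .d (-1048576) (.void 1 ⟨0,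 0, 0, 10097, 0, 89925, 0, 0, 0, ⟨0, 0⟩, 0⟩ 0 0) (.cut .d (-524288) (.void 1 ⟨0, 0, 139984, 0, 0, 0, 0, 0, 0, ⟨0, 0⟩, 0⟩ 0 0) (.cut .v 8388608 (.cut .v 4194304 (.cut .v 2097152 (.cut .d (-262144) (.void 78 ⟨0, 0, 100445, 0, 0, 0, 0, 0, 0, ⟨0, 0⟩, 0⟩ 0 0) (.void 78 ⟨0, 0, 99179, 0, 0, 0, 0, 0, 0, ⟨0, 0⟩, 0⟩ 0 0)) (.void 79 ⟨0, 0, 100000, 0, 0, 0, 0, 0, 0, ⟨0, 0⟩, 0⟩ 0 0)) (.void 5 ⟨0, 0, 100000, 0, 0, 0, 0, 0, 0, ⟨0, 0⟩, 0⟩ 0 0)) (.cut .d (-262144) (.void 3 ⟨100000, 0, 0, 0, 0, 0, 0, 0, 0, ⟨0, 0⟩, 0⟩ 0 0) (.cut .d (-131072) (.void 3 ⟨100000, 0, 0, 0, 0, 0, 0, 0, 0, ⟨0, 0⟩, 0⟩ 0 0) (.cut .d (-65536) (.void 3 ⟨100000, 0, 0, 0, 0, 0, 0, 0, 0, ⟨0, 0⟩, 0⟩ 0 0) (.cut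 .d (-32768) (.void 3 ⟨100000, 0, 0, 0, 0, 0, 0, 0, 0, ⟨0, 0⟩, 0⟩ 0 0) (.cut .d (-16384) (.void 3 ⟨100000, 0, 0, 0, 0, 0, 0, 0, 0, ⟨0, 0⟩, 0⟩ 0 0) (.cut .d (-8192) (.void 3 ⟨55214, 0, 44786, 0, 0, 0, 0, 0, 0, ⟨0, 0⟩, 0⟩ 0 0) (.cut .d (-4096) (.void 3 ⟨0, 0, 0, 0, 0, 100000, 0, 0, 0, ⟨0, 0⟩, 0⟩ 0 0) (.pos 3 .mm ⟨0, 0, 167772160000, 0, 0, 0, 0, 0, 0, ⟨0, 0⟩, 0⟩ 0 0)))))))))))))) (.cut .v 4294967296 (.cut .v 268435456 (.cut .v 67108864 (.cut .d (-8388608) (.void 36 ⟨100000, 0, 0, 0, 0, 0, 0, 0, 0, ⟨0, 0⟩, 0⟩ 0 0) (.cut .d (-4194304) (.void 36 ⟨100000, 0, 0, 0, 0, 0, 0, 0, 0, ⟨0, 0⟩, 0⟩ 0 0) (.cut .d (-2097152) (.void 36 ⟨100000, 0, 0, 0, 0, 0, 0, 0, 0, ⟨0, 0⟩, 0⟩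 0 0) (.cut .d (-1048576) (.void 36 ⟨100000, 0, 0, 0, 0, 0, 0, 0, 0, ⟨0, 0⟩, 0⟩ 0 0) (.cut .v 33554432 (.cut .d (-524288) (.void 14 ⟨100000, 0, 0, 0, 0, 0, 0, 0, 0, ⟨0, 0⟩, 0⟩ 0 0) (.cut .d (-262144) (.void 14 ⟨100000, 0, 0, 0, 0, 0, 0, 0, 0, ⟨0, 0⟩, 0⟩ 0 0) (.cut .d (-131072) (.void 14 ⟨100000, 0, 0, 0, 0, 0, 0, 0, 0, ⟨0, 0⟩, 0⟩ 0 0) (.cut .d (-65536) (.void 14 ⟨100000, 0, 0, 0, 0, 0, 0, 0, 0, ⟨0, 0⟩, 0⟩ 0 0) (.cut .d (-32768) (.void 14 ⟨100000, 0, 0, 0, 0, 0, 0, 0, 0, ⟨0, 0⟩, 0⟩ 0 0) (.cut .d (-16384) (.void 14 ⟨100000, 0, 0, 0, 0, 0, 0, 0, 0, ⟨0, 0⟩, 0⟩ 0 0) (.cut .d (-8192) (.void 14 ⟨100000, 0, 0, 0, 0, 0, 0, 0, 0, ⟨0, 0⟩, 0⟩ 0 0) (.cut .d (-4096) (.void 14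 ⟨100000, 0, 0, 0, 0, 0, 0, 0, 0, ⟨0, 0⟩, 0⟩ 0 0) (.cut .d (-2048) (.void 14 ⟨100000, 0, 0, 0, 0, 0, 0, 0, 0, ⟨0, 0⟩, 0⟩ 0 0) (.pos 14 .mp ⟨167772160000, 0, 0, 0, 0, 0, 0, 0, 0, ⟨0, 0⟩, 0⟩ 0 0)))))))))) (.void 37 ⟨100000, 0, 0, 0, 0, 0, 0, 0, 0, ⟨0, 0⟩, 0⟩ 0 0)))))) (.void 50 ⟨87506, 0, 0, 12494, 0, 0, 0, 0, 0, ⟨0, 0⟩, 0⟩ 0 0)) (.void 75 ⟨87505, 0, 0, 12495, 0, 0, 0, 0, 0, ⟨0, 0⟩, 0⟩ 0 0)) (.void 98 ⟨87505, 0, 0, 12495, 0, 0, 0, 0, 0, ⟨0, 0⟩, 0⟩ 0 0))) (.cut .v 16777216 (.cut .v 8388608 (.cut .v 4194304 (.cut .v 2097152 (.cut .v 1048576 (.cut .v 524288 (.cut .v 262144 (.cut .v 131072 (.cut .v 65536 (.cut .v 32768 (.cut .v 16384 (.cut .d 6150 (.pos 107 .pm ⟨0, 0,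 167772160000, 0, 0, 0, 0, 0, 0, ⟨0, 0⟩, 0⟩ 0 0) (.cut .v 8192 (.cut .v 4096 (.cut .v 2048 (.pos 113 .pm ⟨0, 0, 121209646, 0, 0, 0, 0, 0, 0, ⟨0, 0⟩, 0⟩ 0 0) (.pos 114 .pm ⟨0, 0, 290855415, 0, 0, 0, 0, 0, 0, ⟨0, 0⟩, 0⟩ 0 0)) (.pos 112 .pm ⟨0, 0, 474666087, 0, 0, 0, 0, 0, 0, ⟨0, 0⟩, 0⟩ 0 0)) (.pos 110 .pm ⟨0, 0, 811423695, 0, 0, 0, 0, 0, 0, ⟨0, 0⟩, 0⟩ 0 0))) (.pos 108 .pm ⟨0, 0, 2786272496, 0, 0, 0, 0, 0, 0, ⟨0, 0⟩, 0⟩ 0 0)) (.pos 106 .pm ⟨0, 0, 5114867151, 0, 0, 0, 0, 0, 0, ⟨0, 0⟩, 0⟩ 0 0)) (.pos 104 .pm ⟨0, 0, 9248663020, 0, 0, 0, 0, 0, 0, ⟨0, 0⟩, 0⟩ 0 0)) (.pos 102 .pm ⟨0, 0, 16352733608, 0, 0, 0, 0, 0, 0, ⟨0, 0⟩, 0⟩ 0 0)) (.pos 100 .pm ⟨0, 0, 28712870190, 0,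 0, 0, 0, 0, 0, ⟨0, 0⟩, 0⟩ 0 0)) (.pos 93 .pm ⟨0, 0, 53823929954, 0, 0, 0, 0, 0, 0, ⟨0, 0⟩, 0⟩ 0 0)) (.pos 89 .pm ⟨0, 0, 102975081568, 0, 0, 0, 0, 0, 0, ⟨0, 0⟩, 0⟩ 0 0)) (.pos 79 .pm ⟨0, 0, 167772160000, 0, 0, 0, 0, 0, 0, ⟨0, 0⟩, 0⟩ 0 0)) (.pos 5 .pm ⟨0, 0, 167772160000, 0, 0, 0, 0, 0, 0, ⟨0, 0⟩, 0⟩ 0 0)) (.pos 3 .pm ⟨0, 0, 167772160000, 0, 0, 0, 0, 0, 0, ⟨0, 0⟩, 0⟩ 0 0)) (.cut .v 4294967296 (.cut .v 268435456 (.cut .v 67108864 (.cut .d 6150 (.cut .d 3075 (.cut .d 1537 (.cut .v 33554432 (.pos 14 .pp ⟨0, 0, 0, 0, 0, 0, 0, 0, 0, ⟨0, 0⟩, 0⟩ 0 0) (.cut .v 50331648 (.pos 65 .pp ⟨167772160000, 0, 0, 0, 0, 0, 0, 0, 0, ⟨0, 0⟩, 0⟩ 0 0) (.void 66 ⟨77785, 0, 0, 22215, 0,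 0, 0, 0, 0, ⟨0, 0⟩, 0⟩ 0 0))) (.pos 36 .pp ⟨10023476924, 0, 0, 157748683076, 0, 0, 0, 0, 0, ⟨0, 0⟩, 0⟩ 0 0)) (.pos 36 .pp ⟨0, 0, 0, 86316856044, 0, 0, 0, 0, 0, ⟨0, 0⟩, 0⟩ 0 0)) (.pos 36 .pp ⟨0, 0, 0, 0, 0, 0, 0, 0, 0, ⟨0, 0⟩, 0⟩ 0 0)) (.void 50 ⟨0, 0, 0, 100000, 0, 0, 0, 0, 0, ⟨0, 0⟩, 0⟩ 0 0)) (.void 75 ⟨0, 0, 0, 100000, 0, 0, 0, 0, 0, ⟨0, 0⟩, 0⟩ 0 0)) (.void 98 ⟨0, 0, 0, 100000, 0, 0, 0, 0, 0, ⟨0, 0⟩, 0⟩ 0 0)))),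
    by decide +kernel⟩

def covers45 : cell.Covers table row45.1 :=
  ⟨(.cut .d 0 (.cut .v 16777216 (.cut .d (-8388608) (.void 1 ⟨0, 0, 0, 0, 0, 100000, 0, 0, 0, ⟨0, 0⟩, 0⟩ 0 0) (.cut .d (-4194304) (.void 1 ⟨0, 0, 0, 0, 0, 100000, 0, 0, 0, ⟨0, 0⟩, 0⟩ 0 0) (.cut .d (-2097152) (.void 1 ⟨0, 0, 0, 0, 0, 100000, 0, 0, 0, ⟨0, 0⟩, 0⟩ 0 0) (.cut .d (-1048576) (.void 1 ⟨0, 0, 253, 0, 0, 99741, 0, 0, 0, ⟨0, 0⟩, 0⟩ 0 0) (.cut .d (-524288) (.void 1 ⟨0, 0, 0, 0, 0, 100003, 0, 0, 0, ⟨0, 0⟩, 0⟩ 0 0) (.cut .d (-262144) (.void 1 ⟨0, 0, 144872, 0, 0, 0, 0, 0, 0, ⟨0, 0⟩, 0⟩ 0 0) (.cut .d (-131072) (.void 1 ⟨0, 0, 0, 914, 0, 99025, 0, 0, 0, ⟨0, 0⟩, 0⟩ 0 0) (.cut .d (-65536) (.void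 1 ⟨0, 0, 0, 1791, 0, 99300, 0, 0, 0, ⟨0, 0⟩, 0⟩ 0 0) (.cut .v 8388608 (.cut .v 4194304 (.cut .v 2097152 (.cut .v 1048576 (.void 88 ⟨0, 0, 99685, 0, 0, 0, 0, 0, 0, ⟨0, 0⟩, 0⟩ 0 0) (.void 89 ⟨0, 0, 100000, 0, 0, 0, 0, 0, 0, ⟨0, 0⟩, 0⟩ 0 0)) (.void 79 ⟨0, 0, 100000, 0, 0, 0, 0, 0, 0, ⟨0, 0⟩, 0⟩ 0 0)) (.void 5 ⟨0, 0, 100000, 0, 0, 0, 0, 0, 0, ⟨0, 0⟩, 0⟩ 0 0)) (.cut .d (-32768) (.void 3 ⟨100000, 0, 0, 0, 0, 0, 0, 0, 0, ⟨0, 0⟩, 0⟩ 0 0) (.cut .d (-16384) (.void 3 ⟨100000, 0, 0, 0, 0, 0, 0, 0, 0, ⟨0, 0⟩, 0⟩ 0 0) (.cut .d (-8192) (.void 3 ⟨55178, 0, 44822, 0, 0, 0, 0, 0, 0, ⟨0, 0⟩, 0⟩ 0 0) (.cut .d (-4096) (.void 3 ⟨0, 0, 0, 0, 0, 100000, 0, 0, 0, ⟨0, 0⟩, 0⟩ 0 0) (.cut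 .d (-2048) (.void 3 ⟨0, 0, 0, 0, 0, 100000, 0, 0, 0, ⟨0, 0⟩, 0⟩ 0 0) (.pos 3 .mm ⟨0, 0, 167772160000, 0, 0, 0, 0, 0, 0, ⟨0, 0⟩, 0⟩ 0 0))))))))))))))) (.cut .v 4294967296 (.cut .v 268435456 (.cut .d (-8388608) (.void 49 ⟨100000, 0, 0, 0, 0, 0, 0, 0, 0, ⟨0, 0⟩, 0⟩ 0 0) (.cut .v 67108864 (.cut .d (-4194304) (.void 36 ⟨100000, 0, 0, 0, 0, 0, 0, 0, 0, ⟨0, 0⟩, 0⟩ 0 0) (.cut .d (-2097152) (.void 36 ⟨100000, 0, 0, 0, 0, 0, 0, 0, 0, ⟨0, 0⟩, 0⟩ 0 0) (.cut .d (-1048576) (.void 36 ⟨100000, 0, 0, 0, 0, 0, 0, 0, 0, ⟨0, 0⟩, 0⟩ 0 0) (.cut .d (-524288) (.void 36 ⟨100000, 0, 0, 0, 0, 0, 0, 0, 0, ⟨0, 0⟩, 0⟩ 0 0) (.cut .v 33554432 (.cut .d (-262144) (.void 14 ⟨100000, 0, 0, 0, 0,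 0, 0, 0, 0, ⟨0, 0⟩, 0⟩ 0 0) (.cut .d (-131072) (.void 14 ⟨100000, 0, 0, 0, 0, 0, 0, 0, 0, ⟨0, 0⟩, 0⟩ 0 0) (.cut .d (-65536) (.void 14 ⟨100000, 0, 0, 0, 0, 0, 0, 0, 0, ⟨0, 0⟩, 0⟩ 0 0) (.cut .d (-32768) (.void 14 ⟨100000, 0, 0, 0, 0, 0, 0, 0, 0, ⟨0, 0⟩, 0⟩ 0 0) (.cut .d (-16384) (.void 14 ⟨100000, 0, 0, 0, 0, 0, 0, 0, 0, ⟨0, 0⟩, 0⟩ 0 0) (.cut .d (-8192) (.void 14 ⟨100000, 0, 0, 0, 0, 0, 0, 0, 0, ⟨0, 0⟩, 0⟩ 0 0) (.cut .d (-4096) (.void 14 ⟨100000, 0, 0, 0, 0, 0, 0, 0, 0, ⟨0, 0⟩, 0⟩ 0 0) (.cut .d (-2048) (.void 14 ⟨100000, 0, 0, 0, 0, 0, 0, 0, 0, ⟨0, 0⟩, 0⟩ 0 0) (.cut .d (-1024) (.void 14 ⟨100000, 0, 0, 0, 0, 0, 0, 0, 0, ⟨0, 0⟩, 0⟩ 0 0) (.pos 14 .mp ⟨167772160000,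 0, 0, 0, 0, 0, 0, 0, 0, ⟨0, 0⟩, 0⟩ 0 0)))))))))) (.void 37 ⟨100000, 0, 0, 0, 0, 0, 0, 0, 0, ⟨0, 0⟩, 0⟩ 0 0)))))) (.void 50 ⟨82356, 0, 0, 17644, 0, 0, 0, 0, 0, ⟨0, 0⟩, 0⟩ 0 0))) (.void 75 ⟨87503, 0, 0, 12497, 0, 0, 0, 0, 0, ⟨0, 0⟩, 0⟩ 0 0)) (.void 98 ⟨87503, 0, 0, 12497, 0, 0, 0, 0, 0, ⟨0, 0⟩, 0⟩ 0 0))) (.cut .v 16777216 (.cut .v 8388608 (.cut .v 4194304 (.cut .v 2097152 (.cut .v 1048576 (.cut .v 524288 (.cut .v 262144 (.cut .v 131072 (.cut .v 65536 (.cut .v 32768 (.cut .d 4099 (.cut .v 16384 (.cut .v 8192 (.cut .v 4096 (.cut .v 2048 (.cut .v 1024 (.pos 115 .pm ⟨0, 0, 346624587, 0, 0, 0, 0, 0, 0, ⟨0, 0⟩, 0⟩ 0 0) (.pos 116 .pm ⟨0, 0, 714703553, 0, 0, 0, 0, 0, 0,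 ⟨0, 0⟩, 0⟩ 0 0)) (.pos 114 .pm ⟨0, 0, 1349404222, 0, 0, 0, 0, 0, 0, ⟨0, 0⟩, 0⟩ 0 0)) (.pos 112 .pm ⟨0, 0, 2555168790, 0, 0, 0, 0, 0, 0, ⟨0, 0⟩, 0⟩ 0 0)) (.pos 110 .pm ⟨0, 0, 4821379116, 0, 0, 0, 0, 0, 0, ⟨0, 0⟩, 0⟩ 0 0)) (.pos 108 .pm ⟨0, 0, 9023251324, 0, 0, 0, 0, 0, 0, ⟨0, 0⟩, 0⟩ 0 0)) (.cut .v 16384 (.cut .v 8192 (.cut .v 4096 (.cut .v 2048 (.cut .v 1024 (.cut .d 6149 (.pos 115 .pm ⟨0, 0, 127338914, 0, 0, 0, 0, 0, 0, ⟨0, 0⟩, 0⟩ 0 0) (.pos 115 .pm ⟨0, 0, 0, 1609787, 0, 0, 0, 0, 0, ⟨0, 0⟩, 0⟩ 0 0)) (.cut .s 16771072 (.pos 116 .pm ⟨0, 0, 281101571, 0, 0, 0, 0, 0, 0, ⟨0, 0⟩, 0⟩ 0 0) (.pos 116 .pm ⟨0, 0, 313314914, 0, 0, 0, 0, 0, 0, ⟨0, 0⟩, 0⟩ 0 0))) (.cut .s 16771072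 (.pos 114 .pm ⟨0, 0, 470307142, 0, 0, 0, 0, 0, 0, ⟨0, 0⟩, 0⟩ 0 0) (.pos 114 .pm ⟨0, 0, 515030981, 0, 0, 0, 0, 0, 0, ⟨0, 0⟩, 0⟩ 0 0))) (.cut .s 16771072 (.pos 112 .pm ⟨0, 0, 825701550, 0, 0, 0, 0, 0, 0, ⟨0, 0⟩, 0⟩ 0 0) (.pos 112 .pm ⟨0, 0, 906872657, 0, 0, 0, 0, 0, 0, ⟨0, 0⟩, 0⟩ 0 0))) (.cut .s 16771072 (.pos 110 .pm ⟨0, 0, 1427896001, 0, 0, 0, 0, 0, 0, ⟨0, 0⟩, 0⟩ 0 0) (.pos 110 .pm ⟨0, 0, 1680228159, 0, 0, 0, 0, 0, 0, ⟨0, 0⟩, 0⟩ 0 0))) (.pos 108 .pm ⟨0, 0, 2432643052, 0, 0, 0, 0, 0, 0, ⟨0, 0⟩, 0⟩ 0 0))) (.cut .d 4099 (.pos 106 .pm ⟨0, 0, 16679864204, 0, 0, 0, 0, 0, 0, ⟨0, 0⟩, 0⟩ 0 0) (.pos 106 .pm ⟨0, 0, 4553011137, 0, 0, 0, 0, 0, 0, ⟨0, 0⟩, 0⟩ 0 0))) (.cut .d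 4099 (.pos 104 .pm ⟨0, 0, 30321493992, 0, 0, 0, 0, 0, 0, ⟨0, 0⟩, 0⟩ 0 0) (.pos 104 .pm ⟨0, 0, 9075299156, 0, 0, 0, 0, 0, 0, ⟨0, 0⟩, 0⟩ 0 0))) (.pos 102 .pm ⟨0, 0, 33789766322, 0, 0, 0, 0, 0, 0, ⟨0, 0⟩, 0⟩ 0 0)) (.pos 100 .pm ⟨0, 0, 57135589964, 0, 0, 0, 0, 0, 0, ⟨0, 0⟩, 0⟩ 0 0)) (.pos 93 .pm ⟨0, 0, 103775544619, 0, 0, 0, 0, 0, 0, ⟨0, 0⟩, 0⟩ 0 0)) (.pos 89 .pm ⟨0, 0, 167772160000, 0, 0, 0, 0, 0, 0, ⟨0, 0⟩, 0⟩ 0 0)) (.pos 79 .pm ⟨0, 0, 167772160000, 0, 0, 0, 0, 0, 0, ⟨0, 0⟩, 0⟩ 0 0)) (.pos 5 .pm ⟨0, 0, 167772160000, 0, 0, 0, 0, 0, 0, ⟨0, 0⟩, 0⟩ 0 0)) (.pos 3 .pm ⟨0, 0, 167772160000, 0, 0, 0, 0, 0, 0, ⟨0, 0⟩, 0⟩ 0 0)) (.cut .v 4294967296 (.cut .v 268435456 (.cut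 .v 67108864 (.cut .d 4099 (.cut .d 2049 (.cut .d 1024 (.cut .v 33554432 (.pos 14 .pp ⟨0, 0, 0, 0, 0, 0, 0, 0, 0, ⟨0, 0⟩, 0⟩ 0 0) (.cut .v 50331648 (.pos 65 .pp ⟨167772160000, 0, 0, 0, 0, 0, 0, 0, 0, ⟨0, 0⟩, 0⟩ 0 0) (.void 66 ⟨77773, 0, 0, 22227, 0, 0, 0, 0, 0, ⟨0, 0⟩, 0⟩ 0 0))) (.pos 36 .pp ⟨0, 0, 0, 167772160000, 0, 0, 0, 0, 0, ⟨0, 0⟩, 0⟩ 0 0)) (.pos 36 .pp ⟨0, 0, 0, 167772160000, 0, 0, 0, 0, 0, ⟨0, 0⟩, 0⟩ 0 0)) (.pos 36 .pp ⟨0, 0, 0, 0, 0, 0, 0, 0, 0, ⟨0, 0⟩, 0⟩ 0 0)) (.void 50 ⟨0, 0, 0, 100000, 0, 0, 0, 0, 0, ⟨0, 0⟩, 0⟩ 0 0)) (.void 75 ⟨0, 0, 0, 100000, 0, 0, 0, 0, 0, ⟨0, 0⟩, 0⟩ 0 0)) (.void 98 ⟨0, 0, 0, 100000, 0, 0, 0, 0, 0, ⟨0, 0⟩, 0⟩ 0 0)))),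
    by decide +kernel⟩

end Vale.Agent.P237.Petty.Cor.Grid.N6.Low
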